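import Vale.Agent.P365.Open.Defs
import Vale.Agent.P365.Torus.Base

/-!
# P365: the static theorem as a proposition (interface between blocks STATIC and LOC5).
-/

set_option linter.all false

namespace P365L

/-- **static theorem**: a small loss rate at absorption `ε` forces a small near energy. -/
def StaticThm : Prop :=
  ∀ γ : ℝ, 0 < γ → ∀ B : ℝ, 0 ≤ B → ∀ R : ℝ, 0 < R → ∀ θ : ℝ, 0 < θ →
    ∃ η : ℝ, 0 < η ∧ ∀ (N : ℕ) [NeZero N], 3 ≤ N → ∀ ε : ℝ, 0 < ε → ε ≤ γ / 2 →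
      ∀ U : Tor N → ℝ, (∀ x, |U x| ≤ B) →
      ∀ φ : Tor N → ℝ, (∀ x y, |φ x - φ y| ≤ nrm (x - y)) →
      ε * ∑ z, EEp γ (fun _ => ε) U (fun W => mm (AT N) W z * muf (AT N) W φ z ^ 2) ≤
        η * (N : ℝ) ^ 2 →
      ∑ x, ∑ y ∈ Finset.univ.filter (fun y => (nrm (x - y) : ℝ) ≤ R / Real.sqrt ε),
        ε ^ 2 * EEp γ (fun _ => ε) U (fun W => KK (AT N) W x y) * (φ x - φ y) ^ 2 ≤
        θ * (N : ℝ) ^ 2

end P365L
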