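import Vale.Agent.P365.Stat.T2b
import Vale.Agent.P365.L1.Near3
import Vale.Agent.P365.Open.Energy
import Vale.Agent.P365.Torus.Char

/-!
# P365, static theorem: bad masses and far mass (K0).

Potential `Wc U g e c`.
* `int_mm_le`: `E m_y ≤ 1/g`.
* `int_mm_tail`: `E m_y 1{|c_y| > X} ≤ 1/(g (1+X²))`.
* `int_mm_Sb`: `E m_y S_B ≤ (1/g) (∑_B b/g + 1)`.
* `far_mass`: on the torus, `E ε ∑_b ∑_{z : |z-b| > ρ} K_zb ≤ 4π² N² / (γ² ε ρ²)`.
-/

set_option linter.all false

namespace P365L.Stat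

open MeasureTheory ProbabilityTheory Complex Set P365L P365L.Poi P365O
open scoped ComplexConjugate Real

variable {ι : Type*} [Fintype ι] [DecidableEq ι]

/-! ### bounded measurable functions -/

/-- bounded measurable function of the environment -/
structure BM (f : (ι → ℝ) → ℝ) : Prop where
  meas : Measurable f
  bdd : ∃ M : ℝ, ∀ c, |f c| ≤ M

omit [DecidableEq ι] in
theorem BM.int {f : (ι → ℝ) → ℝ} (hf : BM f) : Integrable f (mu ι) := by
  obtain ⟨M, hM⟩ := hf.bdd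
  exact Integrable.of_bound hf.meas.aestronglyMeasurable M (Filter.Eventually.of_forall hM)

omit [Fintype ι] [DecidableEq ι] in
theorem BM.const (r : ℝ) : BM (fun _ : ι → ℝ => r) := ⟨measurable_const, |r|, fun _ => le_rfl⟩

omit [Fintype ι] [DecidableEq ι] in
theorem BM.add {f g : (ι → ℝ) → ℝ} (hf : BM f) (hg : BM g) : BM (fun c => f c + g c) := by
  obtain ⟨M, hM⟩ := hf.bdd
  obtain ⟨M', hM'⟩ := hg.bdd
  exact ⟨hf.meas.add hg.meas, M + M', fun c =>
    (abs_add_le _ _).trans (add_le_add (hM c) (hM' c))⟩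

omit [Fintype ι] [DecidableEq ι] in
theorem BM.mul {f g : (ι → ℝ) → ℝ} (hf : BM f) (hg : BM g) : BM (fun c => f c * g c) := by
  obtain ⟨M, hM⟩ := hf.bdd
  obtain ⟨M', hM'⟩ := hg.bdd
  refine ⟨hf.meas.mul hg.meas, M * M', fun c => ?_⟩
  rw [abs_mul]
  exact mul_le_mul (hM c) (hM' c) (abs_nonneg _) ((abs_nonneg _).trans (hM c))

omit [Fintype ι] [DecidableEq ι] in
theorem BM.cmul {f : (ι → ℝ) → ℝ} (hf : BM f) (r : ℝ) : BM (fun c => r * f c) :=
  (BM.const r).mul hf

omit [Fintype ι] [DecidableEq ι] in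
theorem BM.sum {κ : Type*} (S : Finset κ) {F : κ → (ι → ℝ) → ℝ} (hF : ∀ i ∈ S, BM (F i)) :
    BM (fun c => ∑ i ∈ S, F i c) := by
  classical
  induction S using Finset.induction_on with
  | empty => simpa using BM.const (ι := ι) 0
  | insert i S hi ih =>
    simp only [Finset.sum_insert hi]
    exact (hF i (Finset.mem_insert_self _ _)).add
      (ih fun j hj => hF j (Finset.mem_insert_of_mem hj))

omit [Fintype ι] [DecidableEq ι] in
theorem BM.ind {f : (ι → ℝ) → ℝ} (hf : BM f) {s : Set (ι → ℝ)} (hs : MeasurableSet s) :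
    BM (s.indicator f) := by
  obtain ⟨M, hM⟩ := hf.bdd
  refine ⟨hf.meas.indicator hs, M, fun c => ?_⟩
  by_cases h : c ∈ s
  · rw [Set.indicator_of_mem h]; exact hM c
  · rw [Set.indicator_of_notMem h, abs_zero]; exact (abs_nonneg _).trans (hM c)

variable {A : Matrix ι ι ℝ} {U g e : ι → ℝ} {a : ι → ℝ}

theorem BM_mm (hA : A.IsSymm) (he : ∀ x, 0 < e x) (z : ι) :
    BM (fun c => mm A (Wc U g e c) z) := by
  obtain ⟨C, hC0, hC⟩ := bounded_im (U := U) (g := g) hA he
  refine ⟨measurable_mmc z, C, fun c => ?_⟩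
  rw [abs_of_pos (mm_pos hA (Wc_neg he c) z)]
  exact hC c z

theorem BM_KK (hA : A.IsSymm) (he : ∀ x, 0 < e x) (z w : ι) :
    BM (fun c => KK A (Wc U g e c) z w) := by
  obtain ⟨η, hη, hle⟩ := exists_lower he
  refine ⟨measurable_KKc z w, (1 / η) ^ 2, fun c => ?_⟩
  rw [abs_of_nonneg (KK_nonneg _ _)]
  exact pow_le_pow_left₀ (norm_nonneg _) (norm_Gc_le hA hη hle c z w) 2

theorem BM_Tsq (hA : A.IsSymm) (he : ∀ x, 0 < e x) (z w : ι) :
    BM (fun c => ‖Tm A (Wc U g e c) a z w‖ ^ 2) := by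
  obtain ⟨M, hM0, hM⟩ := bdd_Tmc (U := U) (g := g) (a := a) hA he z w
  refine ⟨(measurable_Tmc hA he z w).norm.pow_const 2, M ^ 2, fun c => ?_⟩
  rw [abs_of_nonneg (sq_nonneg _)]
  exact pow_le_pow_left₀ (norm_nonneg _) (hM c) 2

theorem measurable_PPc (x y : ι) : Measurable fun c => PP A (Wc U g e c) x y := by
  unfold PP
  simp only [Wc_im]
  exact ((measurable_KKc x y).const_mul _).div (measurable_mmc x)

theorem BM_muf (hA : A.IsSymm) (he : ∀ x, 0 < e x) (z : ι) :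
    BM (fun c => muf A (Wc U g e c) a z) := by
  unfold muf
  refine BM.add (g := fun _ => -a z) (BM.sum _ fun y _ => ?_) (BM.const _)
  refine BM.mul ⟨measurable_PPc z y, 1, fun c => ?_⟩ (BM.const _)
  have hW := Wc_neg (U := U) (g := g) he c
  rw [abs_of_nonneg (PP_nonneg hA hW z y), ← PP_sum hA hW z]
  exact Finset.single_le_sum (fun y _ => PP_nonneg hA hW z y) (Finset.mem_univ y)

theorem BM_loss (hA : A.IsSymm) (he : ∀ x, 0 < e x) (z : ι) :
    BM (fun c => mm A (Wc U g e c) z * muf A (Wc U g e c) a z ^ 2) := by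
  have h := BM_muf (U := U) (g := g) (a := a) hA he z
  have h2 := (BM_mm (U := U) (g := g) hA he z).mul (h.mul h)
  simpa only [sq] using h2

theorem BM_kap (hA : A.IsSymm) (he : ∀ x, 0 < e x) (z w : ι) :
    BM (fun c => kap A (Wc U g e c) z w) := by
  refine ⟨measurable_kapc z w, 1, fun c => ?_⟩
  rw [abs_of_nonneg (kap_nonneg hA (Wc_neg he c) z w)]
  exact (kap_lt_one hA (Wc_neg he c) z w).le

theorem BM_Sb (hA : A.IsSymm) (he : ∀ x, 0 < e x) (b : ι → ℝ) (B : Finset ι) :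
    BM (fun c => Sb A U g e b B c) := by
  unfold Sb
  exact BM.sum _ fun y _ => (BM_mm (U := U) (g := g) hA he y).cmul (b y)

/-! ### bad masses -/

/-- `E m_y ≤ 1/g_y` -/
theorem int_mm_le (hA : A.IsSymm) (he : ∀ x, 0 < e x) {y : ι} (hg : 0 < g y) :
    ∫ c, mm A (Wc U g e c) y ∂(mu ι) ≤ 1 / g y := by
  have h := site_le (U := U) (g := g) hA he hg (Ψ := fun _ => (1 : ℝ)) (Ψ' := fun _ => (1 : ℝ))
    measurable_const (fun _ => zero_le_one) (M := 1) (fun _ => le_rfl) (integrable_const _)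
    (fun _ _ => le_rfl)
  simp only [mul_one, integral_const, smul_eq_mul, probReal_univ] at h
  exact h

/-- tail density of the Cauchy law: at most `1/(π (1+X²))` on `|t| > X` -/
theorem nu_tail_le {X : ℝ} (hX : 0 ≤ X) {f : ℝ → ℝ} (hf : ∀ t, 0 ≤ f t) (hi : Integrable f) :
    ∫ t, {t : ℝ | X < |t|}.indicator f t ∂nu ≤ (π * (1 + X ^ 2))⁻¹ * ∫ t, f t := by
  have h1 : nu = volume.withDensity (cauchyPDF 0 1) :=
    cauchyMeasure_of_scale_ne_zero 0 one_ne_zero
  rw [h1, integral_withDensity_eq_integral_toReal_smul (measurable_cauchyPDF 0 1)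
    (Filter.Eventually.of_forall fun x => ENNReal.ofReal_lt_top), ← integral_const_mul]
  refine integral_mono_of_nonneg (Filter.Eventually.of_forall fun t => ?_) (hi.const_mul _)
    (Filter.Eventually.of_forall fun t => ?_)
  · exact smul_nonneg ENNReal.toReal_nonneg (Set.indicator_nonneg (fun t _ => hf t) t)
  · simp only [smul_eq_mul]
    by_cases ht : t ∈ {t : ℝ | X < |t|}
    · rw [Set.indicator_of_mem ht]
      apply mul_le_mul_of_nonneg_right _ (hf t)
      rw [cauchyPDF, ENNReal.toReal_ofReal (cauchyPDF_pos 0 one_ne_zero t).le, cauchyPDFReal_def]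
      simp only [NNReal.coe_one, mul_one, sub_zero, one_pow]
      rw [mul_inv]
      refine mul_le_mul_of_nonneg_left ?_ (by positivity)
      refine inv_anti₀ (by positivity) ?_
      have h2 : X ^ 2 ≤ |t| ^ 2 := pow_le_pow_left₀ hX (le_of_lt ht) 2
      rw [sq_abs] at h2
      linarith
    · rw [Set.indicator_of_notMem ht, mul_zero]
      exact mul_nonneg (by positivity) (hf t)

/-- one-site spectral averaging on the tail -/
theorem one_site_tail (hA : A.IsSymm) (he : ∀ x, 0 < e x) (c : ι → ℝ) {z : ι} (hg : 0 < g z)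
    {X : ℝ} (hX : 0 ≤ X) :
    ∫ t, {t : ℝ | X < |t|}.indicator
      (fun t => (Gc A U g e (Function.update c z t) z z).im) t ∂nu ≤ 1 / (g z * (1 + X ^ 2)) := by
  set w := Gc A U g e c z z with hw
  have hm : 0 < w.im := im_pos hA he c z
  have hw0 : w ≠ 0 := diag_ne_zero hA he c z
  have hgc : (g z : ℂ) ≠ 0 := Complex.ofReal_ne_zero.2 hg.ne'
  set p : ℂ := (c z : ℂ) - ((g z : ℂ) * w)⁻¹ with hp
  have hns : 0 < ‖w‖ ^ 2 := pow_pos (norm_pos_iff.2 hw0) 2
  have hpim : p.im = w.im / (g z * ‖w‖ ^ 2) := by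
    have h2 : normSq w = ‖w‖ ^ 2 := (Complex.sq_norm w).symm
    rw [hp]
    simp only [mul_inv, sub_im, ofReal_im, mul_im, inv_re, ofReal_re, normSq_ofReal, inv_im, h2]
    field_simp
    ring
  have hpp : 0 < p.im := by rw [hpim]; positivity
  have hfun : ∀ t : ℝ, (Gc A U g e (Function.update c z t) z z).im =
      w.im / (g z ^ 2 * ‖w‖ ^ 2) * (‖(t : ℂ) - p‖ ^ 2)⁻¹ := by
    intro t
    rw [im_update hA he c z t]
    have h1 : 1 + ((g z * (t - c z) : ℝ) : ℂ) * w = (g z : ℂ) * w * ((t : ℂ) - p) := by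
      rw [hp]
      push_cast
      field_simp
      ring
    rw [h1, norm_mul, norm_mul, Complex.norm_real, Real.norm_eq_abs, abs_of_pos hg, mul_pow,
      mul_pow, div_mul_eq_div_div, div_eq_mul_inv (w.im / (g z ^ 2 * ‖w‖ ^ 2))]
  have hint : Integrable fun t : ℝ => w.im / (g z ^ 2 * ‖w‖ ^ 2) * (‖(t : ℂ) - p‖ ^ 2)⁻¹ :=
    (cau_integrable_sq hpp).const_mul _
  simp only [hfun]
  refine (nu_tail_le hX (fun t => by positivity) hint).trans (le_of_eq ?_)
  rw [integral_const_mul, cau_integral_sq hpp, hpim]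
  field_simp

/-- `E m_y 1{|c_y| > X} ≤ 1/(g_y (1+X²))` -/
theorem int_mm_tail (hA : A.IsSymm) (he : ∀ x, 0 < e x) {y : ι} (hg : 0 < g y) {X : ℝ}
    (hX : 0 ≤ X) :
    ∫ c, {c : ι → ℝ | X < |c y|}.indicator (fun c => mm A (Wc U g e c) y) c ∂(mu ι) ≤
      1 / (g y * (1 + X ^ 2)) := by
  have hms : MeasurableSet {c : ι → ℝ | X < |c y|} :=
    measurableSet_lt measurable_const (measurable_pi_apply y).abs
  have hi := ((BM_mm (U := U) (g := g) hA he y).ind hms).int
  rw [integral_resample y _ hi]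
  have h1 : ∀ c : ι → ℝ, ∫ t, {c : ι → ℝ | X < |c y|}.indicator
      (fun c => mm A (Wc U g e c) y) (Function.update c y t) ∂nu ≤ 1 / (g y * (1 + X ^ 2)) := by
    intro c
    refine le_trans (le_of_eq ?_) (one_site_tail (U := U) hA he c hg hX)
    congr 1
    funext t
    by_cases ht : X < |t|
    · have m1 : t ∈ {t : ℝ | X < |t|} := ht
      have m2 : Function.update c y t ∈ {c : ι → ℝ | X < |c y|} := by
        show X < |Function.update c y t y|
        rw [Function.update_self]; exact ht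
      rw [Set.indicator_of_mem m1, Set.indicator_of_mem m2]
      rfl
    · have m1 : t ∉ {t : ℝ | X < |t|} := ht
      have m2 : Function.update c y t ∉ {c : ι → ℝ | X < |c y|} := by
        show ¬ X < |Function.update c y t y|
        rw [Function.update_self]; exact ht
      rw [Set.indicator_of_notMem m1, Set.indicator_of_notMem m2]
  calc _ ≤ ∫ _c : ι → ℝ, 1 / (g y * (1 + X ^ 2)) ∂(mu ι) :=
        integral_mono_of_nonneg (Filter.Eventually.of_forall fun c =>
          integral_nonneg fun t => Set.indicator_nonneg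
            (fun c _ => (mm_pos hA (Wc_neg he c) y).le) _) (integrable_const _)
          (Filter.Eventually.of_forall h1)
    _ = _ := by simp

/-- `E m_y S_B ≤ g_y⁻¹ (∑_{B} b/g + 1)` -/
theorem int_mm_Sb (hA : A.IsSymm) (he : ∀ x, 0 < e x) {y : ι} (hg : 0 < g y) {b : ι → ℝ}
    (hb : ∀ x, 0 ≤ b x) (hbe : ∀ x, b x ≤ e x) (B : Finset ι) (hgB : ∀ z ∈ B, 0 < g z) :
    ∫ c, mm A (Wc U g e c) y * Sb A U g e b B c ∂(mu ι) ≤
      1 / g y * (∑ z ∈ B, b z / g z + 1) := by
  have h := poisson_site (U := U) hA he hb hbe B hg (Φ := fun s => s) (fun _ _ h => h)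
    (fun _ h => h)
  refine h.trans (mul_le_mul_of_nonneg_left ?_ (by positivity))
  rw [integral_add (BM_Sb hA he b B).int (integrable_const _)]
  simp only [integral_const, smul_eq_mul, mul_one, probReal_univ]
  linarith [Sb_moment_one (U := U) hA he hb hbe B hgB]

/-- a bad site carries little mass (pointwise) -/
theorem mm_bad_le (hA : A.IsSymm) (he : ∀ x, 0 < e x) {X0 d0 : ℝ} (hd : 0 ≤ d0) {c : ι → ℝ} {y : ι}
    (h : ¬ Good A U g e X0 d0 c y) : mm A (Wc U g e c) y ≤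
      d0 + {c : ι → ℝ | X0 < |c y|}.indicator (fun c => mm A (Wc U g e c) y) c := by
  have hW := Wc_neg (U := U) (g := g) he c
  by_cases hx : X0 < |c y|
  · have m1 : c ∈ {c : ι → ℝ | X0 < |c y|} := hx
    rw [Set.indicator_of_mem m1]
    linarith
  · have m1 : c ∉ {c : ι → ℝ | X0 < |c y|} := hx
    rw [Set.indicator_of_notMem m1, add_zero]
    have h2 : ¬ d0 ≤ ‖Gc A U g e c y y‖ := fun h2 => h ⟨not_lt.1 hx, h2⟩
    exact ((le_abs_self _).trans (Complex.abs_im_le_norm _)).trans (not_le.1 h2).le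

end P365L.Stat

namespace P365L.Stat

open MeasureTheory ProbabilityTheory Complex Set P365L P365L.Poi P365O
open scoped ComplexConjugate Real

/-! ### the far mass on the torus -/

/-- the distance of the torus -/
noncomputable def dN {N : ℕ} [NeZero N] (x y : Tor N) : ℝ := (nrm (x - y) : ℝ)

theorem dN_self {N : ℕ} [NeZero N] (x : Tor N) : dN x x = 0 := by
  unfold dN; rw [sub_self, nrm_zero]; simp

theorem dN_comm {N : ℕ} [NeZero N] (x y : Tor N) : dN x y = dN y x := by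
  unfold dN; rw [nrm_sub_comm]

theorem dN_tri {N : ℕ} [NeZero N] (x y z : Tor N) : dN x z ≤ dN x y + dN y z := by
  unfold dN
  have h : x - z = (x - y) + (y - z) := by abel
  rw [h]
  exact_mod_cast nrm_add_le (x - y) (y - z)

/-- far mass of the columns -/
theorem far_mass {N : ℕ} [NeZero N] {γ ε : ℝ} (hγ : 0 < γ) (hε : 0 < ε) (hεγ : ε ≤ γ)
    (U : Tor N → ℝ) {ρ : ℝ} (hρ : 0 < ρ) :
    ∫ c, ε * ∑ b, ∑ z ∈ (Bl dN b ρ)ᶜ,
        KK (AT N) (Wc U (fun _ => γ - ε) (fun _ => ε) c) z b ∂(mu (Tor N)) ≤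
      4 * π ^ 2 / γ ^ 2 * ((N : ℝ) ^ 2 / (ε * ρ ^ 2)) := by
  have hA := AT_symm N
  have he : ∀ x : Tor N, 0 < (fun _ : Tor N => ε) x := fun _ => hε
  have hpi := Real.pi_pos
  set W : (Tor N → ℝ) → Tor N → ℂ := fun c => Wc U (fun _ => γ - ε) (fun _ => ε) c with hW
  have hWp : ∀ c, Wp γ (fun _ => ε) U c = W c := fun c => rfl
  -- energies of the characters
  have h1 : ∀ i : Fin 4, ∫ c, En (AT N) (W c) (phi N i) ∂(mu (Tor N)) ≤
      1 / γ ^ 2 * (4 * (N : ℝ) ^ 2) := by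
    intro i
    have h := energy_le (A := AT N) hA hγ U he (fun _ => hεγ) (phi N i)
    refine le_trans (le_of_eq rfl) (h.trans ?_)
    refine mul_le_mul_of_nonneg_left ?_ (by positivity)
    simp only [AT_sq]
    exact phi_energy_le i
  have hint : ∀ i : Fin 4, Integrable (fun c => En (AT N) (W c) (phi N i)) (mu (Tor N)) := fun i =>
    (Adm_En hA (phi N i)).integrable he γ U
  -- pointwise
  have h2 : ∀ c, ε * ∑ b, ∑ z ∈ (Bl dN b ρ)ᶜ, KK (AT N) (W c) z b ≤
      π ^ 2 / (4 * ε * ρ ^ 2) * ∑ i, En (AT N) (W c) (phi N i) := by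
    intro c
    have k1 : ∑ i, En (AT N) (W c) (phi N i) =
        ∑ b, ∑ z, ε * ε * KK (AT N) (W c) b z * dsq b z := by
      unfold En dsq
      rw [Finset.sum_comm]
      refine Finset.sum_congr rfl fun b _ => ?_
      rw [Finset.sum_comm]
      refine Finset.sum_congr rfl fun z _ => ?_
      rw [Finset.mul_sum]
      refine Finset.sum_congr rfl fun i _ => ?_
      have e1 : -(W c b).im = ε := by rw [hW]; simp only [Wc_im]; ring
      have e2 : -(W c z).im = ε := by rw [hW]; simp only [Wc_im]; ring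
      rw [e1, e2]
    rw [k1, Finset.mul_sum, Finset.mul_sum]
    refine Finset.sum_le_sum fun b _ => ?_
    rw [Finset.mul_sum, Finset.mul_sum]
    refine (Finset.sum_le_sum fun z hz => ?_).trans
      (Finset.sum_le_sum_of_subset_of_nonneg (Finset.subset_univ (Bl dN b ρ)ᶜ) fun z _ _ => ?_)
    · have hz1 : ρ < dN z b := by
        rw [Finset.mem_compl, mem_Bl, not_le] at hz; exact hz
      have hz2 := dsq_ge b z
      have hz3 : ρ ^ 2 ≤ (nrm (b - z) : ℝ) ^ 2 := by
        have : ρ ≤ (nrm (b - z) : ℝ) := by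
          rw [← dN, dN_comm]; exact hz1.le
        exact pow_le_pow_left₀ hρ.le this 2
      have hz4 : 4 / π ^ 2 * ρ ^ 2 ≤ dsq b z :=
        (mul_le_mul_of_nonneg_left hz3 (by positivity)).trans hz2
      have hK := KK_nonneg (A := AT N) (W := W c) b z
      rw [KK_symm hA z b]
      have hz5 := mul_le_mul_of_nonneg_left hz4
        (show 0 ≤ π ^ 2 / (4 * ε * ρ ^ 2) * (ε * ε * KK (AT N) (W c) b z) by positivity)
      calc ε * KK (AT N) (W c) b z = π ^ 2 / (4 * ε * ρ ^ 2) * (ε * ε * KK (AT N) (W c) b z) *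
            (4 / π ^ 2 * ρ ^ 2) := by field_simp
        _ ≤ _ := hz5
        _ = _ := by ring
    · have hK := KK_nonneg (A := AT N) (W := W c) b z
      have hd := dsq_nonneg b z
      positivity
  calc ∫ c, ε * ∑ b, ∑ z ∈ (Bl dN b ρ)ᶜ, KK (AT N) (W c) z b ∂(mu (Tor N))
      ≤ ∫ c, π ^ 2 / (4 * ε * ρ ^ 2) * ∑ i, En (AT N) (W c) (phi N i) ∂(mu (Tor N)) := by
        refine integral_mono_of_nonneg (Filter.Eventually.of_forall fun c => ?_)
          ((integrable_finset_sum _ fun i _ => hint i).const_mul _)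
          (Filter.Eventually.of_forall h2)
        exact mul_nonneg hε.le (Finset.sum_nonneg fun b _ => Finset.sum_nonneg fun z _ =>
          KK_nonneg _ _)
    _ = π ^ 2 / (4 * ε * ρ ^ 2) * ∑ i, ∫ c, En (AT N) (W c) (phi N i) ∂(mu (Tor N)) := by
        rw [integral_const_mul, integral_finset_sum _ fun i _ => hint i]
    _ ≤ π ^ 2 / (4 * ε * ρ ^ 2) * ∑ _i : Fin 4, 1 / γ ^ 2 * (4 * (N : ℝ) ^ 2) :=
        mul_le_mul_of_nonneg_left (Finset.sum_le_sum fun i _ => h1 i) (by positivity)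
    _ = 4 * π ^ 2 / γ ^ 2 * ((N : ℝ) ^ 2 / (ε * ρ ^ 2)) := by
        rw [Finset.sum_const, Finset.card_univ, Fintype.card_fin, nsmul_eq_mul]
        field_simp
        ring

/-- `E ε² ∑ |T_zw|² ≤ N²/γ²` -/
theorem T_energy {N : ℕ} [NeZero N] {γ ε : ℝ} (hγ : 0 < γ) (hε : 0 < ε) (hεγ : ε ≤ γ)
    (U : Tor N → ℝ) {φ : Tor N → ℝ} (hφ : ∀ x y, |φ x - φ y| ≤ nrm (x - y)) :
    ∫ c, ε ^ 2 * ∑ w, ∑ z,
        ‖Tm (AT N) (Wc U (fun _ => γ - ε) (fun _ => ε) c) φ z w‖ ^ 2 ∂(mu (Tor N)) ≤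
      (N : ℝ) ^ 2 / γ ^ 2 := by
  have hA := AT_symm N
  have he : ∀ x : Tor N, 0 < (fun _ : Tor N => ε) x := fun _ => hε
  have h := energy_le (A := AT N) hA hγ U he (fun _ => hεγ) φ
  have h1 : ∀ c, ε ^ 2 * ∑ w, ∑ z,
      ‖Tm (AT N) (Wc U (fun _ => γ - ε) (fun _ => ε) c) φ z w‖ ^ 2 =
      1 / 4 * En (AT N) (Wp γ (fun _ => ε) U c) φ := by
    intro c
    have hWc : ∀ x, (Wc U (fun _ => γ - ε) (fun _ => ε) c x).im = -ε := fun x => Wc_im _ _ _ _ _
    have k1 := energy_identity (a := φ) hA (hom_neg hε hWc)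
    have e1 : ∀ x, -(Wc U (fun _ => γ - ε) (fun _ => ε) c x).im = ε := fun x => by
      rw [hWc, neg_neg]
    simp only [e1] at k1
    have e2 : En (AT N) (Wp γ (fun _ => ε) U c) φ = ∑ z, ∑ w, ε * ε *
        KK (AT N) (Wc U (fun _ => γ - ε) (fun _ => ε) c) z w * (φ z - φ w) ^ 2 := by
      unfold En
      refine Finset.sum_congr rfl fun x _ => Finset.sum_congr rfl fun y _ => ?_
      rw [show Wp γ (fun _ => ε) U c = Wc U (fun _ => γ - ε) (fun _ => ε) c from rfl, e1, e1]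
    rw [e2, ← k1, Finset.sum_comm, Finset.mul_sum]
    refine Finset.sum_congr rfl fun z _ => ?_
    rw [Finset.mul_sum]
    refine Finset.sum_congr rfl fun w _ => ?_
    ring
  simp only [h1]
  rw [integral_const_mul]
  have h2 : ∫ c, En (AT N) (Wp γ (fun _ => ε) U c) φ ∂(mu (Tor N)) ≤
      1 / γ ^ 2 * (4 * (N : ℝ) ^ 2) := by
    refine le_trans (le_of_eq rfl) (h.trans ?_)
    refine mul_le_mul_of_nonneg_left ?_ (by positivity)
    simp only [AT_sq]
    exact edge_energy_of_lip hφ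
  calc 1 / 4 * ∫ c, En (AT N) (Wp γ (fun _ => ε) U c) φ ∂(mu (Tor N))
      ≤ 1 / 4 * (1 / γ ^ 2 * (4 * (N : ℝ) ^ 2)) := mul_le_mul_of_nonneg_left h2 (by norm_num)
    _ = (N : ℝ) ^ 2 / γ ^ 2 := by ring

end P365L.Stat
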