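import Vale.Agent.P365.Stat.Bad

/-!
# P365, static theorem: expectation of the summed NEAR inequality.

`static_core`: the near energy is at most (bad masses) + constants * (loss), given the two
J/Λ bounds.
-/

set_option linter.all false

namespace P365L.Stat

open MeasureTheory ProbabilityTheory Complex Set P365L P365L.Poi P365O
open scoped ComplexConjugate Real

/-! ### integrable functions with a bound on the integral -/

/-- integrable with integral at most `b` -/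
structure IB {Ω : Type*} [MeasurableSpace Ω] (μ : Measure Ω) (f : Ω → ℝ) (b : ℝ) : Prop where
  int : Integrable f μ
  le : ∫ c, f c ∂μ ≤ b

section IB

variable {Ω : Type*} [MeasurableSpace Ω] {μ : Measure Ω} {f g : Ω → ℝ} {a b : ℝ}

theorem IB.add (hf : IB μ f a) (hg : IB μ g b) : IB μ (fun c => f c + g c) (a + b) :=
  ⟨hf.int.add hg.int, by rw [integral_add hf.int hg.int]; exact add_le_add hf.le hg.le⟩

theorem IB.cmul (hf : IB μ f a) {r : ℝ} (hr : 0 ≤ r) : IB μ (fun c => r * f c) (r * a) :=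
  ⟨hf.int.const_mul r, by rw [integral_const_mul]; exact mul_le_mul_of_nonneg_left hf.le hr⟩

theorem IB.mono (hf : IB μ f a) (h : a ≤ b) : IB μ f b := ⟨hf.int, hf.le.trans h⟩

theorem IB.const [IsProbabilityMeasure μ] (r : ℝ) : IB μ (fun _ => r) r :=
  ⟨integrable_const _, by simp⟩

theorem IB.sum {κ : Type*} (S : Finset κ) {F : κ → Ω → ℝ} {b : κ → ℝ}
    (hF : ∀ i ∈ S, IB μ (F i) (b i)) : IB μ (fun c => ∑ i ∈ S, F i c) (∑ i ∈ S, b i) :=
  ⟨integrable_finset_sum _ fun i hi => (hF i hi).int, by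
    rw [integral_finset_sum _ fun i hi => (hF i hi).int]
    exact Finset.sum_le_sum fun i hi => (hF i hi).le⟩

end IB

/-! ### balls of the torus -/

theorem card_Bl {N : ℕ} [NeZero N] (w : Tor N) {s : ℝ} (hs : 0 ≤ s) :
    ((Bl dN w s).card : ℝ) ≤ (2 * s + 1) ^ 2 := by
  have h1 : (Bl dN w s).card ≤ (ball N ⌊s⌋₊).card := by
    refine Finset.card_le_card_of_injOn (fun z => z - w) ?_ ?_
    · intro z hz
      have hz1 : dN z w ≤ s := mem_Bl.1 hz
      have hz2 : nrm (z - w) ≤ ⌊s⌋₊ := Nat.le_floor hz1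
      exact mem_ball.2 hz2
    · intro x _ y _ hxy
      exact sub_left_injective hxy
  have h2 := h1.trans (card_ball_le (N := N) ⌊s⌋₊)
  have h3 : ((Bl dN w s).card : ℝ) ≤ (2 * (⌊s⌋₊ : ℝ) + 1) ^ 2 := by exact_mod_cast h2
  have h4 : (⌊s⌋₊ : ℝ) ≤ s := Nat.floor_le hs
  exact h3.trans (pow_le_pow_left₀ (by positivity) (by linarith) 2)

/-- the bound for the mean number -/
noncomputable def nb (γ R : ℝ) : ℝ := 64 * R ^ 2 / γ + 2

theorem nb_nonneg {γ : ℝ} (hγ : 0 < γ) (R : ℝ) : 0 ≤ nb γ R := by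
  unfold nb; positivity

theorem mean_number {N : ℕ} [NeZero N] {γ ε : ℝ} (hγ : 0 < γ) (hε : 0 < ε) (hεγ : ε ≤ γ / 2)
    (w : Tor N) {R : ℝ} (hR : 0 ≤ R) :
    ∑ _z ∈ Bl dN w (2 * (R / Real.sqrt ε)), ε / (γ - ε) ≤ nb γ R := by
  have hs : 0 < Real.sqrt ε := Real.sqrt_pos.2 hε
  have hss : Real.sqrt ε ^ 2 = ε := Real.sq_sqrt hε.le
  have hG : 0 < γ - ε := by linarith
  rw [Finset.sum_const, nsmul_eq_mul]
  have h1 := card_Bl w (s := 2 * (R / Real.sqrt ε)) (by positivity)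
  set x : ℝ := R / Real.sqrt ε with hx
  have hx2 : ε * x ^ 2 = R ^ 2 := by
    rw [hx, div_pow, hss]; field_simp
  have h2 : (2 * (2 * x) + 1) ^ 2 ≤ 32 * x ^ 2 + 2 := by nlinarith [sq_nonneg (4 * x - 1)]
  calc ((Bl dN w (2 * x)).card : ℝ) * (ε / (γ - ε))
      ≤ (32 * x ^ 2 + 2) * (ε / (γ - ε)) :=
        mul_le_mul_of_nonneg_right (h1.trans h2) (by positivity)
    _ = (32 * (ε * x ^ 2) + 2 * ε) / (γ - ε) := by ring
    _ = (32 * R ^ 2 + 2 * ε) / (γ - ε) := by rw [hx2]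
    _ ≤ (32 * R ^ 2 + γ) / (γ / 2) := by
        apply div_le_div₀ (by positivity) (by linarith) (by positivity) (by linarith)
    _ = nb γ R := by unfold nb; field_simp; ring

/-! ### the expectation of the summed inequality -/

section core

variable {N : ℕ} [NeZero N]

/-- **expectation of the NEAR inequality** -/
theorem static_core {γ ε : ℝ} (hγ : 0 < γ) (hε : 0 < ε) (hεγ : ε ≤ γ / 2)
    (U : Tor N → ℝ) {φ : Tor N → ℝ} (hφ : ∀ x y, |φ x - φ y| ≤ nrm (x - y))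
    {R q : ℝ} (hR : 0 < R) (hq : 0 < q) {X0 d0 L L' t t' : ℝ} (hX0 : 0 ≤ X0) (hd0 : 0 < d0)
    (hL : 0 < L) (hL' : 0 < L') (ht : 0 < t) (ht' : 0 < t')
    {O Gd : (Tor N → ℝ) → Finset (Tor N)}
    (hO : ∀ c, ∀ w ∈ O c, ε * ∑ z ∈ Bl dN w (2 * (R / Real.sqrt ε)),
      mm (AT N) (Wc U (fun _ => γ - ε) (fun _ => ε) c) z ≤ L)
    (hO' : ∀ c, ∀ w ∈ O c, ε * ∑ z ∈ Bl dN w (2 * ((R + q) / Real.sqrt ε)),
      mm (AT N) (Wc U (fun _ => γ - ε) (fun _ => ε) c) z ≤ L')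
    (hOc : ∀ c, ∀ w, w ∉ O c → ¬ Good (AT N) U (fun _ => γ - ε) (fun _ => ε) X0 d0 c w ∨
      L < ε * ∑ z ∈ Bl dN w (2 * (R / Real.sqrt ε)),
        mm (AT N) (Wc U (fun _ => γ - ε) (fun _ => ε) c) z ∨
      L' < ε * ∑ z ∈ Bl dN w (2 * ((R + q) / Real.sqrt ε)),
        mm (AT N) (Wc U (fun _ => γ - ε) (fun _ => ε) c) z)
    (hGd : ∀ c, ∀ z, z ∉ Gd c → ¬ Good (AT N) U (fun _ => γ - ε) (fun _ => ε) X0 d0 c z)
    {Λ CJ CL : ℝ}
    (hΛ : ε * ∑ z, ∫ c, mm (AT N) (Wc U (fun _ => γ - ε) (fun _ => ε) c) z *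
      muf (AT N) (Wc U (fun _ => γ - ε) (fun _ => ε) c) φ z ^ 2 ∂(mu (Tor N)) ≤ Λ)
    (hJ : IB (mu (Tor N)) (fun c => ε ^ 2 * ∑ w ∈ O c,
      ∑ z ∈ (Bl dN w ((R + q) / Real.sqrt ε)).erase w,
        kap (AT N) (Wc U (fun _ => γ - ε) (fun _ => ε) c) z w *
          ‖Tm (AT N) (Wc U (fun _ => γ - ε) (fun _ => ε) c) φ z w‖ ^ 2) (CJ * Λ))
    (hJL : IB (mu (Tor N)) (fun c => ε ^ 2 * ∑ w ∈ O c,
      ∑ z ∈ (Bl dN w ((R + q) / Real.sqrt ε)).erase w,
        (kap (AT N) (Wc U (fun _ => γ - ε) (fun _ => ε) c) z w +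
          lamS (AT N) (Wc U (fun _ => γ - ε) (fun _ => ε) c)
            (Bl dN w (R / Real.sqrt ε) ∩ Gd c) z w) *
          ‖Tm (AT N) (Wc U (fun _ => γ - ε) (fun _ => ε) c) φ z w‖ ^ 2) (CL * Λ)) :
    ∫ c, ε ^ 2 * ∑ w, ∑ z ∈ Bl dN w (R / Real.sqrt ε),
        KK (AT N) (Wc U (fun _ => γ - ε) (fun _ => ε) c) z w * (φ z - φ w) ^ 2 ∂(mu (Tor N)) ≤
      R ^ 2 * (2 * ((N : ℝ) ^ 2 * (d0 + 2 / (γ * (1 + X0 ^ 2)))) +
        1 / L * ((N : ℝ) ^ 2 * (2 / γ * (nb γ R + 1))) +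
        1 / L' * ((N : ℝ) ^ 2 * (2 / γ * (nb γ (R + q) + 1)))) +
      4 / 3 * (32 * Λ + 16 * (CJ * Λ) + 2 / t * (CL * Λ) +
        t * R ^ 2 * ((L' * (2 * L + 13) + 2) * ((N : ℝ) ^ 2 * (2 / γ))) +
        2 / t' * ((N : ℝ) ^ 2 / γ ^ 2) +
        2 * t' * R ^ 2 * (L * (4 * π ^ 2 / γ ^ 2 * ((N : ℝ) ^ 2 / q ^ 2)))) := by
  have hA := AT_symm N
  have he : ∀ x : Tor N, 0 < (fun _ : Tor N => ε) x := fun _ => hε
  have hG : 0 < γ - ε := by linarith
  have hG2 : 1 / (γ - ε) ≤ 2 / γ := by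
    rw [div_le_div_iff₀ hG hγ]; linarith
  have hs : 0 < Real.sqrt ε := Real.sqrt_pos.2 hε
  have hss : Real.sqrt ε ^ 2 = ε := Real.sq_sqrt hε.le
  set W : (Tor N → ℝ) → Tor N → ℂ := fun c => Wc U (fun _ => γ - ε) (fun _ => ε) c with hWd
  have hWc : ∀ c x, (W c x).im = -ε := fun c x => Wc_im _ _ _ _ _
  have hWn : ∀ c x, (W c x).im < 0 := fun c x => by rw [hWc]; linarith
  set r : ℝ := R / Real.sqrt ε with hr
  set r' : ℝ := (R + q) / Real.sqrt ε with hr'
  have hr0 : 0 ≤ r := by positivity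
  have hrr : r ≤ r' := by
    rw [hr, hr']; exact div_le_div_of_nonneg_right (by linarith) hs.le
  have hεr : ε * r ^ 2 = R ^ 2 := by
    rw [hr, div_pow, hss]; field_simp
  have hrq : r' - r = q / Real.sqrt ε := by rw [hr, hr']; ring
  have hεq : ε * (r' - r) ^ 2 = q ^ 2 := by
    rw [hrq, div_pow, hss]; field_simp
  have hcard : ∑ _w : Tor N, (1 : ℝ) = (N : ℝ) ^ 2 := by
    rw [Finset.sum_const, Finset.card_univ, nsmul_eq_mul, mul_one]; exact card_Tor
  have hsumc : ∀ b : ℝ, ∑ _w : Tor N, b = (N : ℝ) ^ 2 * b := by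
    intro b
    rw [Finset.sum_const, Finset.card_univ, nsmul_eq_mul, card_Tor]
  set tail : Tor N → (Tor N → ℝ) → ℝ := fun w =>
    {c : Tor N → ℝ | X0 < |c w|}.indicator (fun c => mm (AT N) (W c) w) with htail
  -- pointwise bounds of the bad sums
  have hXS : ∀ (B : Finset (Tor N)) c, ε * ∑ z ∈ B, mm (AT N) (W c) z =
      Sb (AT N) U (fun _ => γ - ε) (fun _ => ε) (fun _ => ε) B c := by
    intro B c
    unfold Sb
    rw [Finset.mul_sum]
    rfl
  have hm0 : ∀ c w, 0 ≤ mm (AT N) (W c) w := fun c w => (mm_pos hA (hWn c) w).le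
  have htail0 : ∀ w c, 0 ≤ tail w c := fun w c =>
    Set.indicator_nonneg (fun c _ => hm0 c w) c
  have hS0 : ∀ (B : Finset (Tor N)) c, 0 ≤ ε * ∑ z ∈ B, mm (AT N) (W c) z := fun B c =>
    mul_nonneg hε.le (Finset.sum_nonneg fun z _ => hm0 c z)
  have hbad1 : ∀ c, ∑ z ∈ (Gd c)ᶜ, mm (AT N) (W c) z ≤ ∑ z, (d0 + tail z c) := by
    intro c
    refine (Finset.sum_le_sum fun z hz => ?_).trans
      (Finset.sum_le_sum_of_subset_of_nonneg (Finset.subset_univ _) fun z _ _ => ?_)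
    · exact mm_bad_le hA he hd0.le (hGd c z (Finset.mem_compl.1 hz))
    · exact add_nonneg hd0.le (htail0 z c)
  have hbad2 : ∀ c, ∑ w ∈ (O c)ᶜ, mm (AT N) (W c) w ≤ ∑ w, (d0 + tail w c) +
      (1 / L * ∑ w, mm (AT N) (W c) w *
        Sb (AT N) U (fun _ => γ - ε) (fun _ => ε) (fun _ => ε) (Bl dN w (2 * r)) c +
      1 / L' * ∑ w, mm (AT N) (W c) w *
        Sb (AT N) U (fun _ => γ - ε) (fun _ => ε) (fun _ => ε) (Bl dN w (2 * r')) c) := by
    intro c
    have e1 : ∀ w, 0 ≤ 1 / L * (mm (AT N) (W c) w *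
        Sb (AT N) U (fun _ => γ - ε) (fun _ => ε) (fun _ => ε) (Bl dN w (2 * r)) c) := by
      intro w
      rw [← hXS]
      exact mul_nonneg (by positivity) (mul_nonneg (hm0 c w) (hS0 _ c))
    have e2 : ∀ w, 0 ≤ 1 / L' * (mm (AT N) (W c) w *
        Sb (AT N) U (fun _ => γ - ε) (fun _ => ε) (fun _ => ε) (Bl dN w (2 * r')) c) := by
      intro w
      rw [← hXS]
      exact mul_nonneg (by positivity) (mul_nonneg (hm0 c w) (hS0 _ c))
    rw [Finset.mul_sum, Finset.mul_sum, ← Finset.sum_add_distrib, ← Finset.sum_add_distrib]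
    refine (Finset.sum_le_sum fun w hw => ?_).trans
      (Finset.sum_le_sum_of_subset_of_nonneg (Finset.subset_univ _) fun w _ _ => ?_)
    · have hd1 : 0 ≤ d0 + tail w c := add_nonneg hd0.le (htail0 w c)
      rcases hOc c w (Finset.mem_compl.1 hw) with h | h | h
      · have := mm_bad_le hA he hd0.le h
        have k1 := e1 w
        have k2 := e2 w
        linarith
      · have k2 := e2 w
        have k3 : mm (AT N) (W c) w ≤ 1 / L * (mm (AT N) (W c) w *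
            Sb (AT N) U (fun _ => γ - ε) (fun _ => ε) (fun _ => ε) (Bl dN w (2 * r)) c) := by
          rw [← hXS, one_div, ← mul_assoc, mul_comm L⁻¹, mul_assoc]
          refine le_mul_of_one_le_right (hm0 c w) ?_
          rw [← div_eq_inv_mul, one_le_div hL]
          exact h.le
        linarith
      · have k1 := e1 w
        have k3 : mm (AT N) (W c) w ≤ 1 / L' * (mm (AT N) (W c) w *
            Sb (AT N) U (fun _ => γ - ε) (fun _ => ε) (fun _ => ε) (Bl dN w (2 * r')) c) := by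
          rw [← hXS, one_div, ← mul_assoc, mul_comm L'⁻¹, mul_assoc]
          refine le_mul_of_one_le_right (hm0 c w) ?_
          rw [← div_eq_inv_mul, one_le_div hL']
          exact h.le
        linarith
    · exact add_nonneg (add_nonneg hd0.le (htail0 w c)) (add_nonneg (e1 w) (e2 w))
  -- integral bounds
  have I1 : IB (mu (Tor N)) (fun c => ∑ w, (d0 + tail w c))
      ((N : ℝ) ^ 2 * (d0 + 2 / (γ * (1 + X0 ^ 2)))) := by
    rw [← hsumc]
    refine IB.sum _ fun w _ => ?_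
    refine (IB.const d0).add ⟨?_, ?_⟩
    · have hms : MeasurableSet {c : Tor N → ℝ | X0 < |c w|} :=
        measurableSet_lt measurable_const (measurable_pi_apply w).abs
      exact ((BM_mm hA he w).ind hms).int
    · have := int_mm_tail (A := AT N) (U := U) (g := fun _ => γ - ε) (e := fun _ => ε) hA he
        (y := w) hG hX0
      refine this.trans ?_
      show 1 / ((γ - ε) * (1 + X0 ^ 2)) ≤ 2 / (γ * (1 + X0 ^ 2))
      have hX : 0 < 1 + X0 ^ 2 := by positivity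
      rw [div_le_div_iff₀ (by positivity) (by positivity)]
      nlinarith
  have Im : ∀ w, IB (mu (Tor N)) (fun c => mm (AT N) (W c) w) (2 / γ) := fun w =>
    ⟨(BM_mm hA he w).int, (int_mm_le (A := AT N) (U := U) (g := fun _ => γ - ε)
      (e := fun _ => ε) hA he (y := w) hG).trans hG2⟩
  have IS : ∀ (R1 : ℝ), 0 ≤ R1 → IB (mu (Tor N)) (fun c => ∑ w, mm (AT N) (W c) w *
        Sb (AT N) U (fun _ => γ - ε) (fun _ => ε) (fun _ => ε)
          (Bl dN w (2 * (R1 / Real.sqrt ε))) c)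
      ((N : ℝ) ^ 2 * (2 / γ * (nb γ R1 + 1))) := by
    intro R1 hR1
    rw [← hsumc]
    refine IB.sum _ fun w _ => ⟨((BM_mm hA he w).mul (BM_Sb hA he _ _)).int, ?_⟩
    refine (int_mm_Sb (A := AT N) (U := U) (g := fun _ => γ - ε) (e := fun _ => ε) hA he
      (y := w) hG (b := fun _ => ε) (fun _ => hε.le) (fun _ => le_rfl)
      (Bl dN w (2 * (R1 / Real.sqrt ε))) (fun _ _ => hG)).trans ?_
    have h1 := mean_number hγ hε hεγ w hR1
    have h2 := nb_nonneg hγ R1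
    refine mul_le_mul hG2 (by linarith) ?_ (by positivity)
    have : 0 ≤ ∑ _z ∈ Bl dN w (2 * (R1 / Real.sqrt ε)), ε / (γ - ε) :=
      Finset.sum_nonneg fun _ _ => by positivity
    linarith
  have I2 := IS R hR.le
  have I3 := IS (R + q) (by positivity)
  have I4 : IB (mu (Tor N)) (fun c => ∑ w, mm (AT N) (W c) w) ((N : ℝ) ^ 2 * (2 / γ)) := by
    rw [← hsumc]
    exact IB.sum _ fun w _ => Im w
  have I5 : IB (mu (Tor N)) (fun c => ε * ∑ w, mm (AT N) (W c) w * muf (AT N) (W c) φ w ^ 2)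
      Λ := by
    have hi : ∀ w ∈ (Finset.univ : Finset (Tor N)), Integrable
        (fun c => mm (AT N) (W c) w * muf (AT N) (W c) φ w ^ 2) (mu (Tor N)) := fun w _ =>
      (BM_loss hA he w).int
    refine ⟨(integrable_finset_sum _ hi).const_mul _, ?_⟩
    rw [integral_const_mul, integral_finset_sum _ hi]
    exact hΛ
  have I6 : IB (mu (Tor N)) (fun c => ε ^ 2 * ∑ w, ∑ z, ‖Tm (AT N) (W c) φ z w‖ ^ 2)
      ((N : ℝ) ^ 2 / γ ^ 2) := by
    refine ⟨((BM.sum _ fun w _ => BM.sum _ fun z _ => BM_Tsq hA he z w).cmul _).int, ?_⟩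
    exact T_energy hγ hε (by linarith) U hφ
  have I7 : IB (mu (Tor N)) (fun c => ε * ∑ b, ∑ z ∈ (Bl dN b (r' - r))ᶜ, KK (AT N) (W c) z b)
      (4 * π ^ 2 / γ ^ 2 * ((N : ℝ) ^ 2 / q ^ 2)) := by
    refine ⟨((BM.sum _ fun w _ => BM.sum _ fun z _ => BM_KK hA he z w).cmul _).int, ?_⟩
    have hρ : 0 < r' - r := by rw [hrq]; positivity
    have h := far_mass hγ hε (by linarith) U hρ
    rw [hεq] at h
    exact h
  -- the total
  have hT := (((I1.cmul (r := 2) (by norm_num)).add (I2.cmul (r := 1 / L) (by positivity))).add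
      (I3.cmul (r := 1 / L') (by positivity))).cmul (r := R ^ 2) (sq_nonneg R)
  have hT2 := (((((I5.cmul (r := 32) (by norm_num)).add (hJ.cmul (r := 16) (by norm_num))).add
      (hJL.cmul (r := 2 / t) (by positivity))).add
      ((I4.cmul (r := L' * (2 * L + 13) + 2) (by positivity)).cmul (r := t * R ^ 2)
        (by positivity))).add
      (I6.cmul (r := 2 / t') (by positivity))).add
      ((I7.cmul (r := L) hL.le).cmul (r := 2 * t' * R ^ 2) (by positivity))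
  have hT3 := hT.add (hT2.cmul (r := 4 / 3) (by norm_num))
  refine le_trans (integral_mono_of_nonneg (Filter.Eventually.of_forall fun c => ?_) hT3.int
    (Filter.Eventually.of_forall fun c => ?_)) hT3.le
  · exact mul_nonneg (sq_nonneg _) (Finset.sum_nonneg fun w _ => Finset.sum_nonneg fun z _ =>
      mul_nonneg (KK_nonneg _ _) (sq_nonneg _))
  · have h := near_sum (A := AT N) (W := W c) (φ := φ) (ε := ε) (d := dN) hA hε (hWc c)
      dN_self dN_comm dN_tri hφ hr0 hrr (O c) (Gd c) hL.le hL'.le (hO c) (hO' c) ht ht'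
    rw [hεr] at h
    refine h.trans ?_
    have b1 := hbad1 c
    have b2 := hbad2 c
    have b3 : R ^ 2 * (∑ w ∈ (O c)ᶜ, mm (AT N) (W c) w + ∑ z ∈ (Gd c)ᶜ, mm (AT N) (W c) z) ≤
        R ^ 2 * (2 * ∑ w, (d0 + tail w c) +
          1 / L * ∑ w, mm (AT N) (W c) w *
            Sb (AT N) U (fun _ => γ - ε) (fun _ => ε) (fun _ => ε) (Bl dN w (2 * r)) c +
          1 / L' * ∑ w, mm (AT N) (W c) w *
            Sb (AT N) U (fun _ => γ - ε) (fun _ => ε) (fun _ => ε) (Bl dN w (2 * r')) c) :=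
      mul_le_mul_of_nonneg_left (by linarith) (sq_nonneg R)
    exact add_le_add_left b3 _

end core

end P365L.Stat
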