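import Vale.Agent.P365.Stat.T2b

/-!
# P365, static theorem, (ST2): the expectation form of (T2), summed over the kicked site.
-/

set_option linter.all false

namespace P365L.Stat

open MeasureTheory ProbabilityTheory Complex Set P365L P365L.Poi
open scoped ComplexConjugate Real

variable {ι : Type*} [Fintype ι] [DecidableEq ι]
variable {A : Matrix ι ι ℝ} {U g e : ι → ℝ} {a : ι → ℝ}

/-- the event on the right-hand side of (ST2) -/
def Ev2 (A : Matrix ι ι ℝ) (U g e : ι → ℝ) (X0 d0 : ℝ) (w : ι) (B : Finset ι) (L : ℝ) :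
    Set (ι → ℝ) :=
  {c | Good A U g e X0 d0 c w ∧ Sb A U g e e B c ≤ L}

theorem measurableSet_Ev2 (X0 d0 : ℝ) (w : ι) (B : Finset ι) (L : ℝ) :
    MeasurableSet (Ev2 A U g e X0 d0 w B L) :=
  (measurableSet_Good X0 d0 w).inter
    (measurableSet_le (measurable_Sb e B) measurable_const)

theorem Sb_update_le (hA : A.IsSymm) (he : ∀ x, 0 < e x) (B : Finset ι) (c : ι → ℝ) (y : ι)
    (t : ℝ) : Sb A U g e e B (Function.update c y t) ≤ Sb A U g e e B c + 1 := by
  have h := shift_le_one (U := U) (g := g) hA he (b := e) (fun x => (he x).le)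
    (fun x => le_rfl) B c y t
  have h2 := (abs_le.1 h).2
  unfold Sb
  linarith

theorem Sb_mono (hA : A.IsSymm) (he : ∀ x, 0 < e x) {B B' : Finset ι} (h : B ⊆ B') (c : ι → ℝ) :
    Sb A U g e e B c ≤ Sb A U g e e B' c :=
  Finset.sum_le_sum_of_subset_of_nonneg h
    fun y _ _ => mul_nonneg (he y).le (im_pos hA he c y).le

theorem integrable_of_bdd {Ψ : (ι → ℝ) → ℝ} (hm : Measurable Ψ) (h0 : ∀ c, 0 ≤ Ψ c) {M : ℝ}
    (hM : ∀ c, Ψ c ≤ M) : Integrable Ψ (mu ι) :=
  Integrable.of_bound hm.aestronglyMeasurable M (Filter.Eventually.of_forall fun c => by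
    rw [Real.norm_eq_abs, abs_of_nonneg (h0 c)]; exact hM c)

/-- left observable of (ST2) -/
noncomputable def kkT (A : Matrix ι ι ℝ) (U g e : ι → ℝ) (a : ι → ℝ) (y z w : ι) (c : ι → ℝ) :
    ℝ :=
  mm A (Wc U g e c) y * (kap A (Wc U g e c) z y * kap A (Wc U g e c) y w *
    ‖Tm A (Wc U g e c) a z w‖ ^ 2)

theorem kkT_nonneg (hA : A.IsSymm) (he : ∀ x, 0 < e x) (y z w : ι) (c : ι → ℝ) :
    0 ≤ kkT A U g e a y z w c :=
  mul_nonneg (mm_pos hA (Wc_neg he c) y).le (mul_nonneg (mul_nonneg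
    (kap_nonneg hA (Wc_neg he c) z y) (kap_nonneg hA (Wc_neg he c) y w)) (sq_nonneg _))

theorem measurable_kkT (hA : A.IsSymm) (he : ∀ x, 0 < e x) (y z w : ι) :
    Measurable fun c => kkT A U g e a y z w c :=
  (measurable_mmc y).mul (((measurable_kapc z y).mul (measurable_kapc y w)).mul
    ((measurable_Tmc hA he z w).norm.pow_const 2))

theorem bdd_kkT (hA : A.IsSymm) (he : ∀ x, 0 < e x) (y z w : ι) :
    ∃ M : ℝ, 0 ≤ M ∧ ∀ c, kkT A U g e a y z w c ≤ M := by
  obtain ⟨M, hM0, hM⟩ := bdd_Tmc (U := U) (g := g) (a := a) hA he z w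
  obtain ⟨C, hC0, hC⟩ := bounded_im (U := U) (g := g) hA he
  refine ⟨C * (1 * 1 * M ^ 2), by positivity, fun c => ?_⟩
  have h1 := (kap_lt_one hA (Wc_neg (U := U) (g := g) he c) z y).le
  have h2 := (kap_lt_one hA (Wc_neg (U := U) (g := g) he c) y w).le
  have n1 := kap_nonneg hA (Wc_neg (U := U) (g := g) he c) z y
  have n2 := kap_nonneg hA (Wc_neg (U := U) (g := g) he c) y w
  have h3 := pow_le_pow_left₀ (norm_nonneg _) (hM c) 2
  refine mul_le_mul (hC c y) ?_ (by positivity) hC0.le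
  exact mul_le_mul (mul_le_mul h1 h2 n2 zero_le_one) h3 (sq_nonneg _) (by norm_num)

/-- pointwise: under the events, `kkT ≤ C2 m_y Iop_y (1_{Ev2} kT)` -/
theorem kkT_le (hA : A.IsSymm) (he : ∀ x, 0 < e x) {y : ι} (hg : 0 < g y) {X0 d0 : ℝ}
    (hd : 0 < d0) {c : ι → ℝ} (hgy : Good A U g e X0 d0 c y) (z : ι) {w : ι} (hwy : w ≠ y)
    (hgw : Good A U g e X0 d0 c w) (B : Finset ι) {L : ℝ} (hL : Sb A U g e e B c ≤ L) :
    kkT A U g e a y z w c ≤ C2 (g y) X0 d0 * ((Gc A U g e c y y).im *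
      Iop A U g e y ((Ev2 A U g e X0 (d0 / 22) w B (L + 1)).indicator (kT A U g e a z w)) c) := by
  have h := T2 (a := a) hA he hg hd hgy z hwy hgw
  have hI : Iop A U g e y ({c | Good A U g e X0 (d0 / 22) c w}.indicator (kT A U g e a z w)) c =
      Iop A U g e y ((Ev2 A U g e X0 (d0 / 22) w B (L + 1)).indicator (kT A U g e a z w)) c := by
    unfold Iop
    congr 1
    funext t
    congr 1
    have hS : Sb A U g e e B (Function.update c y t) ≤ L + 1 :=
      (Sb_update_le hA he B c y t).trans (by linarith)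
    by_cases hG : Good A U g e X0 (d0 / 22) (Function.update c y t) w
    · have h1 : Function.update c y t ∈ {c | Good A U g e X0 (d0 / 22) c w} := hG
      have h2 : Function.update c y t ∈ Ev2 A U g e X0 (d0 / 22) w B (L + 1) := ⟨hG, hS⟩
      rw [Set.indicator_of_mem h1, Set.indicator_of_mem h2]
    · have h1 : Function.update c y t ∉ {c | Good A U g e X0 (d0 / 22) c w} := hG
      have h2 : Function.update c y t ∉ Ev2 A U g e X0 (d0 / 22) w B (L + 1) := fun h => hG h.1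
      rw [Set.indicator_of_notMem h1, Set.indicator_of_notMem h2]
  rw [hI] at h
  have hm : 0 ≤ mm A (Wc U g e c) y := (mm_pos hA (Wc_neg he c) y).le
  calc kkT A U g e a y z w c ≤ mm A (Wc U g e c) y * (C2 (g y) X0 d0 *
        Iop A U g e y ((Ev2 A U g e X0 (d0 / 22) w B (L + 1)).indicator
          (kT A U g e a z w)) c) := mul_le_mul_of_nonneg_left h hm
    _ = _ := by
      have : mm A (Wc U g e c) y = (Gc A U g e c y y).im := rfl
      rw [this]; ring

/-- **(ST2)**, one kicked site. -/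
theorem ST2_one (hA : A.IsSymm) (he : ∀ x, 0 < e x) {y : ι} (hg : 0 < g y) {X0 d0 : ℝ}
    (hd : 0 < d0) (z : ι) {w : ι} (hwy : w ≠ y) (B : Finset ι) (L : ℝ) :
    ∫ c, ({c | Good A U g e X0 d0 c y ∧ Good A U g e X0 d0 c w ∧ Sb A U g e e B c ≤ L}.indicator
        (kkT A U g e a y z w)) c ∂(mu ι) ≤
      C2 (g y) X0 d0 / g y * ∫ c, mm A (Wc U g e c) y *
        ((Ev2 A U g e X0 (d0 / 22) w B (L + 1)).indicator (kT A U g e a z w)) c ∂(mu ι) := by
  set Ψ := (Ev2 A U g e X0 (d0 / 22) w B (L + 1)).indicator (kT A U g e a z w) with hΨ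
  have hΨm : Measurable Ψ := (measurable_kT hA he z w).indicator (measurableSet_Ev2 _ _ w B _)
  have hΨ0 : ∀ c, 0 ≤ Ψ c := fun c => Set.indicator_nonneg (fun c _ => kT_nonneg hA he z w c) c
  obtain ⟨M, hM0, hM⟩ := bdd_kT (U := U) (g := g) (a := a) hA he z w
  have hΨM : ∀ c, Ψ c ≤ M := fun c => by
    rw [hΨ]
    by_cases h : c ∈ Ev2 A U g e X0 (d0 / 22) w B (L + 1)
    · rw [Set.indicator_of_mem h]; exact hM c
    · rw [Set.indicator_of_notMem h]; exact hM0
  have hC2 := (C2_pos (X0 := X0) (d0 := d0) hg).le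
  have hR := resample (U := U) hA he hg hΨm hΨ0 hΨM
  have hIi : Integrable (fun c => (Gc A U g e c y y).im * Iop A U g e y Ψ c) (mu ι) :=
    integrable_im_mul hA he y (measurable_Iop y hΨm) (Iop_nonneg hA he y hΨ0)
      (Iop_le hA he hg hΨm hΨ0 hΨM)
  have h1 : ∫ c, ({c | Good A U g e X0 d0 c y ∧ Good A U g e X0 d0 c w ∧
      Sb A U g e e B c ≤ L}.indicator (kkT A U g e a y z w)) c ∂(mu ι) ≤
      ∫ c, C2 (g y) X0 d0 * ((Gc A U g e c y y).im * Iop A U g e y Ψ c) ∂(mu ι) := by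
    refine integral_mono_of_nonneg (Filter.Eventually.of_forall fun c => ?_)
      (hIi.const_mul _) (Filter.Eventually.of_forall fun c => ?_)
    · exact Set.indicator_nonneg (fun c _ => kkT_nonneg hA he y z w c) c
    · by_cases h : c ∈ {c | Good A U g e X0 d0 c y ∧ Good A U g e X0 d0 c w ∧
          Sb A U g e e B c ≤ L}
      · show Set.indicator _ _ c ≤ _
        rw [Set.indicator_of_mem h]
        exact kkT_le hA he hg hd h.1 z hwy h.2.1 B h.2.2
      · show Set.indicator _ _ c ≤ _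
        rw [Set.indicator_of_notMem h]
        exact mul_nonneg hC2 (mul_nonneg (im_pos hA he c y).le (Iop_nonneg hA he y hΨ0 c))
  refine h1.trans ?_
  rw [integral_const_mul]
  calc C2 (g y) X0 d0 * ∫ c, (Gc A U g e c y y).im * Iop A U g e y Ψ c ∂(mu ι)
      ≤ C2 (g y) X0 d0 * (1 / g y * ∫ c, (Gc A U g e c y y).im * Ψ c ∂(mu ι)) :=
        mul_le_mul_of_nonneg_left hR hC2
    _ = C2 (g y) X0 d0 / g y * ∫ c, mm A (Wc U g e c) y * Ψ c ∂(mu ι) := by
        rw [← mul_assoc, mul_one_div]; rfl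

/-- **(ST2)**: for `B ⊆ B'`, `w ∉ B`, homogeneous noise scale `G`. -/
theorem ST2 (hA : A.IsSymm) (he : ∀ x, 0 < e x) {G : ℝ} (hG : 0 < G) (hg : ∀ y, g y = G)
    {X0 d0 : ℝ} (hd : 0 < d0) (z w : ι) {B B' : Finset ι} (hB : B ⊆ B') (hw : w ∉ B) {L : ℝ} :
    ∑ y ∈ B, e y * ∫ c, ({c | Good A U g e X0 d0 c y ∧ Good A U g e X0 d0 c w ∧
        Sb A U g e e B' c ≤ L}.indicator (kkT A U g e a y z w)) c ∂(mu ι) ≤
      C2 G X0 d0 / G * (L + 1) * ∫ c,
        ((Ev2 A U g e X0 (d0 / 22) w B' (L + 1)).indicator (kT A U g e a z w)) c ∂(mu ι) := by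
  set Ψ := (Ev2 A U g e X0 (d0 / 22) w B' (L + 1)).indicator (kT A U g e a z w) with hΨ
  have hΨm : Measurable Ψ := (measurable_kT hA he z w).indicator (measurableSet_Ev2 _ _ w B' _)
  have hΨ0 : ∀ c, 0 ≤ Ψ c := fun c => Set.indicator_nonneg (fun c _ => kT_nonneg hA he z w c) c
  obtain ⟨M, hM0, hM⟩ := bdd_kT (U := U) (g := g) (a := a) hA he z w
  have hΨM : ∀ c, Ψ c ≤ M := fun c => by
    rw [hΨ]
    by_cases h : c ∈ Ev2 A U g e X0 (d0 / 22) w B' (L + 1)
    · rw [Set.indicator_of_mem h]; exact hM c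
    · rw [Set.indicator_of_notMem h]; exact hM0
  have hC : 0 ≤ C2 G X0 d0 / G := div_nonneg (C2_pos hG).le hG.le
  have h1 : ∀ y ∈ B, e y * ∫ c, ({c | Good A U g e X0 d0 c y ∧ Good A U g e X0 d0 c w ∧
        Sb A U g e e B' c ≤ L}.indicator (kkT A U g e a y z w)) c ∂(mu ι) ≤
      C2 G X0 d0 / G * ∫ c, e y * (mm A (Wc U g e c) y * Ψ c) ∂(mu ι) := by
    intro y hy
    have hwy : w ≠ y := fun h => hw (h ▸ hy)
    have hgy : 0 < g y := by rw [hg y]; exact hG
    have h2 := ST2_one (a := a) (U := U) hA he hgy hd z hwy B' L (X0 := X0)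
    rw [hg y] at h2
    rw [integral_const_mul]
    calc e y * _ ≤ e y * (C2 G X0 d0 / G * ∫ c, mm A (Wc U g e c) y * Ψ c ∂(mu ι)) :=
          mul_le_mul_of_nonneg_left h2 (he y).le
      _ = _ := by ring
  have hi : ∀ y ∈ B, Integrable (fun c => e y * (mm A (Wc U g e c) y * Ψ c)) (mu ι) := fun y _ =>
    (integrable_im_mul hA he y hΨm hΨ0 hΨM).const_mul _
  refine (Finset.sum_le_sum h1).trans ?_
  rw [← Finset.mul_sum, ← integral_finset_sum _ hi, mul_assoc (C2 G X0 d0 / G)]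
  refine mul_le_mul_of_nonneg_left ?_ hC
  rw [← integral_const_mul]
  refine integral_mono_of_nonneg (Filter.Eventually.of_forall fun c => ?_)
    ((integrable_of_bdd hΨm hΨ0 hΨM).const_mul _) (Filter.Eventually.of_forall fun c => ?_)
  · exact Finset.sum_nonneg fun y _ => mul_nonneg (he y).le
      (mul_nonneg (mm_pos hA (Wc_neg he c) y).le (hΨ0 c))
  · show ∑ y ∈ B, e y * (mm A (Wc U g e c) y * Ψ c) ≤ (L + 1) * Ψ c
    have h3 : ∑ y ∈ B, e y * (mm A (Wc U g e c) y * Ψ c) = Sb A U g e e B c * Ψ c := by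
      unfold Sb
      rw [Finset.sum_mul]
      exact Finset.sum_congr rfl fun y _ => by
        rw [show mm A (Wc U g e c) y = (Gc A U g e c y y).im from rfl]; ring
    rw [h3]
    by_cases h : c ∈ Ev2 A U g e X0 (d0 / 22) w B' (L + 1)
    · exact mul_le_mul_of_nonneg_right ((Sb_mono hA he hB c).trans h.2) (hΨ0 c)
    · have : Ψ c = 0 := by rw [hΨ]; exact Set.indicator_of_notMem h _
      rw [this, mul_zero, mul_zero]

end P365L.Stat
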