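import Vale.Agent.P365.Stat.ST1T
import Vale.Agent.P365.Stat.ST2
import Vale.Agent.P365.L1.Near3

/-!
# P365, static theorem: the `J` and `Λ` sums of `near_sum` (L1/Near3) are controlled by the loss.
-/

set_option linter.all false

namespace P365L.Stat

open MeasureTheory ProbabilityTheory Complex Set P365L P365L.Poi
open scoped ComplexConjugate Real

variable {ι : Type*} [Fintype ι] [DecidableEq ι]

/-- the good sites -/
noncomputable def GdF (A : Matrix ι ι ℝ) (U : ι → ℝ) (G ε X0 d0 : ℝ) (c : ι → ℝ) : Finset ι := by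
  classical
  exact Finset.univ.filter fun z => Good A U (fun _ => G) (fun _ => ε) X0 d0 c z

/-- the allowed centres -/
noncomputable def OF (A : Matrix ι ι ℝ) (U : ι → ℝ) (G ε X0 d0 : ℝ) (d : ι → ι → ℝ)
    (r r' L L' : ℝ) (c : ι → ℝ) : Finset ι := by
  classical
  exact Finset.univ.filter fun w => Good A U (fun _ => G) (fun _ => ε) X0 d0 c w ∧
    ε * ∑ z ∈ Bl d w (2 * r), mm A (Wc U (fun _ => G) (fun _ => ε) c) z ≤ L ∧
    ε * ∑ z ∈ Bl d w (2 * r'), mm A (Wc U (fun _ => G) (fun _ => ε) c) z ≤ L'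

/-- constant of `J_le` -/
noncomputable def CJ (G X0 d0 L' : ℝ) : ℝ := 260 / (4 * cst G X0 d0 * G) * (L' + 1) + 1 / 2

/-- constant of `JL_le` -/
noncomputable def CL (G X0 d0 L' : ℝ) : ℝ :=
  CJ G X0 d0 L' + C2 G X0 d0 / G * (L' + 1) * CJ G X0 (d0 / 22) (L' + 1)

theorem CJ_nonneg {G X0 d0 L' : ℝ} (hG : 0 < G) (hL' : 0 ≤ L') : 0 ≤ CJ G X0 d0 L' := by
  have := cst_pos (X0 := X0) (d0 := d0) hG
  unfold CJ
  positivity

theorem CL_nonneg {G X0 d0 L' : ℝ} (hG : 0 < G) (hL' : 0 ≤ L') : 0 ≤ CL G X0 d0 L' := by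
  have h1 := CJ_nonneg (X0 := X0) (d0 := d0) hG hL'
  have h2 := CJ_nonneg (X0 := X0) (d0 := d0 / 22) hG (show (0 : ℝ) ≤ L' + 1 by linarith)
  have h3 := C2_pos (X0 := X0) (d0 := d0) hG
  unfold CL
  positivity

variable {A : Matrix ι ι ℝ} {U : ι → ℝ} {G ε X0 d0 : ℝ} {d : ι → ι → ℝ} {r r' L L' : ℝ}
  {φ : ι → ℝ}

omit [DecidableEq ι] in
theorem mem_GdF [DecidableEq ι] {c : ι → ℝ} {z : ι} :
    z ∈ GdF A U G ε X0 d0 c ↔ Good A U (fun _ => G) (fun _ => ε) X0 d0 c z := by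
  classical
  simp [GdF]

theorem mem_OF {c : ι → ℝ} {w : ι} : w ∈ OF A U G ε X0 d0 d r r' L L' c ↔
    Good A U (fun _ => G) (fun _ => ε) X0 d0 c w ∧
    ε * ∑ z ∈ Bl d w (2 * r), mm A (Wc U (fun _ => G) (fun _ => ε) c) z ≤ L ∧
    ε * ∑ z ∈ Bl d w (2 * r'), mm A (Wc U (fun _ => G) (fun _ => ε) c) z ≤ L' := by
  classical
  simp [OF]

theorem Sb_eq (B : Finset ι) (c : ι → ℝ) :
    Sb A U (fun _ => G) (fun _ => ε) (fun _ => ε) B c =
      ε * ∑ z ∈ B, mm A (Wc U (fun _ => G) (fun _ => ε) c) z := by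
  rw [Finset.mul_sum]
  rfl

/-- measurability of the event `w ∈ OF` -/
theorem measurableSet_OF (w : ι) :
    MeasurableSet {c | w ∈ OF A U G ε X0 d0 d r r' L L' c} := by
  have h1 : {c | w ∈ OF A U G ε X0 d0 d r r' L L' c} =
      {c | Good A U (fun _ => G) (fun _ => ε) X0 d0 c w} ∩
      ({c | Sb A U (fun _ => G) (fun _ => ε) (fun _ => ε) (Bl d w (2 * r)) c ≤ L} ∩
        {c | Sb A U (fun _ => G) (fun _ => ε) (fun _ => ε) (Bl d w (2 * r')) c ≤ L'}) := by
    ext c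
    simp only [Set.mem_setOf_eq, Set.mem_inter_iff, mem_OF, Sb_eq]
  rw [h1]
  exact (measurableSet_Good X0 d0 w).inter
    ((measurableSet_le (measurable_Sb _ _) measurable_const).inter
      (measurableSet_le (measurable_Sb _ _) measurable_const))

/-- on `w ∈ OF`, for `z` in the ball of `w`: the ball of `z` carries mass at most `L'` -/
theorem OF_subset (hA : A.IsSymm) (hε : 0 < ε) (hdt : ∀ x y z, d x z ≤ d x y + d y z)
    {w z : ι} (hz : z ∈ Bl d w r') {c : ι → ℝ} (hc : w ∈ OF A U G ε X0 d0 d r r' L L' c) :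
    c ∈ GS A U (fun _ => G) (fun _ => ε) X0 d0 w ∩
      SL A U (fun _ => G) (fun _ => ε) (Bl d z r') L' := by
  rw [mem_OF] at hc
  refine ⟨hc.1, ?_⟩
  show Sb A U (fun _ => G) (fun _ => ε) (fun _ => ε) (Bl d z r') c ≤ L'
  rw [Sb_eq]
  refine le_trans ?_ hc.2.2
  refine XS_mono hA hε (fun x => Wc_im _ _ _ c x) ?_
  intro x hx
  rw [mem_Bl] at hx hz ⊢
  have := hdt x z w
  linarith

/-- swapping the two sums over pairs -/
theorem swap_le (hds : ∀ x y, d x y = d y x) {g : ι → ι → ℝ} (hg : ∀ z w, 0 ≤ g z w) :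
    ∑ w, ∑ z ∈ (Bl d w r').erase w, g z w ≤ ∑ z, ∑ w ∈ Bl d z r', g z w := by
  classical
  have h1 : ∀ w, ∑ z ∈ (Bl d w r').erase w, g z w ≤ ∑ z, if d z w ≤ r' then g z w else 0 := by
    intro w
    refine (Finset.sum_le_sum_of_subset_of_nonneg (Finset.erase_subset _ _)
      fun z _ _ => hg z w).trans (le_of_eq ?_)
    rw [← Finset.sum_filter]
    refine Finset.sum_congr ?_ fun _ _ => rfl
    ext z
    simp [mem_Bl]
  refine (Finset.sum_le_sum fun w _ => h1 w).trans (le_of_eq ?_)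
  rw [Finset.sum_comm]
  refine Finset.sum_congr rfl fun z _ => ?_
  rw [← Finset.sum_filter]
  refine Finset.sum_congr ?_ fun _ _ => rfl
  ext w
  simp [mem_Bl, hds w z]

/-- the common pair estimate -/
theorem pair_le (hA : A.IsSymm) (hε : 0 < ε) (hG : 0 < G) (hd : 0 < d0)
    (hds : ∀ x y, d x y = d y x) (hL' : 0 ≤ L') (E : ι → ι → Set (ι → ℝ))
    (hE : ∀ w, ∀ z ∈ Bl d w r', E z w ⊆ GS A U (fun _ => G) (fun _ => ε) X0 d0 w ∩
      SL A U (fun _ => G) (fun _ => ε) (Bl d z r') L') :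
    ∑ w, ∑ z ∈ (Bl d w r').erase w, ε ^ 2 * ∫ c, (E z w).indicator
        (kT A U (fun _ => G) (fun _ => ε) φ z w) c ∂(mu ι) ≤
      CJ G X0 d0 L' * (ε * ∑ z, ∫ c, mm A (Wc U (fun _ => G) (fun _ => ε) c) z *
        muf A (Wc U (fun _ => G) (fun _ => ε) c) φ z ^ 2 ∂(mu ι)) := by
  have he : ∀ x : ι, 0 < (fun _ : ι => ε) x := fun _ => hε
  have h1 := ST1_T (A := A) (U := U) (g := fun _ => G) (e := fun _ => ε) (a := φ) (X0 := X0)
    hA he hG hd (fun z => Bl d z r') (fun _ => rfl) hL'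
  have h2 : ∀ w, ∀ z ∈ (Bl d w r').erase w, ε ^ 2 * ∫ c, (E z w).indicator
        (kT A U (fun _ => G) (fun _ => ε) φ z w) c ∂(mu ι) ≤
      ε ^ 2 * ∫ c, (GS A U (fun _ => G) (fun _ => ε) X0 d0 w ∩
        SL A U (fun _ => G) (fun _ => ε) (Bl d z r') L').indicator
        (kT A U (fun _ => G) (fun _ => ε) φ z w) c ∂(mu ι) := by
    intro w z hz
    refine mul_le_mul_of_nonneg_left ?_ (sq_nonneg ε)
    obtain ⟨M, hM0, hM⟩ := bdd_kT (U := U) (g := fun _ => G) (a := φ) hA he z w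
    have h0 : ∀ c, 0 ≤ kT A U (fun _ => G) (fun _ => ε) φ z w c := kT_nonneg hA he z w
    refine integral_mono_of_nonneg (Filter.Eventually.of_forall fun c =>
      Set.indicator_nonneg (fun c _ => h0 c) c) ?_ (Filter.Eventually.of_forall fun c => ?_)
    · refine integrable_of_bdd ((measurable_kT hA he z w).indicator
        ((measurableSet_GS X0 d0 w).inter (measurableSet_SL _ _)))
        (fun c => Set.indicator_nonneg (fun c _ => h0 c) c) (M := M) fun c => ?_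
      by_cases h : c ∈ GS A U (fun _ => G) (fun _ => ε) X0 d0 w ∩
        SL A U (fun _ => G) (fun _ => ε) (Bl d z r') L'
      · rw [Set.indicator_of_mem h]; exact hM c
      · rw [Set.indicator_of_notMem h]; exact hM0
    · exact Set.indicator_le_indicator_of_subset (hE w z (Finset.mem_of_mem_erase hz)) h0 c
  set g : ι → ι → ℝ := fun z w => ε ^ 2 * ∫ c, (GS A U (fun _ => G) (fun _ => ε) X0 d0 w ∩
        SL A U (fun _ => G) (fun _ => ε) (Bl d z r') L').indicator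
        (kT A U (fun _ => G) (fun _ => ε) φ z w) c ∂(mu ι) with hg
  have hg0 : ∀ z w, 0 ≤ g z w := fun z w =>
    mul_nonneg (sq_nonneg ε) (integral_nonneg fun c =>
        Set.indicator_nonneg (fun c _ => kT_nonneg hA he z w c) c)
  have h4 : ∑ w, ∑ z ∈ (Bl d w r').erase w, ε ^ 2 * ∫ c, (E z w).indicator
        (kT A U (fun _ => G) (fun _ => ε) φ z w) c ∂(mu ι) ≤
      ∑ w, ∑ z ∈ (Bl d w r').erase w, g z w :=
    Finset.sum_le_sum fun w _ => Finset.sum_le_sum (h2 w)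
  refine (h4.trans (swap_le hds hg0)).trans ?_
  refine le_trans (le_of_eq ?_) (h1.trans (le_of_eq ?_))
  · refine Finset.sum_congr rfl fun z _ => ?_
    rw [Finset.mul_sum]
    refine Finset.sum_congr rfl fun w _ => ?_
    show ε ^ 2 * _ = ε * (ε * _)
    rw [sq, mul_assoc]
    rfl
  · have h5 : ∀ z, ∫ c, Ls A φ z (Wc U (fun _ => G) (fun _ => ε) c) ∂(mu ι) =
        ∫ c, mm A (Wc U (fun _ => G) (fun _ => ε) c) z *
          muf A (Wc U (fun _ => G) (fun _ => ε) c) φ z ^ 2 ∂(mu ι) := fun z =>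
      integral_congr_ae (Filter.Eventually.of_forall fun c => Ls_eq hA (Wc_neg he c) z)
    simp only [h5]
    rw [← Finset.mul_sum, CJ]

/-- sums over `OF` as sums of indicators -/
theorem sum_OF (F : ι → (ι → ℝ) → ℝ) (c : ι → ℝ) :
    ∑ w ∈ OF A U G ε X0 d0 d r r' L L' c, F w c =
      ∑ w, ({c | w ∈ OF A U G ε X0 d0 d r r' L L' c}).indicator (F w) c := by
  classical
  have h1 : OF A U G ε X0 d0 d r r' L L' c =
      Finset.univ.filter fun w => w ∈ OF A U G ε X0 d0 d r r' L L' c := by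
    ext w
    simp
  rw [h1, Finset.sum_filter]
  refine Finset.sum_congr rfl fun w _ => ?_
  by_cases h : w ∈ OF A U G ε X0 d0 d r r' L L' c
  · have h2 : c ∈ {c | w ∈ OF A U G ε X0 d0 d r r' L L' c} := h
    rw [Set.indicator_of_mem h2, if_pos h]
  · have h2 : c ∉ {c | w ∈ OF A U G ε X0 d0 d r r' L L' c} := h
    rw [Set.indicator_of_notMem h2, if_neg h]

/-- double sums -/
theorem sum_OF2 (F : ι → ι → (ι → ℝ) → ℝ) (c : ι → ℝ) :
    ε ^ 2 * ∑ w ∈ OF A U G ε X0 d0 d r r' L L' c, ∑ z ∈ (Bl d w r').erase w, F z w c =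
      ∑ w, ∑ z ∈ (Bl d w r').erase w,
        ε ^ 2 * ({c | w ∈ OF A U G ε X0 d0 d r r' L L' c}).indicator (F z w) c := by
  rw [sum_OF (fun w c => ∑ z ∈ (Bl d w r').erase w, F z w c), Finset.mul_sum]
  refine Finset.sum_congr rfl fun w _ => ?_
  rw [← Finset.mul_sum]
  congr 1
  by_cases h : c ∈ {c | w ∈ OF A U G ε X0 d0 d r r' L L' c}
  · rw [Set.indicator_of_mem h]
    refine Finset.sum_congr rfl fun z _ => ?_
    rw [Set.indicator_of_mem h]
  · rw [Set.indicator_of_notMem h]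
    symm
    refine Finset.sum_eq_zero fun z _ => ?_
    rw [Set.indicator_of_notMem h]

theorem integrable_ind {E : Set (ι → ℝ)} (hE : MeasurableSet E) {F : (ι → ℝ) → ℝ}
    (hF : Integrable F (mu ι)) : Integrable (fun c => E.indicator F c) (mu ι) :=
  hF.indicator hE

theorem integrable_kT (hA : A.IsSymm) (hε : 0 < ε) (z w : ι) :
    Integrable (kT A U (fun _ => G) (fun _ => ε) φ z w) (mu ι) := by
  obtain ⟨M, hM0, hM⟩ := bdd_kT (U := U) (g := fun _ => G) (e := fun _ => ε) (a := φ) hA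
    (fun _ => hε) z w
  exact integrable_of_bdd (measurable_kT hA (fun _ => hε) z w) (kT_nonneg hA (fun _ => hε) z w) hM

theorem integrable_J (hA : A.IsSymm) (hε : 0 < ε) :
    Integrable (fun c => ε ^ 2 * ∑ w ∈ OF A U G ε X0 d0 d r r' L L' c,
      ∑ z ∈ (Bl d w r').erase w, kap A (Wc U (fun _ => G) (fun _ => ε) c) z w *
        ‖Tm A (Wc U (fun _ => G) (fun _ => ε) c) φ z w‖ ^ 2) (mu ι) := by
  have h1 := fun c => sum_OF2 (A := A) (U := U) (G := G) (ε := ε) (X0 := X0) (d0 := d0) (d := d)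
    (r := r) (r' := r') (L := L) (L' := L') (fun z w => kT A U (fun _ => G) (fun _ => ε) φ z w) c
  have h2 : (fun c => ε ^ 2 * ∑ w ∈ OF A U G ε X0 d0 d r r' L L' c,
      ∑ z ∈ (Bl d w r').erase w, kap A (Wc U (fun _ => G) (fun _ => ε) c) z w *
        ‖Tm A (Wc U (fun _ => G) (fun _ => ε) c) φ z w‖ ^ 2) = _ := funext h1
  rw [h2]
  exact integrable_finset_sum _ fun w _ => integrable_finset_sum _ fun z _ =>
    (integrable_ind (measurableSet_OF w) (integrable_kT hA hε z w)).const_mul _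

/-- **the `J` term** -/
theorem J_le (hA : A.IsSymm) (hε : 0 < ε) (hG : 0 < G) (hd : 0 < d0)
    (hds : ∀ x y, d x y = d y x) (hdt : ∀ x y z, d x z ≤ d x y + d y z) (hL' : 0 ≤ L') :
    ∫ c, ε ^ 2 * ∑ w ∈ OF A U G ε X0 d0 d r r' L L' c,
      ∑ z ∈ (Bl d w r').erase w, kap A (Wc U (fun _ => G) (fun _ => ε) c) z w *
        ‖Tm A (Wc U (fun _ => G) (fun _ => ε) c) φ z w‖ ^ 2 ∂(mu ι) ≤
      CJ G X0 d0 L' * (ε * ∑ z, ∫ c, mm A (Wc U (fun _ => G) (fun _ => ε) c) z *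
        muf A (Wc U (fun _ => G) (fun _ => ε) c) φ z ^ 2 ∂(mu ι)) := by
  have h1 := fun c => sum_OF2 (A := A) (U := U) (G := G) (ε := ε) (X0 := X0) (d0 := d0) (d := d)
    (r := r) (r' := r') (L := L) (L' := L') (fun z w => kT A U (fun _ => G) (fun _ => ε) φ z w) c
  have h2 : (fun c => ε ^ 2 * ∑ w ∈ OF A U G ε X0 d0 d r r' L L' c,
      ∑ z ∈ (Bl d w r').erase w, kap A (Wc U (fun _ => G) (fun _ => ε) c) z w *
        ‖Tm A (Wc U (fun _ => G) (fun _ => ε) c) φ z w‖ ^ 2) = _ := funext h1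
  rw [h2, integral_finset_sum _ fun w _ => integrable_finset_sum _ fun z _ =>
    (integrable_ind (measurableSet_OF w) (integrable_kT hA hε z w)).const_mul _]
  have h3 : ∀ w, ∫ c, ∑ z ∈ (Bl d w r').erase w, ε ^ 2 *
      ({c | w ∈ OF A U G ε X0 d0 d r r' L L' c}).indicator
        (kT A U (fun _ => G) (fun _ => ε) φ z w) c ∂(mu ι) =
      ∑ z ∈ (Bl d w r').erase w, ε ^ 2 * ∫ c,
        ({c | w ∈ OF A U G ε X0 d0 d r r' L L' c}).indicator
        (kT A U (fun _ => G) (fun _ => ε) φ z w) c ∂(mu ι) := by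
    intro w
    rw [integral_finset_sum _ fun z _ =>
      (integrable_ind (measurableSet_OF w) (integrable_kT hA hε z w)).const_mul _]
    refine Finset.sum_congr rfl fun z _ => ?_
    rw [integral_const_mul]
  rw [Finset.sum_congr rfl fun w _ => h3 w]
  exact pair_le hA hε hG hd hds hL' (fun _ w => {c | w ∈ OF A U G ε X0 d0 d r r' L L' c})
    fun w z hz c hc => OF_subset hA hε hdt hz hc

/-- the `λ` observable of the pair `(z,w)` -/
noncomputable def LT (A : Matrix ι ι ℝ) (U : ι → ℝ) (G ε X0 d0 : ℝ) (φ : ι → ℝ)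
    (B : Finset ι) (z w : ι) (c : ι → ℝ) : ℝ :=
  ∑ y ∈ B.filter (fun y => y ≠ z ∧ y ≠ w),
    ({c | Good A U (fun _ => G) (fun _ => ε) X0 d0 c y}).indicator
      (fun c => ε * kkT A U (fun _ => G) (fun _ => ε) φ y z w c) c

theorem lamS_eq_LT (B : Finset ι) (z w : ι) (c : ι → ℝ) :
    lamS A (Wc U (fun _ => G) (fun _ => ε) c) (B ∩ GdF A U G ε X0 d0 c) z w *
      ‖Tm A (Wc U (fun _ => G) (fun _ => ε) c) φ z w‖ ^ 2 = LT A U G ε X0 d0 φ B z w c := by
  classical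
  rw [lamS, LT, Finset.sum_mul]
  have h1 : (B ∩ GdF A U G ε X0 d0 c).filter (fun y => y ≠ z ∧ y ≠ w) =
      (B.filter (fun y => y ≠ z ∧ y ≠ w)).filter
        (fun y => Good A U (fun _ => G) (fun _ => ε) X0 d0 c y) := by
    ext y
    simp only [Finset.mem_filter, Finset.mem_inter, mem_GdF]
    tauto
  rw [h1, Finset.sum_filter (s := B.filter (fun y => y ≠ z ∧ y ≠ w))]
  refine Finset.sum_congr rfl fun y _ => ?_
  by_cases h : Good A U (fun _ => G) (fun _ => ε) X0 d0 c y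
  · have h2 : c ∈ {c | Good A U (fun _ => G) (fun _ => ε) X0 d0 c y} := h
    rw [Set.indicator_of_mem h2, if_pos h, Wc_im, neg_neg, kkT]
    ring
  · have h2 : c ∉ {c | Good A U (fun _ => G) (fun _ => ε) X0 d0 c y} := h
    rw [Set.indicator_of_notMem h2, if_neg h]

theorem integrable_kkT (hA : A.IsSymm) (hε : 0 < ε) (y z w : ι) :
    Integrable (kkT A U (fun _ => G) (fun _ => ε) φ y z w) (mu ι) := by
  obtain ⟨M, hM0, hM⟩ := bdd_kkT (U := U) (g := fun _ => G) (e := fun _ => ε) (a := φ) hA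
    (fun _ => hε) y z w
  exact integrable_of_bdd (measurable_kkT hA (fun _ => hε) y z w)
    (kkT_nonneg hA (fun _ => hε) y z w) hM

theorem integrable_LT (hA : A.IsSymm) (hε : 0 < ε) (B : Finset ι) (z w : ι) :
    Integrable (LT A U G ε X0 d0 φ B z w) (mu ι) := by
  unfold LT
  exact integrable_finset_sum _ fun y _ =>
    ((integrable_kkT hA hε y z w).const_mul ε).indicator (measurableSet_Good X0 d0 y)

theorem LT_nonneg (hA : A.IsSymm) (hε : 0 < ε) (B : Finset ι) (z w : ι) (c : ι → ℝ) :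
    0 ≤ LT A U G ε X0 d0 φ B z w c :=
  Finset.sum_nonneg fun y _ => Set.indicator_nonneg
    (fun c _ => mul_nonneg hε.le (kkT_nonneg hA (fun _ => hε) y z w c)) c

/-- one pair: the `λ` observable on `w ∈ OF` -/
theorem LT_pair (hA : A.IsSymm) (hε : 0 < ε) (hG : 0 < G) (hd : 0 < d0) (hr : 0 ≤ r)
    (hrr : r ≤ r') (hL' : 0 ≤ L') (z w : ι) :
    ∫ c, ({c | w ∈ OF A U G ε X0 d0 d r r' L L' c}).indicator
        (LT A U G ε X0 d0 φ (Bl d w r) z w) c ∂(mu ι) ≤
      C2 G X0 d0 / G * (L' + 1) * ∫ c,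
        ((Ev2 A U (fun _ => G) (fun _ => ε) X0 (d0 / 22) w (Bl d w (2 * r')) (L' + 1)).indicator
          (kT A U (fun _ => G) (fun _ => ε) φ z w)) c ∂(mu ι) := by
  have he : ∀ x : ι, 0 < (fun _ : ι => ε) x := fun _ => hε
  have h1 := ST2 (A := A) (U := U) (g := fun _ => G) (e := fun _ => ε) (a := φ) (X0 := X0)
    hA he hG (fun _ => rfl) hd z w (B := (Bl d w r).erase w) (B' := Bl d w (2 * r'))
    ((Finset.erase_subset _ _).trans (Bl_mono (by linarith))) (Finset.notMem_erase _ _) (L := L')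
  refine le_trans ?_ h1
  have hE : ∀ y, MeasurableSet {c | Good A U (fun _ => G) (fun _ => ε) X0 d0 c y ∧
      Good A U (fun _ => G) (fun _ => ε) X0 d0 c w ∧
      Sb A U (fun _ => G) (fun _ => ε) (fun _ => ε) (Bl d w (2 * r')) c ≤ L'} := fun y =>
    (measurableSet_Good X0 d0 y).inter ((measurableSet_Good X0 d0 w).inter
      (measurableSet_le (measurable_Sb _ _) measurable_const))
  have h2 : ∑ y ∈ (Bl d w r).erase w, ε * ∫ c,
      ({c | Good A U (fun _ => G) (fun _ => ε) X0 d0 c y ∧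
        Good A U (fun _ => G) (fun _ => ε) X0 d0 c w ∧
        Sb A U (fun _ => G) (fun _ => ε) (fun _ => ε) (Bl d w (2 * r')) c ≤ L'}.indicator
        (kkT A U (fun _ => G) (fun _ => ε) φ y z w)) c ∂(mu ι) =
      ∫ c, ∑ y ∈ (Bl d w r).erase w, ε *
      ({c | Good A U (fun _ => G) (fun _ => ε) X0 d0 c y ∧
        Good A U (fun _ => G) (fun _ => ε) X0 d0 c w ∧
        Sb A U (fun _ => G) (fun _ => ε) (fun _ => ε) (Bl d w (2 * r')) c ≤ L'}.indicator
        (kkT A U (fun _ => G) (fun _ => ε) φ y z w)) c ∂(mu ι) := by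
    rw [integral_finset_sum _ fun y _ =>
      ((integrable_kkT hA hε y z w).indicator (hE y)).const_mul ε]
    refine Finset.sum_congr rfl fun y _ => ?_
    rw [integral_const_mul]
  show _ ≤ ∑ y ∈ (Bl d w r).erase w, ε * _
  rw [h2]
  refine integral_mono_of_nonneg (Filter.Eventually.of_forall fun c =>
    Set.indicator_nonneg (fun c _ => LT_nonneg hA hε _ z w c) c)
    (integrable_finset_sum _ fun y _ =>
      ((integrable_kkT hA hε y z w).indicator (hE y)).const_mul ε)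
    (Filter.Eventually.of_forall fun c => ?_)
  have hnn : ∀ y, 0 ≤ ε *
      ({c | Good A U (fun _ => G) (fun _ => ε) X0 d0 c y ∧
        Good A U (fun _ => G) (fun _ => ε) X0 d0 c w ∧
        Sb A U (fun _ => G) (fun _ => ε) (fun _ => ε) (Bl d w (2 * r')) c ≤ L'}.indicator
        (kkT A U (fun _ => G) (fun _ => ε) φ y z w)) c := fun y =>
    mul_nonneg hε.le (Set.indicator_nonneg (fun c _ => kkT_nonneg hA he y z w c) c)
  by_cases h : w ∈ OF A U G ε X0 d0 d r r' L L' c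
  · have h3 : c ∈ {c | w ∈ OF A U G ε X0 d0 d r r' L L' c} := h
    show Set.indicator _ _ c ≤ _
    rw [Set.indicator_of_mem h3, LT]
    have h4 : (Bl d w r).filter (fun y => y ≠ z ∧ y ≠ w) ⊆ (Bl d w r).erase w := by
      intro y hy
      rw [Finset.mem_filter] at hy
      exact Finset.mem_erase.2 ⟨hy.2.2, hy.1⟩
    refine (Finset.sum_le_sum fun y _ => ?_).trans
      (Finset.sum_le_sum_of_subset_of_nonneg h4 fun y _ _ => hnn y)
    rw [mem_OF] at h
    by_cases hy : Good A U (fun _ => G) (fun _ => ε) X0 d0 c y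
    · have h5 : c ∈ {c | Good A U (fun _ => G) (fun _ => ε) X0 d0 c y} := hy
      have h6 : c ∈ {c | Good A U (fun _ => G) (fun _ => ε) X0 d0 c y ∧
        Good A U (fun _ => G) (fun _ => ε) X0 d0 c w ∧
        Sb A U (fun _ => G) (fun _ => ε) (fun _ => ε) (Bl d w (2 * r')) c ≤ L'} :=
        ⟨hy, h.1, by rw [Sb_eq]; exact h.2.2⟩
      rw [Set.indicator_of_mem h5, Set.indicator_of_mem h6]
    · have h5 : c ∉ {c | Good A U (fun _ => G) (fun _ => ε) X0 d0 c y} := hy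
      rw [Set.indicator_of_notMem h5]
      exact hnn y
  · have h3 : c ∉ {c | w ∈ OF A U G ε X0 d0 d r r' L L' c} := h
    show Set.indicator _ _ c ≤ _
    rw [Set.indicator_of_notMem h3]
    exact Finset.sum_nonneg fun y _ => hnn y

theorem JL_integrand (c : ι → ℝ) :
    ε ^ 2 * ∑ w ∈ OF A U G ε X0 d0 d r r' L L' c, ∑ z ∈ (Bl d w r').erase w,
      (kap A (Wc U (fun _ => G) (fun _ => ε) c) z w +
        lamS A (Wc U (fun _ => G) (fun _ => ε) c) (Bl d w r ∩ GdF A U G ε X0 d0 c) z w) *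
        ‖Tm A (Wc U (fun _ => G) (fun _ => ε) c) φ z w‖ ^ 2 =
      ∑ w, ∑ z ∈ (Bl d w r').erase w,
        ε ^ 2 * ({c | w ∈ OF A U G ε X0 d0 d r r' L L' c}).indicator
          (kT A U (fun _ => G) (fun _ => ε) φ z w) c +
      ∑ w, ∑ z ∈ (Bl d w r').erase w,
        ε ^ 2 * ({c | w ∈ OF A U G ε X0 d0 d r r' L L' c}).indicator
          (LT A U G ε X0 d0 φ (Bl d w r) z w) c := by
  rw [← sum_OF2 (fun z w => kT A U (fun _ => G) (fun _ => ε) φ z w) c,
    ← sum_OF2 (fun z w => LT A U G ε X0 d0 φ (Bl d w r) z w) c, ← mul_add,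
    ← Finset.sum_add_distrib]
  congr 1
  refine Finset.sum_congr rfl fun w _ => ?_
  rw [← Finset.sum_add_distrib]
  refine Finset.sum_congr rfl fun z _ => ?_
  rw [add_mul, lamS_eq_LT]
  rfl

theorem integrable_J1 (hA : A.IsSymm) (hε : 0 < ε) :
    Integrable (fun c => ∑ w, ∑ z ∈ (Bl d w r').erase w,
        ε ^ 2 * ({c | w ∈ OF A U G ε X0 d0 d r r' L L' c}).indicator
          (kT A U (fun _ => G) (fun _ => ε) φ z w) c) (mu ι) :=
  integrable_finset_sum _ fun w _ => integrable_finset_sum _ fun z _ =>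
    (integrable_ind (measurableSet_OF w) (integrable_kT hA hε z w)).const_mul _

theorem integrable_L1 (hA : A.IsSymm) (hε : 0 < ε) :
    Integrable (fun c => ∑ w, ∑ z ∈ (Bl d w r').erase w,
        ε ^ 2 * ({c | w ∈ OF A U G ε X0 d0 d r r' L L' c}).indicator
          (LT A U G ε X0 d0 φ (Bl d w r) z w) c) (mu ι) :=
  integrable_finset_sum _ fun w _ => integrable_finset_sum _ fun z _ =>
    (integrable_ind (measurableSet_OF w) (integrable_LT hA hε _ z w)).const_mul _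

theorem integrable_JL (hA : A.IsSymm) (hε : 0 < ε) :
    Integrable (fun c => ε ^ 2 * ∑ w ∈ OF A U G ε X0 d0 d r r' L L' c,
      ∑ z ∈ (Bl d w r').erase w, (kap A (Wc U (fun _ => G) (fun _ => ε) c) z w +
        lamS A (Wc U (fun _ => G) (fun _ => ε) c) (Bl d w r ∩ GdF A U G ε X0 d0 c) z w) *
        ‖Tm A (Wc U (fun _ => G) (fun _ => ε) c) φ z w‖ ^ 2) (mu ι) := by
  simp only [JL_integrand]
  exact (integrable_J1 hA hε).add (integrable_L1 hA hε)

theorem L1_le (hA : A.IsSymm) (hε : 0 < ε) (hG : 0 < G) (hd : 0 < d0)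
    (hds : ∀ x y, d x y = d y x) (hdt : ∀ x y z, d x z ≤ d x y + d y z) (hr : 0 ≤ r)
    (hrr : r ≤ r') (hL' : 0 ≤ L') :
    ∫ c, ∑ w, ∑ z ∈ (Bl d w r').erase w,
        ε ^ 2 * ({c | w ∈ OF A U G ε X0 d0 d r r' L L' c}).indicator
          (LT A U G ε X0 d0 φ (Bl d w r) z w) c ∂(mu ι) ≤
      C2 G X0 d0 / G * (L' + 1) * CJ G X0 (d0 / 22) (L' + 1) *
        (ε * ∑ z, ∫ c, mm A (Wc U (fun _ => G) (fun _ => ε) c) z *
        muf A (Wc U (fun _ => G) (fun _ => ε) c) φ z ^ 2 ∂(mu ι)) := by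
  have he : ∀ x : ι, 0 < (fun _ : ι => ε) x := fun _ => hε
  have hC2 := C2_pos (X0 := X0) (d0 := d0) hG
  rw [integral_finset_sum _ fun w _ => integrable_finset_sum _ fun z _ =>
    (integrable_ind (measurableSet_OF w) (integrable_LT hA hε _ z w)).const_mul _]
  have h1 : ∀ w, ∫ c, ∑ z ∈ (Bl d w r').erase w, ε ^ 2 *
      ({c | w ∈ OF A U G ε X0 d0 d r r' L L' c}).indicator
        (LT A U G ε X0 d0 φ (Bl d w r) z w) c ∂(mu ι) ≤
      ∑ z ∈ (Bl d w r').erase w, C2 G X0 d0 / G * (L' + 1) * (ε ^ 2 * ∫ c,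
        ((Ev2 A U (fun _ => G) (fun _ => ε) X0 (d0 / 22) w (Bl d w (2 * r')) (L' + 1)).indicator
          (kT A U (fun _ => G) (fun _ => ε) φ z w)) c ∂(mu ι)) := by
    intro w
    rw [integral_finset_sum _ fun z _ =>
      (integrable_ind (measurableSet_OF w) (integrable_LT hA hε _ z w)).const_mul _]
    refine Finset.sum_le_sum fun z _ => ?_
    rw [integral_const_mul]
    have := mul_le_mul_of_nonneg_left (LT_pair (A := A) (U := U) (X0 := X0) (d := d) (L := L)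
      (φ := φ) hA hε hG hd hr hrr hL' z w) (sq_nonneg ε)
    linarith
  refine (Finset.sum_le_sum fun w _ => h1 w).trans ?_
  have h2 := pair_le (A := A) (U := U) (X0 := X0) (d := d) (r' := r') (φ := φ) hA hε hG
    (show 0 < d0 / 22 by positivity) hds (show 0 ≤ L' + 1 by linarith)
    (fun _ w => Ev2 A U (fun _ => G) (fun _ => ε) X0 (d0 / 22) w (Bl d w (2 * r')) (L' + 1))
    (by
      intro w z hz c hc
      refine ⟨hc.1, (Sb_mono hA he ?_ c).trans hc.2⟩
      intro x hx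
      rw [mem_Bl] at hx hz ⊢
      have := hdt x z w
      linarith)
  simp only [← Finset.mul_sum] at h2 ⊢
  have h3 := mul_le_mul_of_nonneg_left h2
    (show 0 ≤ C2 G X0 d0 / G * (L' + 1) by positivity)
  refine h3.trans (le_of_eq ?_)
  ring

/-- **the `J + Λ` term** -/
theorem JL_le (hA : A.IsSymm) (hε : 0 < ε) (hG : 0 < G) (hd : 0 < d0)
    (hds : ∀ x y, d x y = d y x) (hdt : ∀ x y z, d x z ≤ d x y + d y z) (hr : 0 ≤ r)
    (hrr : r ≤ r') (hL' : 0 ≤ L') :
    ∫ c, ε ^ 2 * ∑ w ∈ OF A U G ε X0 d0 d r r' L L' c, ∑ z ∈ (Bl d w r').erase w,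
      (kap A (Wc U (fun _ => G) (fun _ => ε) c) z w +
        lamS A (Wc U (fun _ => G) (fun _ => ε) c) (Bl d w r ∩ GdF A U G ε X0 d0 c) z w) *
        ‖Tm A (Wc U (fun _ => G) (fun _ => ε) c) φ z w‖ ^ 2 ∂(mu ι) ≤
      CL G X0 d0 L' * (ε * ∑ z, ∫ c, mm A (Wc U (fun _ => G) (fun _ => ε) c) z *
        muf A (Wc U (fun _ => G) (fun _ => ε) c) φ z ^ 2 ∂(mu ι)) := by
  have hJ := J_le (A := A) (U := U) (X0 := X0) (d := d) (r := r) (r' := r') (L := L) (φ := φ)
    hA hε hG hd hds hdt hL'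
  have hL1 := L1_le (A := A) (U := U) (X0 := X0) (d := d) (r := r) (r' := r') (L := L) (φ := φ)
    hA hε hG hd hds hdt hr hrr hL'
  simp only [JL_integrand]
  rw [integral_add (integrable_J1 hA hε) (integrable_L1 hA hε), CL, add_mul]
  refine add_le_add (le_trans (le_of_eq ?_) hJ) hL1
  refine integral_congr_ae (Filter.Eventually.of_forall fun c => ?_)
  exact (sum_OF2 (fun z w => kT A U (fun _ => G) (fun _ => ε) φ z w) c).symm

end P365L.Stat
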