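import Vale.Agent.P365.Stat.Core
import Vale.Agent.P365.Stat.JL
import Vale.Agent.P365.Stat.StaticDef

/-!
# P365: the static theorem.
-/

set_option linter.all false

namespace P365L.Stat

open MeasureTheory ProbabilityTheory Complex Set P365L P365L.Poi P365O
open scoped ComplexConjugate Real

/-! ### constants uniform in the noise scale -/

/-- bound of `1 / (cst G X0 d0 * G)` for `G ≥ γ/2` -/
noncomputable def bb (γ X0 d0 : ℝ) : ℝ := π * (1 + (X0 + 4 / (γ * d0)) ^ 2)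

theorem bb_pos (γ X0 d0 : ℝ) : 0 < bb γ X0 d0 := by
  unfold bb
  have := Real.pi_pos
  positivity

theorem inv_cst_le {γ G X0 d0 : ℝ} (hγ : 0 < γ) (hG : γ / 2 ≤ G) (hX0 : 0 ≤ X0) (hd0 : 0 < d0) :
    1 / (cst G X0 d0 * G) ≤ bb γ X0 d0 := by
  have hG0 : 0 < G := by linarith
  have hpi := Real.pi_pos
  have h1 : 1 / (cst G X0 d0 * G) = π * (1 + (X0 + 2 / (G * d0)) ^ 2) := by
    unfold cst
    field_simp
  rw [h1, bb]
  have h2 : 2 / (G * d0) ≤ 4 / (γ * d0) := by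
    rw [div_le_div_iff₀ (by positivity) (by positivity)]
    nlinarith
  have h3 : 0 ≤ 2 / (G * d0) := by positivity
  have h4 : (X0 + 2 / (G * d0)) ^ 2 ≤ (X0 + 4 / (γ * d0)) ^ 2 :=
    pow_le_pow_left₀ (by positivity) (by linarith) 2
  exact mul_le_mul_of_nonneg_left (by linarith) hpi.le

/-- uniform `CJ` -/
noncomputable def CJb (γ X0 d0 L' : ℝ) : ℝ := 65 * bb γ X0 d0 * (L' + 1) + 1 / 2

/-- uniform `CL` -/
noncomputable def CLb (γ X0 d0 L' : ℝ) : ℝ :=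
  CJb γ X0 d0 L' + 57274624 * bb γ X0 d0 * (L' + 1) * CJb γ X0 (d0 / 22) (L' + 1)

theorem CJb_pos {γ X0 d0 L' : ℝ} (hL' : 0 ≤ L') : 0 < CJb γ X0 d0 L' := by
  have := bb_pos γ X0 d0
  unfold CJb
  positivity

theorem CLb_pos {γ X0 d0 L' : ℝ} (hL' : 0 ≤ L') : 0 < CLb γ X0 d0 L' := by
  have h1 := bb_pos γ X0 d0
  have h2 := CJb_pos (γ := γ) (X0 := X0) (d0 := d0) hL'
  have h3 := CJb_pos (γ := γ) (X0 := X0) (d0 := d0 / 22) (show (0 : ℝ) ≤ L' + 1 by linarith)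
  unfold CLb
  positivity

theorem CJ_le {γ G X0 d0 L' : ℝ} (hγ : 0 < γ) (hG : γ / 2 ≤ G) (hX0 : 0 ≤ X0) (hd0 : 0 < d0)
    (hL' : 0 ≤ L') : CJ G X0 d0 L' ≤ CJb γ X0 d0 L' := by
  have h := inv_cst_le hγ hG hX0 hd0
  have hG0 : 0 < G := by linarith
  have hc := cst_pos (X0 := X0) (d0 := d0) hG0
  have h1 : 260 / (4 * cst G X0 d0 * G) = 65 * (1 / (cst G X0 d0 * G)) := by
    field_simp
    norm_num
  unfold CJ CJb
  rw [h1]
  have h2 : 65 * (1 / (cst G X0 d0 * G)) * (L' + 1) ≤ 65 * bb γ X0 d0 * (L' + 1) :=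
    mul_le_mul_of_nonneg_right (by linarith) (by linarith)
  linarith

theorem CL_le {γ G X0 d0 L' : ℝ} (hγ : 0 < γ) (hG : γ / 2 ≤ G) (hX0 : 0 ≤ X0) (hd0 : 0 < d0)
    (hL' : 0 ≤ L') : CL G X0 d0 L' ≤ CLb γ X0 d0 L' := by
  have h := inv_cst_le hγ hG hX0 hd0
  have hG0 : 0 < G := by linarith
  have hc := cst_pos (X0 := X0) (d0 := d0) hG0
  have hb := bb_pos γ X0 d0
  have h1 := CJ_le hγ hG hX0 hd0 hL'
  have h2 := CJ_le hγ hG hX0 (show 0 < d0 / 22 by positivity) (show (0 : ℝ) ≤ L' + 1 by linarith)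
  have h3 := CJ_nonneg (X0 := X0) (d0 := d0 / 22) hG0 (show (0 : ℝ) ≤ L' + 1 by linarith)
  have h4 : C2 G X0 d0 / G ≤ 57274624 * bb γ X0 d0 := by
    have e1 : C2 G X0 d0 / G = 57274624 * (1 / (cst G X0 d0 * G)) := by
      unfold C2
      field_simp
    rw [e1]
    linarith
  unfold CL CLb
  refine add_le_add h1 (mul_le_mul (mul_le_mul_of_nonneg_right h4 (by linarith)) h2 h3 ?_)
  positivity

/-! ### choice of the parameters -/

/-- the parameters -/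
theorem params {γ R θ : ℝ} (hγ : 0 < γ) (hR : 0 < R) (hθ : 0 < θ) :
    ∃ X0 d0 L q L' t t' η : ℝ, 0 < X0 ∧ 0 < d0 ∧ 0 < L ∧ 0 < q ∧ 0 < L' ∧ 0 < t ∧ 0 < t' ∧
      0 < η ∧
      R ^ 2 * (2 * d0) ≤ θ / 10 ∧
      R ^ 2 * (2 * (2 / (γ * (1 + X0 ^ 2)))) ≤ θ / 10 ∧
      R ^ 2 * (1 / L * (2 / γ * (nb γ R + 1))) ≤ θ / 10 ∧
      R ^ 2 * (1 / L' * (2 / γ * (nb γ (R + q) + 1))) ≤ θ / 10 ∧
      4 / 3 * (2 / t' * (1 / γ ^ 2)) ≤ θ / 10 ∧
      4 / 3 * (2 * t' * R ^ 2 * (L * (4 * π ^ 2 / γ ^ 2 * (1 / q ^ 2)))) ≤ θ / 10 ∧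
      4 / 3 * (t * R ^ 2 * ((L' * (2 * L + 13) + 2) * (2 / γ))) ≤ θ / 10 ∧
      4 / 3 * ((32 + 16 * CJb γ X0 d0 L' + 2 / t * CLb γ X0 d0 L') * η) ≤ θ / 10 := by
  have hpi := Real.pi_pos
  obtain ⟨d0, hd0, e1⟩ : ∃ d0 : ℝ, 0 < d0 ∧ R ^ 2 * (2 * d0) ≤ θ / 10 :=
    ⟨θ / (20 * R ^ 2), by positivity, le_of_eq (by field_simp; norm_num)⟩
  obtain ⟨X0, hX0, e2⟩ : ∃ X0 : ℝ, 0 < X0 ∧
      R ^ 2 * (2 * (2 / (γ * (1 + X0 ^ 2)))) ≤ θ / 10 := by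
    refine ⟨40 * R ^ 2 / (γ * θ), by positivity, ?_⟩
    set X0 := 40 * R ^ 2 / (γ * θ) with hX
    have hX0 : 0 < X0 := by positivity
    have h1 : X0 ≤ 1 + X0 ^ 2 := by nlinarith [sq_nonneg (X0 - 1)]
    calc R ^ 2 * (2 * (2 / (γ * (1 + X0 ^ 2)))) ≤ R ^ 2 * (2 * (2 / (γ * X0))) := by
          gcongr
      _ = θ / 10 := by rw [hX]; field_simp; norm_num
  obtain ⟨L, hL, e3⟩ : ∃ L : ℝ, 0 < L ∧ R ^ 2 * (1 / L * (2 / γ * (nb γ R + 1))) ≤ θ / 10 := by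
    have h := nb_nonneg hγ R
    refine ⟨20 * R ^ 2 * (nb γ R + 1) / (γ * θ), by positivity, le_of_eq ?_⟩
    field_simp
    norm_num
  obtain ⟨t', ht', e5⟩ : ∃ t' : ℝ, 0 < t' ∧ 4 / 3 * (2 / t' * (1 / γ ^ 2)) ≤ θ / 10 := by
    refine ⟨80 / (3 * γ ^ 2 * θ), by positivity, le_of_eq ?_⟩
    field_simp
    norm_num
  obtain ⟨q, hq, e6⟩ : ∃ q : ℝ, 0 < q ∧
      4 / 3 * (2 * t' * R ^ 2 * (L * (4 * π ^ 2 / γ ^ 2 * (1 / q ^ 2)))) ≤ θ / 10 := by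
    set K : ℝ := 4 / 3 * (2 * t' * R ^ 2 * (L * (4 * π ^ 2 / γ ^ 2))) with hK
    have hK0 : 0 < K := by positivity
    refine ⟨10 * K / θ + 1, by positivity, ?_⟩
    set q := 10 * K / θ + 1 with hq
    have hq1 : 1 ≤ q := by
      rw [hq]
      have : 0 ≤ 10 * K / θ := by positivity
      linarith
    have hq0 : 0 < q := by linarith
    have h1 : 10 * K / θ ≤ q ^ 2 := by nlinarith
    have h2 : 4 / 3 * (2 * t' * R ^ 2 * (L * (4 * π ^ 2 / γ ^ 2 * (1 / q ^ 2)))) = K / q ^ 2 := by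
      rw [hK]; ring
    rw [h2, div_le_iff₀ (by positivity)]
    rw [div_le_iff₀ hθ] at h1
    linarith
  obtain ⟨L', hL', e4⟩ : ∃ L' : ℝ, 0 < L' ∧
      R ^ 2 * (1 / L' * (2 / γ * (nb γ (R + q) + 1))) ≤ θ / 10 := by
    have h := nb_nonneg hγ (R + q)
    refine ⟨20 * R ^ 2 * (nb γ (R + q) + 1) / (γ * θ), by positivity, le_of_eq ?_⟩
    field_simp
    norm_num
  obtain ⟨t, ht, e7⟩ : ∃ t : ℝ, 0 < t ∧
      4 / 3 * (t * R ^ 2 * ((L' * (2 * L + 13) + 2) * (2 / γ))) ≤ θ / 10 := by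
    refine ⟨3 * θ * γ / (80 * R ^ 2 * (L' * (2 * L + 13) + 2)), by positivity, le_of_eq ?_⟩
    have h : L' * (2 * L + 13) + 2 ≠ 0 := by positivity
    field_simp
    norm_num
  obtain ⟨η, hη, e8⟩ : ∃ η : ℝ, 0 < η ∧
      4 / 3 * ((32 + 16 * CJb γ X0 d0 L' + 2 / t * CLb γ X0 d0 L') * η) ≤ θ / 10 := by
    have h1 := CJb_pos (γ := γ) (X0 := X0) (d0 := d0) hL'.le
    have h2 := CLb_pos (γ := γ) (X0 := X0) (d0 := d0) hL'.le
    set K : ℝ := 32 + 16 * CJb γ X0 d0 L' + 2 / t * CLb γ X0 d0 L' with hK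
    have hK0 : 0 < K := by positivity
    refine ⟨3 * θ / (40 * K), by positivity, le_of_eq ?_⟩
    field_simp
    norm_num
  exact ⟨X0, d0, L, q, L', t, t', η, hX0, hd0, hL, hq, hL', ht, ht', hη, e1, e2, e3, e4, e5, e6,
    e7, e8⟩

end P365L.Stat

namespace P365L

open MeasureTheory ProbabilityTheory Complex Set P365L.Poi P365O P365L.Stat
open scoped ComplexConjugate Real

/-- **the static theorem** -/
theorem static : StaticThm := by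
  intro γ hγ B hB R hR θ hθ
  obtain ⟨X0, d0, L, q, L', t, t', η, hX0, hd0, hL, hq, hL', ht, ht', hη, e1, e2, e3, e4, e5, e6,
    e7, e8⟩ := params hγ hR hθ
  refine ⟨η, hη, ?_⟩
  intro N _ hN ε hε hεγ U hU φ hφ hloss
  have hA := AT_symm N
  have hG : 0 < γ - ε := by linarith
  have hG2 : γ / 2 ≤ γ - ε := by linarith
  have hs : 0 < Real.sqrt ε := Real.sqrt_pos.2 hε
  have hr0 : 0 ≤ R / Real.sqrt ε := by positivity
  have hrr : R / Real.sqrt ε ≤ (R + q) / Real.sqrt ε :=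
    div_le_div_of_nonneg_right (by linarith) hs.le
  set Λ : ℝ := η * (N : ℝ) ^ 2 with hΛd
  have hN2 : 0 ≤ (N : ℝ) ^ 2 := sq_nonneg _
  have hΛ0 : 0 ≤ Λ := mul_nonneg hη.le hN2
  have hΛ : ε * ∑ z, ∫ c, mm (AT N) (Wc U (fun _ => γ - ε) (fun _ => ε) c) z *
      muf (AT N) (Wc U (fun _ => γ - ε) (fun _ => ε) c) φ z ^ 2 ∂(mu (Tor N)) ≤ Λ := hloss
  have hJ : IB (mu (Tor N)) (fun c => ε ^ 2 * ∑ w ∈ OF (AT N) U (γ - ε) ε X0 d0 dN
        (R / Real.sqrt ε) ((R + q) / Real.sqrt ε) L L' c,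
      ∑ z ∈ (Bl dN w ((R + q) / Real.sqrt ε)).erase w,
        kap (AT N) (Wc U (fun _ => γ - ε) (fun _ => ε) c) z w *
          ‖Tm (AT N) (Wc U (fun _ => γ - ε) (fun _ => ε) c) φ z w‖ ^ 2)
      (CJb γ X0 d0 L' * Λ) := by
    refine ⟨integrable_J hA hε, (J_le hA hε hG hd0 dN_comm dN_tri hL'.le).trans ?_⟩
    exact mul_le_mul (CJ_le hγ hG2 hX0.le hd0 hL'.le) hΛ
      (mul_nonneg hε.le (Finset.sum_nonneg fun z _ => integral_nonneg fun c =>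
        mul_nonneg (mm_pos hA (fun x => by rw [Wc_im]; linarith) z).le (sq_nonneg _)))
      (CJb_pos hL'.le).le
  have hJL : IB (mu (Tor N)) (fun c => ε ^ 2 * ∑ w ∈ OF (AT N) U (γ - ε) ε X0 d0 dN
        (R / Real.sqrt ε) ((R + q) / Real.sqrt ε) L L' c,
      ∑ z ∈ (Bl dN w ((R + q) / Real.sqrt ε)).erase w,
        (kap (AT N) (Wc U (fun _ => γ - ε) (fun _ => ε) c) z w +
          lamS (AT N) (Wc U (fun _ => γ - ε) (fun _ => ε) c)
            (Bl dN w (R / Real.sqrt ε) ∩ GdF (AT N) U (γ - ε) ε X0 d0 c) z w) *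
          ‖Tm (AT N) (Wc U (fun _ => γ - ε) (fun _ => ε) c) φ z w‖ ^ 2)
      (CLb γ X0 d0 L' * Λ) := by
    refine ⟨integrable_JL hA hε, (JL_le hA hε hG hd0 dN_comm dN_tri hr0 hrr hL'.le).trans ?_⟩
    exact mul_le_mul (CL_le hγ hG2 hX0.le hd0 hL'.le) hΛ
      (mul_nonneg hε.le (Finset.sum_nonneg fun z _ => integral_nonneg fun c =>
        mul_nonneg (mm_pos hA (fun x => by rw [Wc_im]; linarith) z).le (sq_nonneg _)))
      (CLb_pos hL'.le).le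
  have hcore := static_core (N := N) hγ hε hεγ U hφ hR hq hX0.le hd0 hL hL' ht ht'
    (O := fun c => OF (AT N) U (γ - ε) ε X0 d0 dN (R / Real.sqrt ε) ((R + q) / Real.sqrt ε)
      L L' c)
    (Gd := fun c => GdF (AT N) U (γ - ε) ε X0 d0 c)
    (fun c w hw => (mem_OF.1 hw).2.1) (fun c w hw => (mem_OF.1 hw).2.2)
    (fun c w hw => by
      rw [mem_OF] at hw
      by_contra hcon
      push Not at hcon
      exact hw ⟨hcon.1, hcon.2.1, hcon.2.2⟩)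
    (fun c z hz hg => hz (mem_GdF.2 hg)) hΛ hJ hJL
  -- left side
  have hleft : ∑ x, ∑ y ∈ Finset.univ.filter (fun y => (nrm (x - y) : ℝ) ≤ R / Real.sqrt ε),
        ε ^ 2 * EEp γ (fun _ => ε) U (fun W => KK (AT N) W x y) * (φ x - φ y) ^ 2 =
      ∫ c, ε ^ 2 * ∑ w, ∑ z ∈ Bl dN w (R / Real.sqrt ε),
        KK (AT N) (Wc U (fun _ => γ - ε) (fun _ => ε) c) z w * (φ z - φ w) ^ 2 ∂(mu (Tor N)) := by
    have hi : ∀ w z : Tor N, Integrable (fun c => KK (AT N)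
        (Wc U (fun _ => γ - ε) (fun _ => ε) c) z w * (φ z - φ w) ^ 2) (mu (Tor N)) := fun w z =>
      ((BM_KK hA (fun _ => hε) z w).mul (BM.const _)).int
    rw [integral_const_mul, integral_finset_sum _ fun w _ => integrable_finset_sum _ fun z _ =>
      hi w z, Finset.mul_sum]
    refine Finset.sum_congr rfl fun w _ => ?_
    rw [integral_finset_sum _ fun z _ => hi w z, Finset.mul_sum]
    refine Finset.sum_congr ?_ fun z _ => ?_
    · ext z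
      rw [mem_Bl, Finset.mem_filter, dN, nrm_sub_comm]
      simp
    · rw [integral_mul_const, mul_assoc]
      congr 1
      have h1 : EEp γ (fun _ => ε) U (fun W => KK (AT N) W w z) =
          ∫ c, KK (AT N) (Wc U (fun _ => γ - ε) (fun _ => ε) c) z w ∂(mu (Tor N)) := by
        unfold EEp
        refine integral_congr_ae (Filter.Eventually.of_forall fun c => ?_)
        exact KK_symm hA w z
      rw [h1]
      ring
  rw [hleft]
  refine hcore.trans ?_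
  have m1 := mul_le_mul_of_nonneg_right e1 hN2
  have m2 := mul_le_mul_of_nonneg_right e2 hN2
  have m3 := mul_le_mul_of_nonneg_right e3 hN2
  have m4 := mul_le_mul_of_nonneg_right e4 hN2
  have m5 := mul_le_mul_of_nonneg_right e5 hN2
  have m6 := mul_le_mul_of_nonneg_right e6 hN2
  have m7 := mul_le_mul_of_nonneg_right e7 hN2
  have m8 := mul_le_mul_of_nonneg_right e8 hN2
  have hθN : 0 ≤ θ * (N : ℝ) ^ 2 := mul_nonneg hθ.le hN2
  calc _ = R ^ 2 * (2 * d0) * (N : ℝ) ^ 2 +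
        R ^ 2 * (2 * (2 / (γ * (1 + X0 ^ 2)))) * (N : ℝ) ^ 2 +
        R ^ 2 * (1 / L * (2 / γ * (Stat.nb γ R + 1))) * (N : ℝ) ^ 2 +
        R ^ 2 * (1 / L' * (2 / γ * (Stat.nb γ (R + q) + 1))) * (N : ℝ) ^ 2 +
        4 / 3 * (2 / t' * (1 / γ ^ 2)) * (N : ℝ) ^ 2 +
        4 / 3 * (2 * t' * R ^ 2 * (L * (4 * π ^ 2 / γ ^ 2 * (1 / q ^ 2)))) * (N : ℝ) ^ 2 +
        4 / 3 * (t * R ^ 2 * ((L' * (2 * L + 13) + 2) * (2 / γ))) * (N : ℝ) ^ 2 +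
        4 / 3 * ((32 + 16 * CJb γ X0 d0 L' + 2 / t * CLb γ X0 d0 L') * η) * (N : ℝ) ^ 2 := by
        rw [hΛd]; ring
    _ ≤ θ * (N : ℝ) ^ 2 := by linarith

end P365L
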