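import Vale.Agent.P365.L1.Alg2

/-!
# P365, static theorem, pointwise part: one real kick at a site, sampled at five points.

`g = G_ww`, `θ(t) = t/(1+t g)`, `s(t) = t + 1/g`, window `|t + Re(1/g)| ≤ -Im (1/g)`.
-/

set_option linter.all false

namespace P365L.Stat

open Matrix Complex
open scoped ComplexConjugate

/-! ### scalar lemmas -/

/-- half width of the window -/
noncomputable def bet (g : ℂ) : ℝ := -(g⁻¹).im

theorem bet_pos {g : ℂ} (hg : 0 < g.im) : 0 < bet g := by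
  rw [bet, Complex.inv_im]
  have hne : g ≠ 0 := by rintro rfl; simp at hg
  have : 0 < Complex.normSq g := Complex.normSq_pos.2 hne
  rw [neg_div, neg_neg]
  positivity

theorem im_eq_bet {g : ℂ} (hg : 0 < g.im) : g.im = bet g * ‖g‖ ^ 2 := by
  have hne : g ≠ 0 := by rintro rfl; simp at hg
  have h : 0 < Complex.normSq g := Complex.normSq_pos.2 hne
  rw [bet, Complex.inv_im, ← Complex.normSq_eq_norm_sq]
  field_simp

/-- `s = t + 1/g` -/
noncomputable def ss (g : ℂ) (t : ℝ) : ℂ := (t : ℂ) + g⁻¹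

theorem ss_im (g : ℂ) (t : ℝ) : (ss g t).im = -bet g := by
  rw [ss, bet, Complex.add_im, Complex.ofReal_im]; ring

theorem ss_re (g : ℂ) (t : ℝ) : (ss g t).re = t + (g⁻¹).re := by
  rw [ss, Complex.add_re, Complex.ofReal_re]

theorem ss_ne {g : ℂ} (hg : 0 < g.im) (t : ℝ) : ss g t ≠ 0 := by
  intro h
  have h1 := ss_im g t
  rw [h, Complex.zero_im] at h1
  linarith [bet_pos hg]

theorem th_eq {g : ℂ} (hg : 0 < g.im) (t : ℝ) :
    th g t = g⁻¹ - g⁻¹ ^ 2 / ss g t := by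
  have hne : g ≠ 0 := by rintro rfl; simp at hg
  have h1 : (1 : ℂ) + t * g = g * ss g t := by
    rw [ss, mul_add, mul_inv_cancel₀ hne]; ring
  have h2 := ss_ne hg t
  rw [th, h1, div_eq_iff (mul_ne_zero hne h2)]
  have h3 : (t : ℂ) = ss g t - g⁻¹ := by rw [ss]; ring
  rw [h3]
  field_simp

theorem ss_normSq (g : ℂ) (t : ℝ) : ‖ss g t‖ ^ 2 = (t + (g⁻¹).re) ^ 2 + bet g ^ 2 := by
  rw [← Complex.normSq_eq_norm_sq, Complex.normSq_apply, ss_re, ss_im]; ring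

theorem ss_norm_le {g : ℂ} (hg : 0 < g.im) {t : ℝ} (ht : |t + (g⁻¹).re| ≤ bet g) :
    ‖ss g t‖ ≤ 3 / 2 * bet g := by
  have hb := bet_pos hg
  have h1 := ss_normSq g t
  have h2 : (t + (g⁻¹).re) ^ 2 ≤ bet g ^ 2 := by
    rw [← sq_abs]
    exact pow_le_pow_left₀ (abs_nonneg _) ht 2
  have h3 : ‖ss g t‖ ^ 2 ≤ (3 / 2 * bet g) ^ 2 := by nlinarith [sq_nonneg (bet g)]
  exact le_of_sq_le_sq h3 (by positivity)

theorem ss_normSq_le {g : ℂ} {t : ℝ} (ht : |t + (g⁻¹).re| ≤ bet g) :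
    ‖ss g t‖ ^ 2 ≤ 2 * bet g ^ 2 := by
  have h2 : (t + (g⁻¹).re) ^ 2 ≤ bet g ^ 2 := by
    rw [← sq_abs]
    exact pow_le_pow_left₀ (abs_nonneg _) ht 2
  rw [ss_normSq]; linarith

theorem th_norm_le {g : ℂ} (hg : 0 < g.im) (t : ℝ) : ‖th g t‖ * g.im ≤ 1 := by
  have hne : g ≠ 0 := by rintro rfl; simp at hg
  have h1 : (1 : ℂ) + t * g ≠ 0 := by
    have : (1 : ℂ) + t * g = g * ss g t := by
      rw [ss, mul_add, mul_inv_cancel₀ hne]; ring
    rw [this]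
    exact mul_ne_zero hne (ss_ne hg t)
  rw [th, norm_div, Complex.norm_real, Real.norm_eq_abs, div_mul_eq_mul_div,
    div_le_one (norm_pos_iff.2 h1)]
  have h2 : (1 + (t : ℂ) * g).im = t * g.im := by simp
  calc |t| * g.im = |(1 + (t : ℂ) * g).im| := by
        rw [h2, abs_mul t g.im, abs_of_pos hg]
    _ ≤ ‖1 + (t : ℂ) * g‖ := Complex.abs_im_le_norm _

/-- two points: an affine function of `θ` is not small at two separated points of the window -/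
theorem two_pt {g : ℂ} (hg : 0 < g.im) {X Y : ℂ} {t1 t2 : ℝ} {M : ℝ}
    (h1 : |t1 + (g⁻¹).re| ≤ bet g) (h2 : |t2 + (g⁻¹).re| ≤ bet g)
    (hsep : 3 / 8 * bet g ≤ |t1 - t2|)
    (hM1 : ‖X - th g t1 * Y‖ ≤ M) (hM2 : ‖X - th g t2 * Y‖ ≤ M) :
    ‖X‖ ≤ 22 * M ∧ ‖Y‖ / g.im ≤ 22 * M := by
  have hb := bet_pos hg
  have hM : 0 ≤ M := (norm_nonneg _).trans hM1
  set P := X - g⁻¹ * Y with hP
  set N := g⁻¹ ^ 2 * Y with hN
  have key : ∀ t : ℝ, ss g t * (X - th g t * Y) = P * ss g t + N := by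
    intro t
    rw [th_eq hg, hP, hN]
    have h0 : g⁻¹ ^ 2 / ss g t * ss g t = g⁻¹ ^ 2 := div_mul_cancel₀ _ (ss_ne hg t)
    linear_combination Y * h0
  have e1 := key t1
  have e2 := key t2
  have e3 : P * ((t1 - t2 : ℝ) : ℂ) = ss g t1 * (X - th g t1 * Y) - ss g t2 * (X - th g t2 * Y) := by
    rw [e1, e2]
    have : ((t1 - t2 : ℝ) : ℂ) = ss g t1 - ss g t2 := by
      rw [ss, ss]; push_cast; ring
    rw [this]; ring
  have n1 : ‖ss g t1 * (X - th g t1 * Y)‖ ≤ 3 / 2 * bet g * M := by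
    rw [norm_mul]
    exact mul_le_mul (ss_norm_le hg h1) hM1 (norm_nonneg _) (by positivity)
  have n2 : ‖ss g t2 * (X - th g t2 * Y)‖ ≤ 3 / 2 * bet g * M := by
    rw [norm_mul]
    exact mul_le_mul (ss_norm_le hg h2) hM2 (norm_nonneg _) (by positivity)
  have n3 : ‖P‖ ≤ 8 * M := by
    have h4 : ‖P‖ * |t1 - t2| ≤ 3 * bet g * M := by
      have h5 : ‖P * ((t1 - t2 : ℝ) : ℂ)‖ ≤ 3 * bet g * M := by
        rw [e3]
        refine (norm_sub_le _ _).trans ?_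
        linarith
      rwa [norm_mul, Complex.norm_real, Real.norm_eq_abs] at h5
    have h6 : ‖P‖ * (3 / 8 * bet g) ≤ 3 * bet g * M :=
      (mul_le_mul_of_nonneg_left hsep (norm_nonneg _)).trans h4
    have h7 : bet g * ‖P‖ ≤ bet g * (8 * M) := by nlinarith
    exact le_of_mul_le_mul_left h7 hb
  have n4 : ‖N‖ ≤ 27 / 2 * bet g * M := by
    have h8 : N = ss g t1 * (X - th g t1 * Y) - P * ss g t1 := by rw [e1]; ring
    rw [h8]
    refine (norm_sub_le _ _).trans ?_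
    have h9 : ‖P * ss g t1‖ ≤ 8 * M * (3 / 2 * bet g) := by
      rw [norm_mul]
      exact mul_le_mul n3 (ss_norm_le hg h1) (norm_nonneg _) (by positivity)
    linarith
  have hne : g ≠ 0 := by rintro rfl; simp at hg
  have hgn : 0 < ‖g‖ := norm_pos_iff.2 hne
  have n5 : ‖Y‖ / g.im ≤ 27 / 2 * M := by
    rw [im_eq_bet hg, div_le_iff₀ (by positivity)]
    have h10 : ‖N‖ * ‖g‖ ^ 2 = ‖Y‖ := by
      rw [hN, norm_mul, norm_pow, norm_inv]
      field_simp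
    rw [← h10]
    calc ‖N‖ * ‖g‖ ^ 2 ≤ (27 / 2 * bet g * M) * ‖g‖ ^ 2 :=
          mul_le_mul_of_nonneg_right n4 (by positivity)
      _ = 27 / 2 * M * (bet g * ‖g‖ ^ 2) := by ring
  refine ⟨?_, n5.trans (by linarith)⟩
  have h11 : X = P + g⁻¹ * Y := by rw [hP]; ring
  have h12 : ‖g⁻¹ * Y‖ ≤ 27 / 2 * M := by
    rw [norm_mul, norm_inv, inv_mul_eq_div]
    refine le_trans ?_ n5
    exact div_le_div_of_nonneg_left (norm_nonneg _) hg
      ((le_abs_self _).trans (Complex.abs_im_le_norm g))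
  calc ‖X‖ ≤ ‖P‖ + ‖g⁻¹ * Y‖ := by rw [h11]; simpa using norm_add_le P (g⁻¹ * Y)
    _ ≤ 22 * M := by linarith

/-- quadratic polynomials: coefficients are controlled by three separated points of `[-b,b]` -/
theorem three_pt {b : ℝ} (hb : 0 < b) {r0 r1 r2 : ℂ} {x1 x2 x3 : ℝ} {S : ℝ}
    (h1 : |x1| ≤ b) (h2 : |x2| ≤ b) (h3 : |x3| ≤ b)
    (h12 : 3 / 8 * b ≤ |x1 - x2|) (h13 : 3 / 8 * b ≤ |x1 - x3|) (h23 : 3 / 8 * b ≤ |x2 - x3|)
    (b1 : ‖r0 + r1 * x1 + r2 * (x1 : ℂ) ^ 2‖ ≤ S) (b2 : ‖r0 + r1 * x2 + r2 * (x2 : ℂ) ^ 2‖ ≤ S)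
    (b3 : ‖r0 + r1 * x3 + r2 * (x3 : ℂ) ^ 2‖ ≤ S) :
    ‖r2‖ * b ^ 2 ≤ 43 / 2 * S ∧ ‖r1‖ * b ≤ 43 * S ∧ ‖r0‖ ≤ 43 / 2 * S := by
  have hS : 0 ≤ S := (norm_nonneg _).trans b1
  set R1 := r0 + r1 * x1 + r2 * (x1 : ℂ) ^ 2 with hR1
  set R2 := r0 + r1 * x2 + r2 * (x2 : ℂ) ^ 2 with hR2
  set R3 := r0 + r1 * x3 + r2 * (x3 : ℂ) ^ 2 with hR3
  have hb8 : (0 : ℝ) < 3 / 8 * b := by positivity
  have n12 : x1 - x2 ≠ 0 := abs_pos.1 (hb8.trans_le h12)
  have n13 : x1 - x3 ≠ 0 := abs_pos.1 (hb8.trans_le h13)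
  have n23 : x2 - x3 ≠ 0 := abs_pos.1 (hb8.trans_le h23)
  have c12 : ((x1 : ℂ) - x2) ≠ 0 := by exact_mod_cast n12
  have c13 : ((x1 : ℂ) - x3) ≠ 0 := by exact_mod_cast n13
  have c23 : ((x2 : ℂ) - x3) ≠ 0 := by exact_mod_cast n23
  set D1 : ℂ := (((x1 - x2) * (x1 - x3) : ℝ) : ℂ) with hD1
  set D2 : ℂ := (((x2 - x1) * (x2 - x3) : ℝ) : ℂ) with hD2
  set D3 : ℂ := (((x3 - x1) * (x3 - x2) : ℝ) : ℂ) with hD3
  have d1 : ‖R1 / D1‖ ≤ S * (64 / 9) / b ^ 2 := by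
    rw [norm_div, hD1, Complex.norm_real, Real.norm_eq_abs, abs_mul]
    have : (3 / 8 * b) * (3 / 8 * b) ≤ |x1 - x2| * |x1 - x3| :=
      mul_le_mul h12 h13 hb8.le (abs_nonneg _)
    rw [div_le_div_iff₀ (mul_pos (hb8.trans_le h12) (hb8.trans_le h13)) (by positivity)]
    calc ‖R1‖ * b ^ 2 ≤ S * b ^ 2 := mul_le_mul_of_nonneg_right b1 (by positivity)
      _ = S * (64 / 9) * ((3 / 8 * b) * (3 / 8 * b)) := by ring
      _ ≤ S * (64 / 9) * (|x1 - x2| * |x1 - x3|) :=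
          mul_le_mul_of_nonneg_left this (by positivity)
  have d2 : ‖R2 / D2‖ ≤ S * (64 / 9) / b ^ 2 := by
    rw [norm_div, hD2, Complex.norm_real, Real.norm_eq_abs, abs_mul, abs_sub_comm x2 x1]
    have : (3 / 8 * b) * (3 / 8 * b) ≤ |x1 - x2| * |x2 - x3| :=
      mul_le_mul h12 h23 hb8.le (abs_nonneg _)
    rw [div_le_div_iff₀ (mul_pos (hb8.trans_le h12) (hb8.trans_le h23)) (by positivity)]
    calc ‖R2‖ * b ^ 2 ≤ S * b ^ 2 := mul_le_mul_of_nonneg_right b2 (by positivity)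
      _ = S * (64 / 9) * ((3 / 8 * b) * (3 / 8 * b)) := by ring
      _ ≤ S * (64 / 9) * (|x1 - x2| * |x2 - x3|) :=
          mul_le_mul_of_nonneg_left this (by positivity)
  have d3 : ‖R3 / D3‖ ≤ S * (64 / 9) / b ^ 2 := by
    rw [norm_div, hD3, Complex.norm_real, Real.norm_eq_abs, abs_mul, abs_sub_comm x3 x1,
      abs_sub_comm x3 x2]
    have : (3 / 8 * b) * (3 / 8 * b) ≤ |x1 - x3| * |x2 - x3| :=
      mul_le_mul h13 h23 hb8.le (abs_nonneg _)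
    rw [div_le_div_iff₀ (mul_pos (hb8.trans_le h13) (hb8.trans_le h23)) (by positivity)]
    calc ‖R3‖ * b ^ 2 ≤ S * b ^ 2 := mul_le_mul_of_nonneg_right b3 (by positivity)
      _ = S * (64 / 9) * ((3 / 8 * b) * (3 / 8 * b)) := by ring
      _ ≤ S * (64 / 9) * (|x1 - x3| * |x2 - x3|) :=
          mul_le_mul_of_nonneg_left this (by positivity)
  have c21 : ((x2 : ℂ) - x1) ≠ 0 := by
    intro h; exact c12 (by linear_combination -h)
  have c31 : ((x3 : ℂ) - x1) ≠ 0 := by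
    intro h; exact c13 (by linear_combination -h)
  have c32 : ((x3 : ℂ) - x2) ≠ 0 := by
    intro h; exact c23 (by linear_combination -h)
  have e2 : r2 = R1 / D1 + R2 / D2 + R3 / D3 := by
    rw [hR1, hR2, hR3, hD1, hD2, hD3]
    push_cast
    field_simp
    ring
  have e1 : r1 = -(R1 / D1 * ((x2 + x3 : ℝ) : ℂ) + R2 / D2 * ((x1 + x3 : ℝ) : ℂ) +
      R3 / D3 * ((x1 + x2 : ℝ) : ℂ)) := by
    rw [hR1, hR2, hR3, hD1, hD2, hD3]
    push_cast
    field_simp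
    ring
  have e0 : r0 = R1 / D1 * ((x2 * x3 : ℝ) : ℂ) + R2 / D2 * ((x1 * x3 : ℝ) : ℂ) +
      R3 / D3 * ((x1 * x2 : ℝ) : ℂ) := by
    rw [hR1, hR2, hR3, hD1, hD2, hD3]
    push_cast
    field_simp
    ring
  set K := S * (64 / 9) / b ^ 2 with hK
  have hK0 : 0 ≤ K := by positivity
  have hKb : K * b ^ 2 = 64 / 9 * S := by rw [hK]; field_simp
  have term : ∀ (z : ℂ) (r c : ℝ), ‖z‖ ≤ K → |r| ≤ c → ‖z * (r : ℂ)‖ ≤ K * c := by
    intro z r c hz hr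
    rw [norm_mul, Complex.norm_real, Real.norm_eq_abs]
    exact mul_le_mul hz hr (abs_nonneg _) hK0
  have a23 : |x2 + x3| ≤ 2 * b := (abs_add_le _ _).trans (by linarith)
  have a13 : |x1 + x3| ≤ 2 * b := (abs_add_le _ _).trans (by linarith)
  have a12 : |x1 + x2| ≤ 2 * b := (abs_add_le _ _).trans (by linarith)
  have m23 : |x2 * x3| ≤ b ^ 2 := by
    rw [abs_mul, sq]; exact mul_le_mul h2 h3 (abs_nonneg _) hb.le
  have m13 : |x1 * x3| ≤ b ^ 2 := by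
    rw [abs_mul, sq]; exact mul_le_mul h1 h3 (abs_nonneg _) hb.le
  have m12 : |x1 * x2| ≤ b ^ 2 := by
    rw [abs_mul, sq]; exact mul_le_mul h1 h2 (abs_nonneg _) hb.le
  refine ⟨?_, ?_, ?_⟩
  · have : ‖r2‖ ≤ 3 * K := by
      rw [e2]
      refine (norm_add₃_le).trans ?_
      linarith
    calc ‖r2‖ * b ^ 2 ≤ 3 * K * b ^ 2 := mul_le_mul_of_nonneg_right this (by positivity)
      _ = 64 / 3 * S := by linear_combination 3 * hKb
      _ ≤ 43 / 2 * S := by nlinarith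
  · have : ‖r1‖ ≤ 3 * (K * (2 * b)) := by
      rw [e1, norm_neg]
      refine (norm_add₃_le).trans ?_
      linarith [term _ _ _ d1 a23, term _ _ _ d2 a13, term _ _ _ d3 a12]
    calc ‖r1‖ * b ≤ 3 * (K * (2 * b)) * b := mul_le_mul_of_nonneg_right this hb.le
      _ = 128 / 3 * S := by linear_combination 6 * hKb
      _ ≤ 43 * S := by nlinarith
  · have : ‖r0‖ ≤ 3 * (K * b ^ 2) := by
      rw [e0]
      refine (norm_add₃_le).trans ?_
      linarith [term _ _ _ d1 m23, term _ _ _ d2 m13, term _ _ _ d3 m12]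
    rw [hKb] at this
    nlinarith

/-- value at `t = 0` of `T - θ X - conj θ Y` from three separated points -/
theorem three_pt_val {g : ℂ} (hg : 0 < g.im) {T X Y : ℂ} {t1 t2 t3 : ℝ} {M : ℝ}
    (h1 : |t1 + (g⁻¹).re| ≤ bet g) (h2 : |t2 + (g⁻¹).re| ≤ bet g) (h3 : |t3 + (g⁻¹).re| ≤ bet g)
    (h12 : 3 / 8 * bet g ≤ |t1 - t2|) (h13 : 3 / 8 * bet g ≤ |t1 - t3|)
    (h23 : 3 / 8 * bet g ≤ |t2 - t3|)
    (b1 : ‖T - th g t1 * X - conj (th g t1) * Y‖ ≤ M)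
    (b2 : ‖T - th g t2 * X - conj (th g t2) * Y‖ ≤ M)
    (b3 : ‖T - th g t3 * X - conj (th g t3) * Y‖ ≤ M) :
    ‖T‖ ≤ 86 * M := by
  have hb := bet_pos hg
  have hM : 0 ≤ M := (norm_nonneg _).trans b1
  set al : ℝ := (g⁻¹).re with hal
  set β : ℝ := bet g with hβ
  set c : ℂ := T - g⁻¹ * X - conj g⁻¹ * Y with hc
  set N : ℂ := g⁻¹ ^ 2 * X with hN
  set N' : ℂ := conj g⁻¹ ^ 2 * Y with hN'
  set r0 : ℂ := c * β ^ 2 + I * β * (N - N') with hr0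
  set r1 : ℂ := N + N' with hr1
  have hs : ∀ t : ℝ, ss g t = ((t + al : ℝ) : ℂ) - I * β := by
    intro t
    apply Complex.ext
    · rw [ss_re]; simp [hal]
    · rw [ss_im]; simp [hβ]
  have hsc : ∀ t : ℝ, conj (ss g t) = ((t + al : ℝ) : ℂ) + I * β := by
    intro t
    rw [hs t]
    simp only [map_sub, map_mul, Complex.conj_ofReal, Complex.conj_I]
    ring
  have key : ∀ t : ℝ, ss g t * conj (ss g t) * (T - th g t * X - conj (th g t) * Y) =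
      r0 + r1 * ((t + al : ℝ) : ℂ) + c * ((t + al : ℝ) : ℂ) ^ 2 := by
    intro t
    have k0 : g⁻¹ ^ 2 / ss g t * ss g t = g⁻¹ ^ 2 := div_mul_cancel₀ _ (ss_ne hg t)
    have k1 : conj g⁻¹ ^ 2 / conj (ss g t) * conj (ss g t) = conj g⁻¹ ^ 2 := by
      refine div_mul_cancel₀ _ ?_
      intro h
      exact ss_ne hg t ((map_eq_zero _).1 h)
    rw [th_eq hg, map_sub, map_div₀, map_pow]
    have e1 : ss g t * conj (ss g t) * (T - (g⁻¹ - g⁻¹ ^ 2 / ss g t) * X -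
        (conj g⁻¹ - conj g⁻¹ ^ 2 / conj (ss g t)) * Y) =
        ss g t * conj (ss g t) * c + N * conj (ss g t) + N' * ss g t := by
      rw [hc, hN, hN']
      linear_combination (conj (ss g t) * X) * k0 + (ss g t * Y) * k1
    rw [e1, hsc t, hs t, hr0, hr1]
    linear_combination (-(c * (β : ℂ) ^ 2)) * Complex.I_mul_I
  have nrm : ∀ t : ℝ, ‖ss g t * conj (ss g t)‖ = ‖ss g t‖ ^ 2 := by
    intro t
    rw [norm_mul, RCLike.norm_conj, sq]
  have bd : ∀ t : ℝ, |t + al| ≤ β → ‖T - th g t * X - conj (th g t) * Y‖ ≤ M →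
      ‖r0 + r1 * ((t + al : ℝ) : ℂ) + c * ((t + al : ℝ) : ℂ) ^ 2‖ ≤ 2 * β ^ 2 * M := by
    intro t ht hM1
    rw [← key t, norm_mul, nrm t]
    exact mul_le_mul (ss_normSq_le ht) hM1 (norm_nonneg _) (by positivity)
  obtain ⟨q2, q1, q0⟩ := three_pt hb (x1 := t1 + al) (x2 := t2 + al) (x3 := t3 + al) h1 h2 h3
    (by rwa [add_sub_add_right_eq_sub]) (by rwa [add_sub_add_right_eq_sub])
    (by rwa [add_sub_add_right_eq_sub]) (bd t1 h1 b1) (bd t2 h2 b2) (bd t3 h3 b3)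
  have h0 := key 0
  have t0 : th g ((0 : ℝ) : ℂ) = 0 := by rw [th]; simp
  rw [t0] at h0
  simp only [zero_mul, map_zero, sub_zero, zero_add] at h0
  have h5 : ‖ss g 0‖ ^ 2 * ‖T‖ ≤ 86 * M * (al ^ 2 + β ^ 2) := by
    rw [← nrm 0, ← norm_mul, h0]
    refine (norm_add₃_le).trans ?_
    rw [norm_mul, norm_mul, norm_pow, Complex.norm_real, Real.norm_eq_abs, sq_abs]
    have p2 : ‖c‖ ≤ 43 * M := by
      have : β ^ 2 * ‖c‖ ≤ β ^ 2 * (43 * M) := by nlinarith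
      exact le_of_mul_le_mul_left this (by positivity)
    have p1 : ‖r1‖ ≤ 86 * β * M := by
      have : β * ‖r1‖ ≤ β * (86 * β * M) := by nlinarith
      exact le_of_mul_le_mul_left this hb
    have p0 : ‖r0‖ ≤ 43 * β ^ 2 * M := by nlinarith
    have hx : 2 * (β * |al|) ≤ al ^ 2 + β ^ 2 := by
      have h1 := sq_abs al
      nlinarith [sq_nonneg (|al| - β)]
    calc ‖r0‖ + ‖r1‖ * |al| + ‖c‖ * al ^ 2
        ≤ 43 * β ^ 2 * M + 86 * β * M * |al| + 43 * M * al ^ 2 := by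
          have := mul_le_mul_of_nonneg_right p1 (abs_nonneg al)
          have := mul_le_mul_of_nonneg_right p2 (sq_nonneg al)
          linarith
      _ = 43 * M * (al ^ 2 + β ^ 2) + 43 * M * (2 * (β * |al|)) := by ring
      _ ≤ 43 * M * (al ^ 2 + β ^ 2) + 43 * M * (al ^ 2 + β ^ 2) := by
          have := mul_le_mul_of_nonneg_left hx (show (0 : ℝ) ≤ 43 * M by positivity)
          linarith
      _ = 86 * M * (al ^ 2 + β ^ 2) := by ring
  have h6 : ‖ss g 0‖ ^ 2 = al ^ 2 + β ^ 2 := by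
    rw [ss_normSq, zero_add]
  rw [h6] at h5
  have h7 : 0 < al ^ 2 + β ^ 2 := by positivity
  have h8 : (al ^ 2 + β ^ 2) * ‖T‖ ≤ (al ^ 2 + β ^ 2) * (86 * M) := by linarith
  exact le_of_mul_le_mul_left h8 h7

/-- amplitude of `c - 2 Re (θ q)` from three separated points -/
theorem three_pt_amp {g : ℂ} (hg : 0 < g.im) {c0 : ℝ} {q : ℂ} {t1 t2 t3 : ℝ} {M : ℝ}
    (h1 : |t1 + (g⁻¹).re| ≤ bet g) (h2 : |t2 + (g⁻¹).re| ≤ bet g) (h3 : |t3 + (g⁻¹).re| ≤ bet g)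
    (h12 : 3 / 8 * bet g ≤ |t1 - t2|) (h13 : 3 / 8 * bet g ≤ |t1 - t3|)
    (h23 : 3 / 8 * bet g ≤ |t2 - t3|)
    (b1 : |c0 - 2 * (th g t1 * q).re| ≤ M)
    (b2 : |c0 - 2 * (th g t2 * q).re| ≤ M)
    (b3 : |c0 - 2 * (th g t3 * q).re| ≤ M) :
    ‖q‖ / g.im ≤ 86 * M := by
  have hb := bet_pos hg
  have hM : 0 ≤ M := (abs_nonneg _).trans b1
  set al : ℝ := (g⁻¹).re with hal
  set β : ℝ := bet g with hβ
  set N : ℂ := g⁻¹ ^ 2 * q with hN
  set c : ℝ := c0 - 2 * (g⁻¹ * q).re with hc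
  have key : ∀ t : ℝ, ((t + al) ^ 2 + β ^ 2) * (c0 - 2 * (th g t * q).re) =
      (c * β ^ 2 - 2 * N.im * β) + (2 * N.re) * (t + al) + c * (t + al) ^ 2 := by
    intro t
    have k0 : ‖ss g t‖ ^ 2 = (t + al) ^ 2 + β ^ 2 := ss_normSq g t
    have hne := ss_ne hg t
    have e1 : (th g t * q).re = (g⁻¹ * q).re - (N / ss g t).re := by
      rw [th_eq hg, sub_mul, Complex.sub_re, hN, div_mul_eq_mul_div]
    have e2 : (N / ss g t).re * ((t + al) ^ 2 + β ^ 2) = N.re * (t + al) - N.im * β := by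
      have hre : (ss g t).re = t + al := ss_re g t
      have him : (ss g t).im = -β := ss_im g t
      have hns : Complex.normSq (ss g t) = (t + al) ^ 2 + β ^ 2 := by
        rw [← k0, Complex.normSq_eq_norm_sq]
      have hpos : 0 < (t + al) ^ 2 + β ^ 2 := by positivity
      rw [Complex.div_re, hns, hre, him]
      field_simp
      ring
    rw [e1, hc]
    linear_combination (2 : ℝ) * e2
  have bd : ∀ t : ℝ, |t + al| ≤ β → |c0 - 2 * (th g t * q).re| ≤ M →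
      ‖(((c * β ^ 2 - 2 * N.im * β : ℝ)) : ℂ) + ((2 * N.re : ℝ) : ℂ) * ((t + al : ℝ) : ℂ) +
        (c : ℂ) * ((t + al : ℝ) : ℂ) ^ 2‖ ≤ 2 * β ^ 2 * M := by
    intro t ht hM1
    have e3 : (((c * β ^ 2 - 2 * N.im * β : ℝ)) : ℂ) + ((2 * N.re : ℝ) : ℂ) * ((t + al : ℝ) : ℂ) +
        (c : ℂ) * ((t + al : ℝ) : ℂ) ^ 2 =
        ((((t + al) ^ 2 + β ^ 2) * (c0 - 2 * (th g t * q).re) : ℝ) : ℂ) := by
      rw [key t]; push_cast; ring
    rw [e3, Complex.norm_real, Real.norm_eq_abs, abs_mul,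
      abs_of_nonneg (by positivity : 0 ≤ (t + al) ^ 2 + β ^ 2)]
    have h4 : (t + al) ^ 2 + β ^ 2 ≤ 2 * β ^ 2 := by
      have : (t + al) ^ 2 ≤ β ^ 2 := by
        rw [← sq_abs]
        exact pow_le_pow_left₀ (abs_nonneg _) ht 2
      linarith
    exact mul_le_mul h4 hM1 (abs_nonneg _) (by positivity)
  obtain ⟨q2, q1, q0⟩ := three_pt hb (x1 := t1 + al) (x2 := t2 + al) (x3 := t3 + al) h1 h2 h3
    (by rwa [add_sub_add_right_eq_sub]) (by rwa [add_sub_add_right_eq_sub])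
    (by rwa [add_sub_add_right_eq_sub]) (bd t1 h1 b1) (bd t2 h2 b2) (bd t3 h3 b3)
  rw [Complex.norm_real, Real.norm_eq_abs] at q2 q1 q0
  have p2 : |c| ≤ 43 * M := by
    have : β ^ 2 * |c| ≤ β ^ 2 * (43 * M) := by nlinarith
    exact le_of_mul_le_mul_left this (by positivity)
  have p1 : |N.re| ≤ 43 * β * M := by
    have : β * |2 * N.re| ≤ β * (86 * β * M) := by nlinarith
    have h5 := le_of_mul_le_mul_left this hb
    rw [abs_mul, abs_two] at h5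
    linarith
  have p0 : |N.im| ≤ 43 * β * M := by
    have h5 : |2 * N.im * β| ≤ 86 * β ^ 2 * M := by
      have e : 2 * N.im * β = c * β ^ 2 - (c * β ^ 2 - 2 * N.im * β) := by ring
      rw [e]
      refine (abs_sub _ _).trans ?_
      rw [abs_mul, abs_of_pos (by positivity : 0 < β ^ 2)]
      have := mul_le_mul_of_nonneg_right p2 (by positivity : 0 ≤ β ^ 2)
      nlinarith
    rw [abs_mul, abs_mul, abs_two, abs_of_pos hb] at h5
    have : β * |N.im| ≤ β * (43 * β * M) := by nlinarith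
    exact le_of_mul_le_mul_left this hb
  have hNn : ‖N‖ ≤ 86 * β * M := by
    refine (Complex.norm_le_abs_re_add_abs_im N).trans ?_
    linarith
  have hne : g ≠ 0 := by rintro rfl; simp at hg
  have hgn : 0 < ‖g‖ := norm_pos_iff.2 hne
  rw [im_eq_bet hg, div_le_iff₀ (by positivity)]
  have h10 : ‖N‖ * ‖g‖ ^ 2 = ‖q‖ := by
    rw [hN, norm_mul, norm_pow, norm_inv]
    field_simp
  rw [← h10]
  calc ‖N‖ * ‖g‖ ^ 2 ≤ (86 * β * M) * ‖g‖ ^ 2 :=
        mul_le_mul_of_nonneg_right hNn (by positivity)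
    _ = 86 * M * (β * ‖g‖ ^ 2) := by ring

end P365L.Stat
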