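import Vale.Agent.P365.Stat.T0

/-!
# P365, static step: resampling of one site.

Potential `Wc U g e c`, Green matrix `Gc A U g e c` (`Minami/Poisson`).
* `Good X0 d0 c w`: `|c w| ≤ X0` and `d0 ≤ |G_ww|`.
* `Iop y Ψ c = E_t [m_y Ψ](update c y t)`.
* `resample`: `E[m_y Iop y Ψ] ≤ g_y⁻¹ E[m_y Ψ]`.
* `tx c y x`, `x ∈ [-1,1]`: parametrisation of half of the resampling circle;
  `Gc_tx`, `Tm_tx`, `mm_tx_le`, `Iop_ge`.
-/

set_option linter.all false

namespace P365L.Stat

open MeasureTheory ProbabilityTheory Complex Set P365L P365L.Poi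
open scoped ComplexConjugate Real

variable {ι : Type*} [Fintype ι] [DecidableEq ι]

/-- good site -/
def Good (A : Matrix ι ι ℝ) (U g e : ι → ℝ) (X0 d0 : ℝ) (c : ι → ℝ) (w : ι) : Prop :=
  |c w| ≤ X0 ∧ d0 ≤ ‖Gc A U g e c w w‖

/-- resampling of the site `y` with the weight `m_y` -/
noncomputable def Iop (A : Matrix ι ι ℝ) (U g e : ι → ℝ) (y : ι) (Ψ : (ι → ℝ) → ℝ)
    (c : ι → ℝ) : ℝ :=
  ∫ t, (Gc A U g e (Function.update c y t) y y).im * Ψ (Function.update c y t) ∂nu

variable {A : Matrix ι ι ℝ} {U g e : ι → ℝ}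

theorem Wc_neg (he : ∀ x, 0 < e x) (c : ι → ℝ) (x : ι) : (Wc U g e c x).im < 0 := by
  rw [Wc_im]; linarith [he x]

theorem Iop_update (y : ι) (Ψ : (ι → ℝ) → ℝ) (c : ι → ℝ) (t : ℝ) :
    Iop A U g e y Ψ (Function.update c y t) = Iop A U g e y Ψ c := by
  unfold Iop
  simp only [Function.update_idem]

theorem measurable_upd (y : ι) : Measurable fun p : (ι → ℝ) × ℝ => Function.update p.1 y p.2 :=
  measurable_update'

theorem measurable_im_Gc (y : ι) : Measurable fun c => (Gc A U g e c y y).im :=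
  Complex.measurable_im.comp (measurable_Gc y y)

theorem measurable_Iop (y : ι) {Ψ : (ι → ℝ) → ℝ} (hm : Measurable Ψ) :
    Measurable fun c => Iop A U g e y Ψ c := by
  have h1 : Measurable fun p : (ι → ℝ) × ℝ =>
      (Gc A U g e (Function.update p.1 y p.2) y y).im * Ψ (Function.update p.1 y p.2) :=
    ((measurable_im_Gc y).comp (measurable_upd y)).mul (hm.comp (measurable_upd y))
  exact (h1.stronglyMeasurable.integral_prod_right').measurable

theorem Iop_nonneg (hA : A.IsSymm) (he : ∀ x, 0 < e x) (y : ι) {Ψ : (ι → ℝ) → ℝ}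
    (h0 : ∀ c, 0 ≤ Ψ c) (c : ι → ℝ) : 0 ≤ Iop A U g e y Ψ c :=
  integral_nonneg fun t => mul_nonneg (im_pos hA he _ y).le (h0 _)

theorem measurable_upd_line (c : ι → ℝ) (y : ι) : Measurable fun t : ℝ => Function.update c y t :=
  (measurable_upd y).comp (measurable_const.prodMk measurable_id)

theorem integrable_line (hA : A.IsSymm) (he : ∀ x, 0 < e x) (y : ι) {Ψ : (ι → ℝ) → ℝ}
    (hm : Measurable Ψ) (h0 : ∀ c, 0 ≤ Ψ c) {M : ℝ} (hM : ∀ c, Ψ c ≤ M) (c : ι → ℝ) :
    Integrable (fun t => (Gc A U g e (Function.update c y t) y y).im *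
      Ψ (Function.update c y t)) nu := by
  obtain ⟨C, hC0, hC⟩ := bounded_im (U := U) (g := g) hA he
  refine Integrable.of_bound (((measurable_im_Gc y).comp (measurable_upd_line c y)).mul
    (hm.comp (measurable_upd_line c y))).aestronglyMeasurable (C * M)
    (Filter.Eventually.of_forall fun t => ?_)
  rw [Real.norm_eq_abs, abs_of_nonneg (mul_nonneg (im_pos hA he _ y).le (h0 _))]
  exact mul_le_mul (hC _ _) (hM _) (h0 _) hC0.le

theorem integrable_im_mul (hA : A.IsSymm) (he : ∀ x, 0 < e x) (y : ι) {Ψ : (ι → ℝ) → ℝ}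
    (hm : Measurable Ψ) (h0 : ∀ c, 0 ≤ Ψ c) {M : ℝ} (hM : ∀ c, Ψ c ≤ M) :
    Integrable (fun c => (Gc A U g e c y y).im * Ψ c) (mu ι) := by
  obtain ⟨C, hC0, hC⟩ := bounded_im (U := U) (g := g) hA he
  refine Integrable.of_bound ((measurable_im_Gc y).mul hm).aestronglyMeasurable (C * M)
    (Filter.Eventually.of_forall fun t => ?_)
  rw [Real.norm_eq_abs, abs_of_nonneg (mul_nonneg (im_pos hA he _ y).le (h0 _))]
  exact mul_le_mul (hC _ _) (hM _) (h0 _) hC0.le

theorem Iop_le (hA : A.IsSymm) (he : ∀ x, 0 < e x) {y : ι} (hg : 0 < g y) {Ψ : (ι → ℝ) → ℝ}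
    (hm : Measurable Ψ) (h0 : ∀ c, 0 ≤ Ψ c) {M : ℝ} (hM : ∀ c, Ψ c ≤ M) (c : ι → ℝ) :
    Iop A U g e y Ψ c ≤ 1 / g y * M := by
  obtain ⟨C, hC0, hC⟩ := bounded_im (U := U) (g := g) hA he
  have hi : Integrable (fun t => (Gc A U g e (Function.update c y t) y y).im) nu := by
    refine Integrable.of_bound ((measurable_im_Gc y).comp
      (measurable_upd_line c y)).aestronglyMeasurable C (Filter.Eventually.of_forall fun t => ?_)
    rw [Real.norm_eq_abs, abs_of_nonneg (im_pos hA he _ y).le]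
    exact hC _ _
  have hM0 : 0 ≤ M := (h0 c).trans (hM c)
  calc Iop A U g e y Ψ c
      ≤ ∫ t, (Gc A U g e (Function.update c y t) y y).im * M ∂nu := by
        refine integral_mono (integrable_line hA he y hm h0 hM c) (hi.mul_const _) fun t => ?_
        exact mul_le_mul_of_nonneg_left (hM _) (im_pos hA he _ y).le
    _ = (∫ t, (Gc A U g e (Function.update c y t) y y).im ∂nu) * M := integral_mul_const _ _
    _ ≤ 1 / g y * M := mul_le_mul_of_nonneg_right (one_site hA he c hg) hM0

/-- (R): `E[m_y I_y Ψ] ≤ g_y⁻¹ E[m_y Ψ]` -/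
theorem resample (hA : A.IsSymm) (he : ∀ x, 0 < e x) {y : ι} (hg : 0 < g y) {Ψ : (ι → ℝ) → ℝ}
    (hm : Measurable Ψ) (h0 : ∀ c, 0 ≤ Ψ c) {M : ℝ} (hM : ∀ c, Ψ c ≤ M) :
    ∫ c, (Gc A U g e c y y).im * Iop A U g e y Ψ c ∂(mu ι) ≤
      1 / g y * ∫ c, (Gc A U g e c y y).im * Ψ c ∂(mu ι) := by
  have hIm := measurable_Iop (A := A) (U := U) (g := g) (e := e) y hm
  have hI0 : ∀ c, 0 ≤ Iop A U g e y Ψ c := Iop_nonneg hA he y h0
  have hIM : ∀ c, Iop A U g e y Ψ c ≤ 1 / g y * M := Iop_le hA he hg hm h0 hM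
  have hIi : Integrable (fun c => Iop A U g e y Ψ c) (mu ι) := by
    refine Integrable.of_bound hIm.aestronglyMeasurable (1 / g y * M)
      (Filter.Eventually.of_forall fun c => ?_)
    rw [Real.norm_eq_abs, abs_of_nonneg (hI0 c)]
    exact hIM c
  have h1 := site_le (U := U) hA he hg (Ψ := fun c => Iop A U g e y Ψ c)
    (Ψ' := fun c => Iop A U g e y Ψ c) hIm hI0 hIM hIi (fun c t => by rw [Iop_update])
  refine h1.trans (le_of_eq ?_)
  congr 1
  rw [integral_resample y _ (integrable_im_mul hA he y hm h0 hM)]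
  rfl

/-! ### parametrisation of half of the circle -/

/-- the pole: the shifted diagonal entry is `1 / (s - p)` up to the constant -/
noncomputable def pc (A : Matrix ι ι ℝ) (U g e : ι → ℝ) (c : ι → ℝ) (y : ι) : ℂ :=
  -1 / Gc A U g e c y y

/-- the new value of `c y` -/
noncomputable def tx (A : Matrix ι ι ℝ) (U g e : ι → ℝ) (c : ι → ℝ) (y : ι) (x : ℝ) : ℝ :=
  c y + ((pc A U g e c y).re + x * (pc A U g e c y).im) / g y

/-- the coefficient of `eta` -/
noncomputable def kq (A : Matrix ι ι ℝ) (U g e : ι → ℝ) (c : ι → ℝ) (y : ι) : ℂ :=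
  ((‖Gc A U g e c y y‖ ^ 2 : ℝ) : ℂ) / (Gc A U g e c y y ^ 2 * ((Gc A U g e c y y).im : ℂ))

theorem pc_im (c : ι → ℝ) (y : ι) :
    (pc A U g e c y).im = (Gc A U g e c y y).im / ‖Gc A U g e c y y‖ ^ 2 := by
  rw [pc, neg_div, one_div, Complex.neg_im, Complex.inv_im, Complex.normSq_eq_norm_sq]
  ring

theorem pc_im_pos (hA : A.IsSymm) (he : ∀ x, 0 < e x) (c : ι → ℝ) (y : ι) :
    0 < (pc A U g e c y).im := by
  rw [pc_im]
  exact div_pos (im_pos hA he c y) (pow_pos (norm_pos_iff.2 (diag_ne_zero hA he c y)) 2)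

theorem norm_pc (c : ι → ℝ) (y : ι) : ‖pc A U g e c y‖ = 1 / ‖Gc A U g e c y y‖ := by
  rw [pc, norm_div, norm_neg, norm_one]

theorem norm_kq (hA : A.IsSymm) (he : ∀ x, 0 < e x) (c : ι → ℝ) (y : ι) :
    ‖kq A U g e c y‖ = 1 / (Gc A U g e c y y).im := by
  have h1 : 0 < ‖Gc A U g e c y y‖ := norm_pos_iff.2 (diag_ne_zero hA he c y)
  have h2 := im_pos (U := U) (g := g) hA he c y
  rw [kq, norm_div, norm_mul, Complex.norm_real, Complex.norm_real, norm_pow, norm_pow, norm_norm,
    Real.norm_eq_abs, abs_of_pos h2]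
  field_simp

theorem kq_ne_zero (hA : A.IsSymm) (he : ∀ x, 0 < e x) (c : ι → ℝ) (y : ι) :
    kq A U g e c y ≠ 0 := by
  rw [← norm_pos_iff, norm_kq hA he]
  exact div_pos one_pos (im_pos hA he c y)

theorem tx_zero (hA : A.IsSymm) (he : ∀ x, 0 < e x) (c : ι → ℝ) (y : ι) :
    tx A U g e c y (-(pc A U g e c y).re / (pc A U g e c y).im) = c y := by
  have h := (pc_im_pos (U := U) (g := g) hA he c y).ne'
  rw [tx, div_mul_cancel₀ _ h, add_neg_cancel, zero_div, add_zero]

/-- the shift -/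
theorem g_mul_tx {y : ι} (hg : g y ≠ 0) (c : ι → ℝ) (x : ℝ) :
    g y * (tx A U g e c y x - c y) = (pc A U g e c y).re + x * (pc A U g e c y).im := by
  rw [tx]
  field_simp
  ring

theorem theta_tx (hA : A.IsSymm) (he : ∀ x, 0 < e x) {y : ι} (hg : g y ≠ 0) (c : ι → ℝ)
    (x : ℝ) :
    ((g y * (tx A U g e c y x - c y) : ℝ) : ℂ) /
        (1 + ((g y * (tx A U g e c y x - c y) : ℝ) : ℂ) * Gc A U g e c y y) =
      1 / Gc A U g e c y y - kq A U g e c y * eta x := by
  have hG := diag_ne_zero (U := U) (g := g) hA he c y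
  have hne := (Poi.update (U := U) (g := g) hA he c y (tx A U g e c y x)).1
  rw [g_mul_tx hg] at *
  set G := Gc A U g e c y y with hGdef
  set p := pc A U g e c y with hp
  have hpG : p * G = -1 := by
    rw [hp, pc, ← hGdef]
    field_simp
  have hpim : p.im ≠ 0 := (pc_im_pos hA he c y).ne'
  have hmG : G.im ≠ 0 := (im_pos hA he c y).ne'
  have hs : ((p.re + x * p.im : ℝ) : ℂ) = p + (p.im : ℂ) * ((x : ℂ) - I) := by
    apply Complex.ext
    · simp; ring
    · simp
  have hxI := sub_I_ne x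
  have hpimC : (p.im : ℂ) ≠ 0 := Complex.ofReal_ne_zero.2 hpim
  have hmC : (G.im : ℂ) ≠ 0 := Complex.ofReal_ne_zero.2 hmG
  have h1 : 1 + ((p.re + x * p.im : ℝ) : ℂ) * G = (p.im : ℂ) * ((x : ℂ) - I) * G := by
    rw [hs]
    linear_combination hpG
  have hn : ((‖G‖ ^ 2 : ℝ) : ℂ) * (p.im : ℂ) = (G.im : ℂ) := by
    rw [← Complex.ofReal_mul, hp, pc_im, ← hGdef]
    congr 1
    have : ‖G‖ ^ 2 ≠ 0 := pow_ne_zero 2 (norm_ne_zero_iff.2 hG)
    field_simp
  have hk : kq A U g e c y * (p.im : ℂ) * G ^ 2 = 1 := by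
    rw [kq, ← hGdef]
    field_simp
    linear_combination hn
  rw [h1, eta, hs]
  have hgoal : (p + (p.im : ℂ) * ((x : ℂ) - I)) / ((p.im : ℂ) * ((x : ℂ) - I) * G) =
      1 / G - kq A U g e c y * (1 / ((x : ℂ) - I)) := by
    rw [div_eq_iff (mul_ne_zero (mul_ne_zero hpimC hxI) hG), sub_mul]
    have e1 : 1 / G * ((p.im : ℂ) * ((x : ℂ) - I) * G) = (p.im : ℂ) * ((x : ℂ) - I) := by
      field_simp
    have e2 : kq A U g e c y * (1 / ((x : ℂ) - I)) * ((p.im : ℂ) * ((x : ℂ) - I) * G) =
        kq A U g e c y * (p.im : ℂ) * G := by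
      field_simp
    rw [e1, e2]
    have e3 : kq A U g e c y * (p.im : ℂ) * G = -p := by
      have : (kq A U g e c y * (p.im : ℂ) * G) * G = -p * G := by
        rw [neg_mul, hpG, neg_neg, ← hk]
        ring
      exact mul_right_cancel₀ hG this
    rw [e3]
    ring
  exact hgoal

/-- the Green matrix on the half circle -/
theorem Gc_tx (hA : A.IsSymm) (he : ∀ x, 0 < e x) {y : ι} (hg : g y ≠ 0) (c : ι → ℝ) (x : ℝ)
    (z w : ι) :
    Gc A U g e (Function.update c y (tx A U g e c y x)) z w =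
      (Gc A U g e c z w - Gc A U g e c z y * Gc A U g e c y w / Gc A U g e c y y) +
        kq A U g e c y * Gc A U g e c z y * Gc A U g e c y w * eta x := by
  rw [(Poi.update (U := U) (g := g) hA he c y (tx A U g e c y x)).2 z w, theta_tx hA he hg]
  ring

theorem Wc_tx (c : ι → ℝ) (y : ι) (x : ℝ) :
    Wc U g e (Function.update c y (tx A U g e c y x)) =
      Function.update (Wc U g e c) y (Wc U g e c y +
        ((g y * (tx A U g e c y x - c y) : ℝ) : ℂ)) :=
  Wc_update U g e c y _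

/-- `T` on the half circle -/
theorem Tm_tx (hA : A.IsSymm) (he : ∀ x, 0 < e x) {y : ι} (hg : g y ≠ 0) (c : ι → ℝ) (x : ℝ)
    (a : ι → ℝ) (z w : ι) :
    Tm A (Wc U g e (Function.update c y (tx A U g e c y x))) a z w =
      (Tm A (Wc U g e c) a z w
        - 1 / Gc A U g e c y y * Qm A (Wc U g e c) a z y * Gc A U g e c y w
        - conj (1 / Gc A U g e c y y) * conj (Gc A U g e c z y) *
            conj (Qm A (Wc U g e c) a w y)) +
        kq A U g e c y * Qm A (Wc U g e c) a z y * Gc A U g e c y w * eta x +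
        conj (kq A U g e c y) * conj (Gc A U g e c z y) * conj (Qm A (Wc U g e c) a w y) *
          conj (eta x) := by
  rw [Wc_tx, Tm_upd_real hA (Wc_neg he c) y]
  have h := theta_tx (U := U) (g := g) hA he hg c x
  rw [th, show Gr A (Wc U g e c) y y = Gc A U g e c y y from rfl, h, map_sub, map_mul]
  rw [show Gr A (Wc U g e c) y w = Gc A U g e c y w from rfl,
    show Gr A (Wc U g e c) z y = Gc A U g e c z y from rfl]
  ring

/-- `|θ| m ≤ 1` for a real shift -/
theorem norm_theta_le (hA : A.IsSymm) (he : ∀ x, 0 < e x) (c : ι → ℝ) (y : ι) (t : ℝ) :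
    ‖((g y * (t - c y) : ℝ) : ℂ) / (1 + ((g y * (t - c y) : ℝ) : ℂ) * Gc A U g e c y y)‖ ≤
      1 / (Gc A U g e c y y).im := by
  have hne := (Poi.update (U := U) (g := g) hA he c y t).1
  have hm := im_pos (U := U) (g := g) hA he c y
  set s : ℝ := g y * (t - c y)
  set G := Gc A U g e c y y
  rw [norm_div, Complex.norm_real, Real.norm_eq_abs, div_le_div_iff₀ (norm_pos_iff.2 hne) hm,
    one_mul]
  have h1 : (1 + (s : ℂ) * G).im = s * G.im := by simp
  calc |s| * G.im = |(1 + (s : ℂ) * G).im| := by rw [h1, abs_mul s G.im, abs_of_pos hm]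
    _ ≤ ‖1 + (s : ℂ) * G‖ := Complex.abs_im_le_norm _

/-- `m'_z ≤ m_z + K_zy / m_y` under a real shift at `y` -/
theorem im_update_le (hA : A.IsSymm) (he : ∀ x, 0 < e x) (c : ι → ℝ) (y z : ι) (t : ℝ) :
    (Gc A U g e (Function.update c y t) z z).im ≤
      (Gc A U g e c z z).im + ‖Gc A U g e c z y‖ ^ 2 / (Gc A U g e c y y).im := by
  have h1 := norm_theta_le (U := U) (g := g) hA he c y t
  rw [(Poi.update (U := U) (g := g) hA he c y t).2 z z, Complex.sub_im]
  set θ := ((g y * (t - c y) : ℝ) : ℂ) / (1 + ((g y * (t - c y) : ℝ) : ℂ) * Gc A U g e c y y)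
  have h2 : |(Gc A U g e c z y * Gc A U g e c y z * θ).im| ≤
      ‖Gc A U g e c z y‖ ^ 2 * (1 / (Gc A U g e c y y).im) := by
    refine (Complex.abs_im_le_norm _).trans ?_
    rw [norm_mul, norm_mul, Gc_symm hA c y z, ← sq]
    exact mul_le_mul_of_nonneg_left h1 (sq_nonneg _)
  have h3 := (abs_le.1 h2).1
  rw [mul_one_div] at h3
  linarith

/-- the density constant -/
noncomputable def cst (G X0 d0 : ℝ) : ℝ := 1 / (π * G * (1 + (X0 + 2 / (G * d0)) ^ 2))

theorem cst_pos {G X0 d0 : ℝ} (hG : 0 < G) : 0 < cst G X0 d0 := by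
  unfold cst
  positivity

/-- lower bound for the resampling operator on a good site -/
theorem Iop_ge (hA : A.IsSymm) (he : ∀ x, 0 < e x) {y : ι} (hg : 0 < g y) {X0 d0 : ℝ}
    (hd : 0 < d0) {c : ι → ℝ} (hgood : Good A U g e X0 d0 c y) {Ψ : (ι → ℝ) → ℝ}
    (hm : Measurable Ψ) (h0 : ∀ c, 0 ≤ Ψ c) {M : ℝ} (hM : ∀ c, Ψ c ≤ M) :
    cst (g y) X0 d0 * ∫ x in (-1 : ℝ)..1,
        Ψ (Function.update c y (tx A U g e c y x)) / (1 + x ^ 2) ≤ Iop A U g e y Ψ c := by
  have hG := diag_ne_zero (U := U) (g := g) hA he c y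
  have hnG : 0 < ‖Gc A U g e c y y‖ := norm_pos_iff.2 hG
  set p := pc A U g e c y with hp
  have hpim : 0 < p.im := pc_im_pos hA he c y
  set d : ℝ := p.im / g y with hd'
  have hdpos : 0 < d := div_pos hpim hg
  have htx : ∀ x, tx A U g e c y x = (c y + p.re / g y) + d * x := by
    intro x
    rw [tx, hd', ← hp]
    field_simp
    ring
  set F : ℝ → ℝ := fun t => (Gc A U g e (Function.update c y t) y y).im *
      Ψ (Function.update c y t) with hF
  have hF0 : ∀ t, 0 ≤ F t := fun t => mul_nonneg (im_pos hA he _ y).le (h0 _)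
  have hFi : Integrable F nu := integrable_line hA he y hm h0 hM c
  -- density
  have hnu : nu = volume.withDensity (cauchyPDF 0 1) :=
    cauchyMeasure_of_scale_ne_zero 0 one_ne_zero
  set ρ : ℝ → ℝ := fun t => (cauchyPDF 0 1 t).toReal with hρ
  have hρval : ∀ t, ρ t = π⁻¹ * (1 + t ^ 2)⁻¹ := by
    intro t
    rw [hρ]
    simp only [cauchyPDF]
    rw [ENNReal.toReal_ofReal (cauchyPDF_pos 0 one_ne_zero t).le, cauchyPDFReal_def]
    simp only [NNReal.coe_one, mul_one, sub_zero, one_pow]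
    rw [add_comm]
  have hIop : Iop A U g e y Ψ c = ∫ t, ρ t * F t := by
    have : Iop A U g e y Ψ c = ∫ t, F t ∂nu := rfl
    rw [this, hnu, integral_withDensity_eq_integral_toReal_smul (measurable_cauchyPDF 0 1)
      (Filter.Eventually.of_forall fun x => ENNReal.ofReal_lt_top)]
    rfl
  have hint : Integrable (fun t => ρ t * F t) := by
    have h1 : Integrable F (volume.withDensity (cauchyPDF 0 1)) := by rw [← hnu]; exact hFi
    have h2 := (integrable_withDensity_iff_integrable_smul'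
      (measurable_cauchyPDF 0 1) (Filter.Eventually.of_forall fun x => ENNReal.ofReal_lt_top)).1 h1
    exact h2
  -- restrict to the interval
  have hab : tx A U g e c y (-1) ≤ tx A U g e c y 1 := by
    rw [htx, htx]; linarith
  have h1 : ∫ t in (tx A U g e c y (-1))..(tx A U g e c y 1), ρ t * F t ≤ ∫ t, ρ t * F t := by
    rw [intervalIntegral.integral_of_le hab]
    refine setIntegral_le_integral hint (Filter.Eventually.of_forall fun t => ?_)
    exact mul_nonneg ENNReal.toReal_nonneg (hF0 t)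
  have h2 : ∫ t in (tx A U g e c y (-1))..(tx A U g e c y 1), ρ t * F t =
      ∫ x in (-1 : ℝ)..1, d * (ρ (tx A U g e c y x) * F (tx A U g e c y x)) := by
    have h3 := intervalIntegral.integral_comp_add_mul (a := -1) (b := 1)
      (fun t => ρ t * F t) hdpos.ne' (c y + p.re / g y)
    rw [intervalIntegral.integral_const_mul]
    simp only [htx]
    rw [h3, smul_eq_mul, ← mul_assoc, mul_inv_cancel₀ hdpos.ne', one_mul]
  -- pointwise
  have hx : ∀ x ∈ Icc (-1 : ℝ) 1, cst (g y) X0 d0 *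
      (Ψ (Function.update c y (tx A U g e c y x)) / (1 + x ^ 2)) ≤
      d * (ρ (tx A U g e c y x) * F (tx A U g e c y x)) := by
    intro x hx
    have hm' : (Gc A U g e (Function.update c y (tx A U g e c y x)) y y).im =
        1 / (p.im * (1 + x ^ 2)) := by
      rw [im_update hA he c y, g_mul_tx hg.ne', ← hp]
      have e1 : 1 + ((p.re + x * p.im : ℝ) : ℂ) * Gc A U g e c y y =
          (p.im : ℂ) * ((x : ℂ) - I) * Gc A U g e c y y := by
        have hs : ((p.re + x * p.im : ℝ) : ℂ) = p + (p.im : ℂ) * ((x : ℂ) - I) := by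
          apply Complex.ext
          · simp; ring
          · simp
        have hpG : p * Gc A U g e c y y = -1 := by
          rw [hp, pc]; field_simp
        rw [hs]
        linear_combination hpG
      rw [e1, norm_mul, norm_mul, mul_pow, mul_pow, Complex.norm_real, Real.norm_eq_abs, sq_abs]
      have e2 : ‖(x : ℂ) - I‖ ^ 2 = 1 + x ^ 2 := by
        rw [← Complex.normSq_eq_norm_sq, Complex.normSq_apply]; simp; ring
      have e3 : (Gc A U g e c y y).im = p.im * ‖Gc A U g e c y y‖ ^ 2 := by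
        rw [hp, pc_im]
        field_simp
      rw [e2, e3]
      have := one_add_sq_pos x
      field_simp
    have hℓ : |tx A U g e c y x| ≤ X0 + 2 / (g y * d0) := by
      have e1 : |tx A U g e c y x| ≤ |c y| + |(p.re + x * p.im) / g y| := by
        rw [tx, ← hp]; exact abs_add_le _ _
      have e2 : |(p.re + x * p.im) / g y| ≤ 2 / (g y * d0) := by
        rw [abs_div, abs_of_pos hg, div_le_div_iff₀ hg (by positivity)]
        have e3 : |p.re + x * p.im| ≤ 2 * ‖p‖ := by
          calc |p.re + x * p.im| ≤ |p.re| + |x * p.im| := abs_add_le _ _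
            _ ≤ ‖p‖ + ‖p‖ := by
              refine add_le_add (Complex.abs_re_le_norm p) ?_
              rw [abs_mul]
              calc |x| * |p.im| ≤ 1 * |p.im| :=
                    mul_le_mul_of_nonneg_right (abs_le.2 ⟨hx.1, hx.2⟩) (abs_nonneg _)
                _ ≤ ‖p‖ := by rw [one_mul]; exact Complex.abs_im_le_norm p
            _ = 2 * ‖p‖ := by ring
        have e4 : ‖p‖ * d0 ≤ 1 := by
          rw [hp, norm_pc, one_div, inv_mul_le_iff₀ hnG, mul_one]
          exact hgood.2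
        calc |p.re + x * p.im| * (g y * d0) ≤ 2 * ‖p‖ * (g y * d0) :=
              mul_le_mul_of_nonneg_right e3 (by positivity)
          _ = 2 * g y * (‖p‖ * d0) := by ring
          _ ≤ 2 * g y * 1 := mul_le_mul_of_nonneg_left e4 (by positivity)
          _ = 2 * g y := by ring
      linarith [hgood.1]
    have hρ' : π⁻¹ * (1 + (X0 + 2 / (g y * d0)) ^ 2)⁻¹ ≤ ρ (tx A U g e c y x) := by
      rw [hρval]
      refine mul_le_mul_of_nonneg_left ?_ (by positivity)
      refine inv_anti₀ (one_add_sq_pos _) ?_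
      have : (tx A U g e c y x) ^ 2 ≤ (X0 + 2 / (g y * d0)) ^ 2 := by
        rw [← sq_abs (tx A U g e c y x)]
        exact pow_le_pow_left₀ (abs_nonneg _) hℓ 2
      linarith
    have hΨ := h0 (Function.update c y (tx A U g e c y x))
    simp only [hF]
    rw [hm']
    set P := Ψ (Function.update c y (tx A U g e c y x))
    have hxx := one_add_sq_pos x
    calc cst (g y) X0 d0 * (P / (1 + x ^ 2))
        = d * ((π⁻¹ * (1 + (X0 + 2 / (g y * d0)) ^ 2)⁻¹) * (1 / (p.im * (1 + x ^ 2)) * P)) := by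
          rw [cst, hd']
          field_simp
      _ ≤ d * (ρ (tx A U g e c y x) * (1 / (p.im * (1 + x ^ 2)) * P)) := by
          refine mul_le_mul_of_nonneg_left ?_ hdpos.le
          refine mul_le_mul_of_nonneg_right hρ' ?_
          positivity
  have hline : Measurable fun x : ℝ => Function.update c y (tx A U g e c y x) := by
    have h4 : Measurable fun x : ℝ => tx A U g e c y x := by
      simp only [htx]
      fun_prop
    exact (measurable_upd_line c y).comp h4
  have h3 : cst (g y) X0 d0 * ∫ x in (-1 : ℝ)..1,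
        Ψ (Function.update c y (tx A U g e c y x)) / (1 + x ^ 2) ≤
      ∫ x in (-1 : ℝ)..1, d * (ρ (tx A U g e c y x) * F (tx A U g e c y x)) := by
    rw [← intervalIntegral.integral_const_mul]
    refine intervalIntegral.integral_mono_on (by norm_num) ?_ ?_ hx
    · rw [intervalIntegrable_iff_integrableOn_Ioc_of_le (by norm_num)]
      refine Integrable.of_bound (Measurable.aestronglyMeasurable ?_) (cst (g y) X0 d0 * M)
        (Filter.Eventually.of_forall fun x => ?_)
      · exact ((hm.comp hline).div (by fun_prop)).const_mul _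
      · have hxx := one_add_sq_pos x
        have hΨ := h0 (Function.update c y (tx A U g e c y x))
        rw [Real.norm_eq_abs, abs_of_nonneg (mul_nonneg (cst_pos hg).le (div_nonneg hΨ hxx.le))]
        refine mul_le_mul_of_nonneg_left ?_ (cst_pos hg).le
        rw [div_le_iff₀ hxx]
        have := hM (Function.update c y (tx A U g e c y x))
        nlinarith [sq_nonneg x]
    · have hcomp := (hint.comp_mul_left' hdpos.ne').comp_add_left ((c y + p.re / g y) / d)
      have : (fun x => ρ (tx A U g e c y x) * F (tx A U g e c y x)) =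
          fun x => (fun t => ρ t * F t) (d * ((c y + p.re / g y) / d + x)) := by
        funext x
        simp only [htx]
        have : c y + p.re / g y + d * x = d * ((c y + p.re / g y) / d + x) := by
          field_simp
        rw [this]
      refine Integrable.intervalIntegrable ?_
      refine Integrable.const_mul ?_ _
      rw [this]
      exact hcomp
  calc _ ≤ _ := h3
    _ = ∫ t in (tx A U g e c y (-1))..(tx A U g e c y 1), ρ t * F t := h2.symm
    _ ≤ ∫ t, ρ t * F t := h1
    _ = Iop A U g e y Ψ c := hIop.symm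

end P365L.Stat
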