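import Vale.Agent.P365.Stat.T1
import Vale.Agent.P365.L1.Near

/-!
# P365, static step: (ST1) for `|T|²`, summed over the observed site.
-/

set_option linter.all false

namespace P365L.Stat

open MeasureTheory ProbabilityTheory Complex Set P365L P365L.Poi
open scoped ComplexConjugate Real

variable {ι : Type*} [Fintype ι] [DecidableEq ι]
variable {A : Matrix ι ι ℝ} {U g e : ι → ℝ} {a : ι → ℝ}

theorem kp_eq_kap (W : ι → ℂ) (z w : ι) : kp A W z w = kap A W z w := rfl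

theorem Tm_sq_le (W : ι → ℂ) (z w : ι) :
    ‖Tm A W a z w‖ ^ 2 ≤ 2 * ‖Qm A W a z w‖ ^ 2 + 1 / 2 * (muf A W a w ^ 2 * KK A W z w) := by
  set y : ℂ := (I / 2) * (muf A W a w) * conj (Gr A W z w) with hy
  have h1 : Tm A W a z w = Qm A W a z w + y := by
    rw [Qm, hy]; ring
  have h2 : ‖y‖ ^ 2 = 1 / 4 * (muf A W a w ^ 2 * KK A W z w) := by
    rw [hy, norm_mul, norm_mul, RCLike.norm_conj, Complex.norm_real, norm_div, Complex.norm_I,
      KK, Real.norm_eq_abs, mul_pow, mul_pow, sq_abs]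
    have : ‖(2 : ℂ)‖ = 2 := by norm_num
    rw [this]
    ring
  have h3 : ‖Qm A W a z w + y‖ ≤ ‖Qm A W a z w‖ + ‖y‖ := norm_add_le _ _
  have h4 : ‖Qm A W a z w + y‖ ^ 2 ≤ (‖Qm A W a z w‖ + ‖y‖) ^ 2 :=
    pow_le_pow_left₀ (norm_nonneg _) h3 2
  rw [h1]
  nlinarith [sq_nonneg (‖Qm A W a z w‖ - ‖y‖)]

/-- `∑_z e_z ∑_w e_w mu_w² K_zw = ∑_w e_w m_w mu_w²` -/
theorem sum_mu_KK (hA : A.IsSymm) (he : ∀ x, 0 < e x) (c : ι → ℝ) :
    ∑ z, e z * ∑ w, e w * (muf A (Wc U g e c) a w ^ 2 * KK A (Wc U g e c) z w) =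
      ∑ w, e w * Ls A a w (Wc U g e c) := by
  have h : ∀ z, e z * ∑ w, e w * (muf A (Wc U g e c) a w ^ 2 * KK A (Wc U g e c) z w) =
      ∑ w, e w * (muf A (Wc U g e c) a w ^ 2 * (e z * KK A (Wc U g e c) w z)) := by
    intro z
    rw [Finset.mul_sum]
    refine Finset.sum_congr rfl fun w _ => ?_
    rw [KK_symm hA z w]
    ring
  simp only [h]
  rw [Finset.sum_comm]
  refine Finset.sum_congr rfl fun w _ => ?_
  rw [← Finset.mul_sum, ← Finset.mul_sum, Ls_eq hA (Wc_neg he c)]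
  congr 1
  rw [mul_comm, mm_eq hA (Wc_neg he c)]
  congr 1
  refine Finset.sum_congr rfl fun z _ => ?_
  rw [Wc_im, neg_neg]

theorem integrable_ST1 (hA : A.IsSymm) (he : ∀ x, 0 < e x) {w : ι} (hg : 0 < g w) {X0 d0 : ℝ}
    (hd : 0 < d0) (z : ι) (B : Finset ι) (L : ℝ) :
    Integrable ((GS A U g e X0 d0 w ∩ SL A U g e B L).indicator
        (fun c => kp A (Wc U g e c) z w * ‖Qm A (Wc U g e c) a z w‖ ^ 2)) (mu ι) := by
  obtain ⟨M, hM0, hM⟩ := Ls_bounded (U := U) (g := g) hA he a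
  obtain ⟨C, hC0, hC⟩ := bounded_im (U := U) (g := g) hA he
  have hcst : 0 < cst (g w) X0 d0 := cst_pos hg
  have hΨm : Measurable fun c => Ls A a z (Wc U g e c) := measurable_Ls z
  have hΨ0 : ∀ c, 0 ≤ Ls A a z (Wc U g e c) := fun c => Ls_nonneg hA (Wc_neg he c) z
  have hΨM : ∀ c, Ls A a z (Wc U g e c) ≤ M := fun c => hM c z
  refine Integrable.of_bound (Measurable.aestronglyMeasurable
    (((measurable_kp z w).mul ((measurable_Qm z w).norm.pow_const 2)).indicator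
      ((measurableSet_GS X0 d0 w).inter (measurableSet_SL B L))))
    (130 / (4 * cst (g w) X0 d0) * (C * (1 / g w * M))) (Filter.Eventually.of_forall fun c => ?_)
  have hb : 0 ≤ 130 / (4 * cst (g w) X0 d0) * (C * (1 / g w * M)) := by positivity
  have h0 : 0 ≤ (GS A U g e X0 d0 w ∩ SL A U g e B L).indicator
        (fun c => kp A (Wc U g e c) z w * ‖Qm A (Wc U g e c) a z w‖ ^ 2) c :=
    Set.indicator_nonneg (fun c _ => mul_nonneg (kp_nonneg hA (Wc_neg he c) z w)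
          (sq_nonneg _)) c
  rw [Real.norm_eq_abs, abs_of_nonneg h0]
  by_cases hc : c ∈ GS A U g e X0 d0 w ∩ SL A U g e B L
  · rw [Set.indicator_of_mem hc]
    refine (T1 hA he hg hd hc.1 z hΨm hΨ0 hΨM fun t => le_rfl).trans ?_
    refine mul_le_mul_of_nonneg_left ?_ (by positivity)
    exact mul_le_mul (hC c w) (Iop_le hA he hg hΨm hΨ0 hΨM c) (Iop_nonneg hA he w hΨ0 c) hC0.le
  · rw [Set.indicator_of_notMem hc]
    exact hb

theorem KK_bounded (hA : A.IsSymm) (he : ∀ x, 0 < e x) :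
    ∃ M : ℝ, 0 < M ∧ ∀ (c : ι → ℝ) (z w : ι), KK A (Wc U g e c) z w ≤ M := by
  obtain ⟨η, hη, h⟩ := exists_lower he
  refine ⟨(1 / η) ^ 2, by positivity, fun c z w => ?_⟩
  exact pow_le_pow_left₀ (norm_nonneg _) (norm_Gc_le hA hη h c z w) 2

theorem integrable_mu_KK (hA : A.IsSymm) (he : ∀ x, 0 < e x) (z w : ι) :
    Integrable (fun c => muf A (Wc U g e c) a w ^ 2 * KK A (Wc U g e c) z w) (mu ι) := by
  obtain ⟨M, hM0, hM⟩ := KK_bounded (U := U) (g := g) hA he
  set α : ℝ := ∑ x, |a x| with hα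
  have ha : ∀ x, |a x| ≤ α := fun x =>
    Finset.single_le_sum (f := fun x => |a x|) (fun y _ => abs_nonneg _) (Finset.mem_univ x)
  refine Integrable.of_bound (((measurable_muf w).pow_const 2).mul
    (measurable_KK z w)).aestronglyMeasurable ((2 * α) ^ 2 * M)
    (Filter.Eventually.of_forall fun c => ?_)
  rw [Real.norm_eq_abs, abs_of_nonneg (mul_nonneg (sq_nonneg _) (KK_nonneg _ _))]
  refine mul_le_mul ?_ (hM c z w) (KK_nonneg _ _) (sq_nonneg _)
  rw [← sq_abs]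
  exact pow_le_pow_left₀ (abs_nonneg _) (abs_muf_le hA (Wc_neg he c) ha w) 2

theorem integrable_Ls (hA : A.IsSymm) (he : ∀ x, 0 < e x) (z : ι) :
    Integrable (fun c => Ls A a z (Wc U g e c)) (mu ι) := by
  obtain ⟨M, hM0, hM⟩ := Ls_bounded (U := U) (g := g) hA he a
  refine Integrable.of_bound (measurable_Ls z).aestronglyMeasurable M
      (Filter.Eventually.of_forall fun c => ?_)
  rw [Real.norm_eq_abs, abs_of_nonneg (Ls_nonneg hA (Wc_neg he c) z)]
  exact hM c z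

/-- pointwise comparison and integration for one pair `(z,w)` -/
theorem ST1T_site (hA : A.IsSymm) (he : ∀ x, 0 < e x) {w : ι} (hg : 0 < g w) {X0 d0 : ℝ}
    (hd : 0 < d0) (z : ι) (B : Finset ι) (L : ℝ) :
    ∫ c, (GS A U g e X0 d0 w ∩ SL A U g e B L).indicator
        (fun c => kap A (Wc U g e c) z w * ‖Tm A (Wc U g e c) a z w‖ ^ 2) c ∂(mu ι) ≤
      2 * ∫ c, (GS A U g e X0 d0 w ∩ SL A U g e B L).indicator
        (fun c => kp A (Wc U g e c) z w * ‖Qm A (Wc U g e c) a z w‖ ^ 2) c ∂(mu ι) +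
      1 / 2 * ∫ c, muf A (Wc U g e c) a w ^ 2 * KK A (Wc U g e c) z w ∂(mu ι) := by
  have i1 := integrable_ST1 (U := U) (g := g) (a := a) (X0 := X0) hA he hg hd z B L
  have i2 := integrable_mu_KK (U := U) (g := g) (a := a) hA he z w
  rw [← integral_const_mul, ← integral_const_mul, ← integral_add (i1.const_mul _)
    (i2.const_mul _)]
  refine integral_mono_of_nonneg (Filter.Eventually.of_forall fun c => ?_)
    ((i1.const_mul _).add (i2.const_mul _)) (Filter.Eventually.of_forall fun c => ?_)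
  · exact Set.indicator_nonneg (fun c _ => mul_nonneg (kp_nonneg hA (Wc_neg he c) z w)
          (sq_nonneg _)) c
  · show (GS A U g e X0 d0 w ∩ SL A U g e B L).indicator
        (fun c => kap A (Wc U g e c) z w * ‖Tm A (Wc U g e c) a z w‖ ^ 2) c ≤
      2 * (GS A U g e X0 d0 w ∩ SL A U g e B L).indicator
        (fun c => kp A (Wc U g e c) z w * ‖Qm A (Wc U g e c) a z w‖ ^ 2) c +
      1 / 2 * (muf A (Wc U g e c) a w ^ 2 * KK A (Wc U g e c) z w)
    have hnn : 0 ≤ muf A (Wc U g e c) a w ^ 2 * KK A (Wc U g e c) z w :=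
      mul_nonneg (sq_nonneg _) (KK_nonneg _ _)
    by_cases hc : c ∈ GS A U g e X0 d0 w ∩ SL A U g e B L
    · rw [Set.indicator_of_mem hc, Set.indicator_of_mem hc, ← kp_eq_kap]
      have h1 := Tm_sq_le (A := A) (a := a) (Wc U g e c) z w
      have h2 := kp_nonneg hA (Wc_neg (U := U) (g := g) he c) z w
      have h3 := kp_le_one hA (Wc_neg (U := U) (g := g) he c) z w
      calc kp A (Wc U g e c) z w * ‖Tm A (Wc U g e c) a z w‖ ^ 2
          ≤ kp A (Wc U g e c) z w * (2 * ‖Qm A (Wc U g e c) a z w‖ ^ 2 +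
              1 / 2 * (muf A (Wc U g e c) a w ^ 2 * KK A (Wc U g e c) z w)) :=
            mul_le_mul_of_nonneg_left h1 h2
        _ ≤ _ := by nlinarith
    · rw [Set.indicator_of_notMem hc, Set.indicator_of_notMem hc]
      linarith

/-- (ST1) for `|T|²`, summed over the observed site `z`; `B z` is the block of kicked sites -/
theorem ST1_T (hA : A.IsSymm) (he : ∀ x, 0 < e x) {G : ℝ} (hG : 0 < G) {X0 d0 : ℝ}
    (hd : 0 < d0) (B : ι → Finset ι) (hg : ∀ w, g w = G) {L : ℝ} (hL : 0 ≤ L) :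
    ∑ z, e z * ∑ w ∈ B z, e w * ∫ c, (GS A U g e X0 d0 w ∩ SL A U g e (B z) L).indicator
        (fun c => kap A (Wc U g e c) z w * ‖Tm A (Wc U g e c) a z w‖ ^ 2) c ∂(mu ι) ≤
      (260 / (4 * cst G X0 d0 * G) * (L + 1) + 1 / 2) *
        ∑ z, e z * ∫ c, Ls A a z (Wc U g e c) ∂(mu ι) := by
  have hg' : ∀ w, 0 < g w := fun w => by rw [hg w]; exact hG
  have h1 : ∀ z, e z * ∑ w ∈ B z, e w * ∫ c,
      (GS A U g e X0 d0 w ∩ SL A U g e (B z) L).indicator
        (fun c => kap A (Wc U g e c) z w * ‖Tm A (Wc U g e c) a z w‖ ^ 2) c ∂(mu ι) ≤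
      260 / (4 * cst G X0 d0 * G) * (L + 1) * (e z * ∫ c, Ls A a z (Wc U g e c) ∂(mu ι)) +
      1 / 2 * (e z * ∑ w, e w * ∫ c, muf A (Wc U g e c) a w ^ 2 * KK A (Wc U g e c) z w
        ∂(mu ι)) := by
    intro z
    have h2 := ST1 (U := U) (g := g) (a := a) (X0 := X0) hA he hG hd z (B z)
      (fun w _ => hg w) hL
    have h3 : ∑ w ∈ B z, e w * ∫ c, (GS A U g e X0 d0 w ∩ SL A U g e (B z) L).indicator
        (fun c => kap A (Wc U g e c) z w * ‖Tm A (Wc U g e c) a z w‖ ^ 2) c ∂(mu ι) ≤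
        ∑ w ∈ B z, (2 * (e w * ∫ c, (GS A U g e X0 d0 w ∩ SL A U g e (B z) L).indicator
        (fun c => kp A (Wc U g e c) z w * ‖Qm A (Wc U g e c) a z w‖ ^ 2) c ∂(mu ι)) +
        1 / 2 * (e w * ∫ c, muf A (Wc U g e c) a w ^ 2 * KK A (Wc U g e c) z w ∂(mu ι))) := by
      refine Finset.sum_le_sum fun w _ => ?_
      have h4 := ST1T_site (U := U) (g := g) (a := a) (X0 := X0) hA he (hg' w) hd z (B z) L
      have h5 := mul_le_mul_of_nonneg_left h4 (he w).le
      linarith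
    rw [Finset.sum_add_distrib, ← Finset.mul_sum, ← Finset.mul_sum] at h3
    have h6 : ∑ w ∈ B z, e w * ∫ c, muf A (Wc U g e c) a w ^ 2 * KK A (Wc U g e c) z w ∂(mu ι) ≤
        ∑ w, e w * ∫ c, muf A (Wc U g e c) a w ^ 2 * KK A (Wc U g e c) z w ∂(mu ι) :=
      Finset.sum_le_sum_of_subset_of_nonneg (Finset.subset_univ _) fun w _ _ =>
        mul_nonneg (he w).le (integral_nonneg fun c => mul_nonneg (sq_nonneg _) (KK_nonneg _ _))
    have h7 : 260 / (4 * cst G X0 d0 * G) = 2 * (130 / (4 * cst G X0 d0 * G)) := by ring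
    have h8 : ∑ w ∈ B z, e w * ∫ c, (GS A U g e X0 d0 w ∩ SL A U g e (B z) L).indicator
        (fun c => kap A (Wc U g e c) z w * ‖Tm A (Wc U g e c) a z w‖ ^ 2) c ∂(mu ι) ≤
        260 / (4 * cst G X0 d0 * G) * (L + 1) * ∫ c, Ls A a z (Wc U g e c) ∂(mu ι) +
        1 / 2 * ∑ w, e w * ∫ c, muf A (Wc U g e c) a w ^ 2 * KK A (Wc U g e c) z w
          ∂(mu ι) := by
      rw [h7]
      linarith
    have h9 := mul_le_mul_of_nonneg_left h8 (he z).le
    linarith
  refine (Finset.sum_le_sum fun z _ => h1 z).trans (le_of_eq ?_)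
  rw [Finset.sum_add_distrib, ← Finset.mul_sum, ← Finset.mul_sum, add_mul]
  congr 2
  -- the Ward sum
  have h10 : ∑ z, e z * ∑ w, e w * ∫ c, muf A (Wc U g e c) a w ^ 2 * KK A (Wc U g e c) z w
      ∂(mu ι) = ∫ c, ∑ z, e z * ∑ w, e w * (muf A (Wc U g e c) a w ^ 2 *
        KK A (Wc U g e c) z w) ∂(mu ι) := by
    rw [integral_finsetSum _ fun z _ => (integrable_finsetSum _ fun w _ =>
      (integrable_mu_KK hA he z w).const_mul _).const_mul _]
    refine Finset.sum_congr rfl fun z _ => ?_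
    rw [integral_const_mul, integral_finsetSum _ fun w _ =>
      (integrable_mu_KK hA he z w).const_mul _]
    congr 1
    refine Finset.sum_congr rfl fun w _ => ?_
    rw [integral_const_mul]
  rw [h10]
  simp only [sum_mu_KK hA he]
  rw [integral_finsetSum _ fun w _ => (integrable_Ls hA he w).const_mul _]
  refine Finset.sum_congr rfl fun w _ => ?_
  rw [integral_const_mul]

end P365L.Stat
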