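import Vale.Agent.P365.L1.Alg2
import Vale.Agent.P365.Minami.Poisson

/-!
# P365, static step, real-variable layer (T0).

`eta x = 1/(x-i)`; trigonometric polynomials of degree one in the variable `x ∈ [-1,1]` with the
weight `dx/(1+x²)` (half of the circle).
-/

set_option linter.all false

namespace P365L.Stat

open MeasureTheory Complex Set
open scoped ComplexConjugate Real

/-- `η(x) = 1/(x - i)` -/
noncomputable def eta (x : ℝ) : ℂ := 1 / ((x : ℂ) - I)

theorem sub_I_ne (x : ℝ) : (x : ℂ) - I ≠ 0 := by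
  intro h
  have := congrArg Complex.im h
  simp at this

theorem one_add_sq_pos (x : ℝ) : (0 : ℝ) < 1 + x ^ 2 := by positivity

theorem eta_re (x : ℝ) : (eta x).re = x / (1 + x ^ 2) := by
  have h : Complex.normSq ((x : ℂ) - I) = 1 + x ^ 2 := by
    rw [Complex.normSq_apply]; simp; ring
  rw [eta, one_div, Complex.inv_re, h]
  simp

theorem eta_im (x : ℝ) : (eta x).im = 1 / (1 + x ^ 2) := by
  have h : Complex.normSq ((x : ℂ) - I) = 1 + x ^ 2 := by
    rw [Complex.normSq_apply]; simp; ring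
  rw [eta, one_div, Complex.inv_im, h]
  simp

theorem norm_eta_sq (x : ℝ) : ‖eta x‖ ^ 2 = 1 / (1 + x ^ 2) := by
  rw [← Complex.normSq_eq_norm_sq, Complex.normSq_apply, eta_re, eta_im]
  have := one_add_sq_pos x
  field_simp
  ring

theorem norm_eta_le (x : ℝ) : ‖eta x‖ ≤ 1 := by
  have h : ‖eta x‖ ^ 2 ≤ 1 := by
    rw [norm_eta_sq, div_le_one (one_add_sq_pos x)]
    nlinarith [sq_nonneg x]
  nlinarith [norm_nonneg (eta x)]

theorem continuous_eta : Continuous eta := by
  unfold eta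
  exact continuous_const.div (Complex.continuous_ofReal.sub continuous_const) sub_I_ne

theorem mul_eta_re (b : ℂ) (x : ℝ) : (b * eta x).re = (b.re * x - b.im) / (1 + x ^ 2) := by
  rw [Complex.mul_re, eta_re, eta_im]
  ring

theorem eta_sub (x y : ℝ) : ‖eta x - eta y‖ ^ 2 = (x - y) ^ 2 / ((1 + x ^ 2) * (1 + y ^ 2)) := by
  have h : eta x - eta y = ((y - x : ℝ) : ℂ) * (eta x * eta y) := by
    unfold eta
    have h1 := sub_I_ne x
    have h2 := sub_I_ne y
    push_cast
    field_simp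
    ring
  rw [h, norm_mul, norm_mul, mul_pow, mul_pow, norm_eta_sq, norm_eta_sq, Complex.norm_real,
    Real.norm_eq_abs, sq_abs]
  have := one_add_sq_pos x
  have := one_add_sq_pos y
  field_simp
  ring

theorem abs_sub_le_eta {x y : ℝ} (hx : x ∈ Icc (-1 : ℝ) 1) (hy : y ∈ Icc (-1 : ℝ) 1) :
    |x - y| ≤ 2 * ‖eta x - eta y‖ := by
  have h1 : 1 + x ^ 2 ≤ 2 := by nlinarith [hx.1, hx.2]
  have h2 : 1 + y ^ 2 ≤ 2 := by nlinarith [hy.1, hy.2]
  have h3 := eta_sub x y
  have h4 : (x - y) ^ 2 ≤ 4 * ‖eta x - eta y‖ ^ 2 := by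
    rw [h3, mul_div_assoc', le_div_iff₀ (by positivity)]
    have : (1 + x ^ 2) * (1 + y ^ 2) ≤ 4 := by nlinarith [sq_nonneg x, sq_nonneg y]
    nlinarith [sq_nonneg (x - y)]
  have h5 : |x - y| ^ 2 ≤ (2 * ‖eta x - eta y‖) ^ 2 := by
    rw [sq_abs]; nlinarith
  exact abs_le_of_sq_le_sq (by rw [sq_abs] at h5; exact h5) (by positivity) |> fun h => h

/-- the set where an affine function of `η` is small is short -/
theorem volume_small (e : ℂ) {r : ℝ} (hr : 0 ≤ r) :
    volume {x : ℝ | x ∈ Icc (-1 : ℝ) 1 ∧ ‖eta x - e‖ < r} ≤ ENNReal.ofReal (4 * r) := by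
  refine (Real.volume_le_diam _).trans ?_
  refine EMetric.diam_le fun x hx y hy => ?_
  rw [edist_dist, Real.dist_eq]
  refine ENNReal.ofReal_le_ofReal ?_
  have h1 := abs_sub_le_eta hx.1 hy.1
  have h2 : ‖eta x - eta y‖ ≤ ‖eta x - e‖ + ‖eta y - e‖ := by
    have : eta x - eta y = (eta x - e) - (eta y - e) := by ring
    rw [this]; exact norm_sub_le _ _
  have := hx.2
  have := hy.2
  linarith

/-- weight -/
theorem T0 (A br bi : ℝ) :
    (A ^ 2 + br ^ 2 + bi ^ 2) / 130 ≤
      ∫ x in (-1 : ℝ)..1, (A + (br * x - bi) / (1 + x ^ 2)) ^ 2 / (1 + x ^ 2) := by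
  have h1 : ∫ x in (-1 : ℝ)..1, (A * x ^ 2 + br * x + (A - bi)) ^ 2 / 8 =
      ((2 / 5) * A ^ 2 + (2 / 3) * br ^ 2 + 2 * (A - bi) ^ 2 + (4 / 3) * A * (A - bi)) / 8 := by
    have : ∀ x : ℝ, (A * x ^ 2 + br * x + (A - bi)) ^ 2 / 8 =
        (A ^ 2 / 8) * x ^ 4 + (2 * A * br / 8) * x ^ 3 + ((br ^ 2 + 2 * A * (A - bi)) / 8) * x ^ 2 +
          (2 * br * (A - bi) / 8) * x + (A - bi) ^ 2 / 8 := fun x => by ring
    simp only [this]
    rw [intervalIntegral.integral_add, intervalIntegral.integral_add,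
      intervalIntegral.integral_add, intervalIntegral.integral_add,
      intervalIntegral.integral_const_mul, intervalIntegral.integral_const_mul,
      intervalIntegral.integral_const_mul, intervalIntegral.integral_const_mul,
      integral_pow, integral_pow, integral_pow, integral_id, intervalIntegral.integral_const]
    · norm_num
      ring
    all_goals
      apply Continuous.intervalIntegrable
      fun_prop
  have h2 : ∫ x in (-1 : ℝ)..1, (A * x ^ 2 + br * x + (A - bi)) ^ 2 / 8 ≤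
      ∫ x in (-1 : ℝ)..1, (A + (br * x - bi) / (1 + x ^ 2)) ^ 2 / (1 + x ^ 2) := by
    refine intervalIntegral.integral_mono_on (by norm_num) ?_ ?_ ?_
    · apply Continuous.intervalIntegrable
      fun_prop
    · apply Continuous.intervalIntegrable
      refine Continuous.div ?_ (by fun_prop) (fun x => (one_add_sq_pos x).ne')
      refine Continuous.pow ?_ 2
      refine continuous_const.add (Continuous.div (by fun_prop) (by fun_prop)
        (fun x => (one_add_sq_pos x).ne'))
    · intro x hx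
      have hx2 : x ^ 2 ≤ 1 := by nlinarith [hx.1, hx.2]
      have hp := one_add_sq_pos x
      have h3 : (A + (br * x - bi) / (1 + x ^ 2)) ^ 2 / (1 + x ^ 2) =
          (A * x ^ 2 + br * x + (A - bi)) ^ 2 / (1 + x ^ 2) ^ 3 := by
        field_simp
        ring
      rw [h3]
      apply div_le_div_of_nonneg_left (sq_nonneg _) (by positivity)
      calc (1 + x ^ 2) ^ 3 ≤ 2 ^ 3 := pow_le_pow_left₀ hp.le (by linarith) 3
        _ = 8 := by norm_num
  refine le_trans ?_ h2
  rw [h1]
  nlinarith [sq_nonneg br, sq_nonneg (A - (5 / 7) * bi), sq_nonneg A, sq_nonneg bi,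
    sq_nonneg (A * 14 - 10 * bi)]

end P365L.Stat
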