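import Vale.Agent.P365.Stat.One

/-!
# P365, static step (T1) and (ST1): one kick controls `κ |Q|²`.
-/

set_option linter.all false

namespace P365L.Stat

open MeasureTheory ProbabilityTheory Complex Set P365L P365L.Poi
open scoped ComplexConjugate Real

variable {ι : Type*} [Fintype ι] [DecidableEq ι]

/-- `κ_zw = K_zw / (m_z m_w + K_zw)` -/
noncomputable def kp (A : Matrix ι ι ℝ) (W : ι → ℂ) (z w : ι) : ℝ :=
  KK A W z w / (mm A W z * mm A W w + KK A W z w)

variable {A : Matrix ι ι ℝ} {U g e : ι → ℝ} {a : ι → ℝ}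

theorem kp_nonneg {W : ι → ℂ} (hA : A.IsSymm) (hW : ∀ x, (W x).im < 0) (z w : ι) :
    0 ≤ kp A W z w :=
  div_nonneg (KK_nonneg _ _) (add_nonneg (mul_pos (mm_pos hA hW z) (mm_pos hA hW w)).le
    (KK_nonneg _ _))

theorem kp_le_one {W : ι → ℂ} (hA : A.IsSymm) (hW : ∀ x, (W x).im < 0) (z w : ι) :
    kp A W z w ≤ 1 := by
  have h1 := mul_pos (mm_pos hA hW z) (mm_pos hA hW w)
  have h2 := KK_nonneg (A := A) (W := W) z w
  unfold kp
  rw [div_le_one (by linarith)]
  linarith

theorem kp_symm {W : ι → ℂ} (hA : A.IsSymm) (z w : ι) : kp A W z w = kp A W w z := by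
  unfold kp
  rw [KK_symm hA z w, mul_comm (mm A W z)]

/-! ### measurability and bounds -/

theorem measurable_Gr' (x y : ι) : Measurable fun c => Gr A (Wc U g e c) x y :=
  measurable_Gc x y

theorem measurable_mm (x : ι) : Measurable fun c => mm A (Wc U g e c) x :=
  measurable_im_Gc x

theorem measurable_KK (x y : ι) : Measurable fun c => KK A (Wc U g e c) x y := by
  unfold KK
  exact (measurable_Gr' x y).norm.pow_const 2

theorem measurable_kp (x y : ι) : Measurable fun c => kp A (Wc U g e c) x y := by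
  unfold kp
  exact (measurable_KK x y).div (((measurable_mm x).mul (measurable_mm y)).add (measurable_KK x y))

theorem measurable_PP (x y : ι) : Measurable fun c => PP A (Wc U g e c) x y := by
  unfold PP
  simp only [Wc_im]
  exact ((measurable_KK x y).const_mul _).div (measurable_mm x)

theorem measurable_muf (x : ι) : Measurable fun c => muf A (Wc U g e c) a x := by
  unfold muf
  exact (Finset.measurable_sum _ fun y _ => (measurable_PP x y).mul_const _).sub_const _

theorem measurable_Tm (z w : ι) : Measurable fun c => Tm A (Wc U g e c) a z w := by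
  have h : ∀ c, Tm A (Wc U g e c) a z w = (I / 2) * ∑ q, (∑ p,
      conj (Gr A (Wc U g e c) p z) * Bm A a p q) * Gr A (Wc U g e c) q w := by
    intro c
    rw [Tm, Matrix.smul_apply, smul_eq_mul, Matrix.mul_apply]
    congr 1
  simp only [h]
  refine Measurable.const_mul ?_ _
  refine Finset.measurable_sum _ fun q _ => Measurable.mul ?_ (measurable_Gr' q w)
  refine Finset.measurable_sum _ fun p _ => Measurable.mul_const ?_ _
  exact (Complex.continuous_conj.measurable).comp (measurable_Gr' p z)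

theorem measurable_Qm (z w : ι) : Measurable fun c => Qm A (Wc U g e c) a z w := by
  unfold Qm
  refine (measurable_Tm z w).sub (Measurable.mul ?_ ?_)
  · exact (Complex.measurable_ofReal.comp (measurable_muf w)).const_mul _
  · exact (Complex.continuous_conj.measurable).comp (measurable_Gr' z w)

theorem abs_muf_le {W : ι → ℂ} (hA : A.IsSymm) (hW : ∀ x, (W x).im < 0) {α : ℝ}
    (ha : ∀ x, |a x| ≤ α) (x : ι) : |muf A W a x| ≤ 2 * α := by
  have h1 : |∑ y, PP A W x y * a y| ≤ α := by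
    calc |∑ y, PP A W x y * a y| ≤ ∑ y, |PP A W x y * a y| := Finset.abs_sum_le_sum_abs _ _
      _ ≤ ∑ y, PP A W x y * α := Finset.sum_le_sum fun y _ => by
          rw [abs_mul, abs_of_nonneg (PP_nonneg hA hW x y)]
          exact mul_le_mul_of_nonneg_left (ha y) (PP_nonneg hA hW x y)
      _ = α := by rw [← Finset.sum_mul, PP_sum hA hW, one_mul]
  unfold muf
  calc |∑ y, PP A W x y * a y - a x| ≤ |∑ y, PP A W x y * a y| + |a x| := abs_sub _ _
    _ ≤ 2 * α := by linarith [ha x]

/-- the local loss `|T_zz|²/m_z = m_z mu_z²` -/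
noncomputable def Ls (A : Matrix ι ι ℝ) (a : ι → ℝ) (z : ι) (W : ι → ℂ) : ℝ :=
  ‖Tm A W a z z‖ ^ 2 / mm A W z

theorem Ls_eq {W : ι → ℂ} (hA : A.IsSymm) (hW : ∀ x, (W x).im < 0) (z : ι) :
    Ls A a z W = mm A W z * muf A W a z ^ 2 := by
  have h := mm_pos hA hW z
  unfold Ls
  rw [Tm_self hA hW, Complex.norm_real, Real.norm_eq_abs, sq_abs]
  field_simp

theorem Ls_nonneg {W : ι → ℂ} (hA : A.IsSymm) (hW : ∀ x, (W x).im < 0) (z : ι) :
    0 ≤ Ls A a z W := by
  rw [Ls_eq hA hW]
  exact mul_nonneg (mm_pos hA hW z).le (sq_nonneg _)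

theorem Ls_bounded (hA : A.IsSymm) (he : ∀ x, 0 < e x) (a : ι → ℝ) :
    ∃ M : ℝ, 0 < M ∧ ∀ (c : ι → ℝ) (z : ι), Ls A a z (Wc U g e c) ≤ M := by
  obtain ⟨C, hC0, hC⟩ := bounded_im (U := U) (g := g) hA he
  set α : ℝ := ∑ x, |a x| + 1 with hα
  have ha : ∀ x, |a x| ≤ α := fun x => by
    have := Finset.single_le_sum (f := fun x => |a x|) (fun y _ => abs_nonneg _)
      (Finset.mem_univ x)
    linarith
  have hα0 : 0 < α := by
    have : 0 ≤ ∑ x, |a x| := Finset.sum_nonneg fun x _ => abs_nonneg _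
    linarith
  refine ⟨C * (2 * α) ^ 2, by positivity, fun c z => ?_⟩
  rw [Ls_eq hA (Wc_neg he c)]
  have h1 := abs_muf_le (a := a) hA (Wc_neg (U := U) (g := g) he c) ha z
  have h2 : muf A (Wc U g e c) a z ^ 2 ≤ (2 * α) ^ 2 := by
    rw [← sq_abs]
    exact pow_le_pow_left₀ (abs_nonneg _) h1 2
  exact mul_le_mul (hC c z) h2 (sq_nonneg _) hC0.le

theorem measurable_Ls (z : ι) : Measurable fun c => Ls A a z (Wc U g e c) := by
  unfold Ls
  exact ((measurable_Tm z z).norm.pow_const 2).div (measurable_mm z)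

/-! ### T1 -/

/-- (T1): `κ_zw |Q_zw|² ≤ (130/4) cst⁻¹ m_w I_w[Ψ]` if `w` is good and `Ψ` dominates the local loss
at `z` along the `w`-line -/
theorem T1 (hA : A.IsSymm) (he : ∀ x, 0 < e x) {w : ι} (hg : 0 < g w) {X0 d0 : ℝ}
    (hd : 0 < d0) {c : ι → ℝ} (hgood : Good A U g e X0 d0 c w) (z : ι) {Ψ : (ι → ℝ) → ℝ}
    (hm : Measurable Ψ) (h0 : ∀ c, 0 ≤ Ψ c) {M : ℝ} (hM : ∀ c, Ψ c ≤ M)
    (hΨ : ∀ t, Ls A a z (Wc U g e (Function.update c w t)) ≤ Ψ (Function.update c w t)) :
    kp A (Wc U g e c) z w * ‖Qm A (Wc U g e c) a z w‖ ^ 2 ≤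
      130 / (4 * cst (g w) X0 d0) * ((Gc A U g e c w w).im * Iop A U g e w Ψ c) := by
  have hcst : 0 < cst (g w) X0 d0 := cst_pos hg
  set W := Wc U g e c with hWdef
  have hW : ∀ x, (W x).im < 0 := Wc_neg he c
  have hmw : 0 < mm A W w := mm_pos hA hW w
  have hmz : 0 < mm A W z := mm_pos hA hW z
  have hK : 0 ≤ KK A W z w := KK_nonneg _ _
  set Mz : ℝ := mm A W z + KK A W z w / mm A W w with hMz
  have hMz0 : 0 < Mz := by positivity
  -- lower bound of the interval integral
  set β : ℂ := kq A U g e c w * Qm A W a z w * Gc A U g e c w z with hβ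
  set α : ℂ := Tm A W a z z - 1 / Gc A U g e c w w * Qm A W a z w * Gc A U g e c w z
        - conj (1 / Gc A U g e c w w) * conj (Gc A U g e c z w) * conj (Qm A W a z w) with hα
  set b : ℂ := 2 * β with hb
  have hT : ∀ x, (Tm A (Wc U g e (Function.update c w (tx A U g e c w x))) a z z).re =
      α.re + (b.re * x - b.im) / (1 + x ^ 2) := by
    intro x
    have key : Tm A (Wc U g e (Function.update c w (tx A U g e c w x))) a z z =
        α + β * eta x + conj (β * eta x) := by
      rw [Tm_tx hA he hg.ne', ← hWdef, hα, hβ, Gc_symm hA c w z]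
      simp only [map_mul]
      ring
    have h2 : (2 * β * eta x).re = 2 * (β * eta x).re := by
      rw [mul_assoc, show (2 : ℂ) = ((2 : ℝ) : ℂ) by norm_num, Complex.re_ofReal_mul]
    rw [key, Complex.add_re, Complex.add_re, Complex.conj_re, ← mul_eta_re b x, hb, h2]
    ring
  have hbn : ‖b‖ ^ 2 = 4 * (KK A W z w * ‖Qm A W a z w‖ ^ 2) / mm A W w ^ 2 := by
    rw [hb, hβ, norm_mul, norm_mul, norm_mul, norm_kq hA he, Gc_symm hA c w z]
    have e1 : (Gc A U g e c w w).im = mm A W w := rfl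
    have e2 : KK A W z w = ‖Gc A U g e c z w‖ ^ 2 := rfl
    have e3 : ‖(2 : ℂ)‖ = 2 := by norm_num
    rw [e1, e2, e3]
    field_simp
    ring
  have hint : (‖b‖ ^ 2 / 130) / Mz ≤ ∫ x in (-1 : ℝ)..1,
      Ψ (Function.update c w (tx A U g e c w x)) / (1 + x ^ 2) := by
    have h1 := T0 α.re b.re b.im
    have h2 : ‖b‖ ^ 2 / 130 ≤ ∫ x in (-1 : ℝ)..1,
        (α.re + (b.re * x - b.im) / (1 + x ^ 2)) ^ 2 / (1 + x ^ 2) := by
      refine le_trans ?_ h1
      rw [← Complex.normSq_eq_norm_sq, Complex.normSq_apply]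
      nlinarith [sq_nonneg α.re]
    have hcont : Continuous fun x : ℝ =>
        (α.re + (b.re * x - b.im) / (1 + x ^ 2)) ^ 2 / (1 + x ^ 2) := by
      refine Continuous.div ?_ (by fun_prop) (fun x => (one_add_sq_pos x).ne')
      refine Continuous.pow ?_ 2
      exact continuous_const.add (Continuous.div (by fun_prop) (by fun_prop)
        (fun x => (one_add_sq_pos x).ne'))
    calc (‖b‖ ^ 2 / 130) / Mz
        ≤ (∫ x in (-1 : ℝ)..1, (α.re + (b.re * x - b.im) / (1 + x ^ 2)) ^ 2 / (1 + x ^ 2)) / Mz :=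
          div_le_div_of_nonneg_right h2 hMz0.le
      _ = ∫ x in (-1 : ℝ)..1,
          (α.re + (b.re * x - b.im) / (1 + x ^ 2)) ^ 2 / (1 + x ^ 2) / Mz := by
          rw [intervalIntegral.integral_div]
      _ ≤ _ := by
          refine intervalIntegral.integral_mono_on (by norm_num) ?_ ?_ ?_
          · exact (hcont.div_const _).intervalIntegrable _ _
          · rw [intervalIntegrable_iff_integrableOn_Ioc_of_le (by norm_num)]
            have hline : Measurable fun x : ℝ => tx A U g e c w x := by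
              unfold tx
              fun_prop
            refine Integrable.of_bound (Measurable.aestronglyMeasurable
              ((hm.comp ((measurable_upd_line c w).comp hline)).div (by fun_prop))) M
              (Filter.Eventually.of_forall fun x => ?_)
            have hxx := one_add_sq_pos x
            have hP := h0 (Function.update c w (tx A U g e c w x))
            have hP2 := hM (Function.update c w (tx A U g e c w x))
            rw [Real.norm_eq_abs, abs_of_nonneg (div_nonneg hP hxx.le), div_le_iff₀ hxx]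
            nlinarith [sq_nonneg x]
          · intro x _
            have hxx := one_add_sq_pos x
            rw [div_right_comm]
            refine div_le_div_of_nonneg_right ?_ hxx.le
            refine le_trans ?_ (hΨ (tx A U g e c w x))
            have hW' := Wc_neg (U := U) (g := g) he (Function.update c w (tx A U g e c w x))
            have e1 : ‖Tm A (Wc U g e (Function.update c w (tx A U g e c w x))) a z z‖ ^ 2 =
                (α.re + (b.re * x - b.im) / (1 + x ^ 2)) ^ 2 := by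
              rw [← hT x, Tm_self hA hW', Complex.norm_real, Real.norm_eq_abs, sq_abs,
                Complex.ofReal_re]
            unfold Ls
            rw [e1]
            refine div_le_div_of_nonneg_left (sq_nonneg _) (mm_pos hA hW' z) ?_
            exact im_update_le hA he c w z _
  have h2 := Iop_ge hA he hg hd hgood hm h0 hM
  have h3 : cst (g w) X0 d0 * ((‖b‖ ^ 2 / 130) / Mz) ≤ Iop A U g e w Ψ c :=
    (mul_le_mul_of_nonneg_left hint hcst.le).trans h2
  have e1 : (Gc A U g e c w w).im = mm A W w := rfl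
  rw [e1]
  have h4 : kp A W z w * ‖Qm A W a z w‖ ^ 2 =
      130 / (4 * cst (g w) X0 d0) * (mm A W w * (cst (g w) X0 d0 * ((‖b‖ ^ 2 / 130) / Mz))) := by
    have h5 : mm A W w * Mz = mm A W z * mm A W w + KK A W z w := by
      rw [hMz]
      field_simp
    rw [hbn, kp, ← h5]
    field_simp
  rw [h4]
  refine mul_le_mul_of_nonneg_left ?_ (by positivity)
  exact mul_le_mul_of_nonneg_left h3 hmw.le

/-! ### ST1 -/

/-- the set of environments in which `w` is good -/
def GS (A : Matrix ι ι ℝ) (U g e : ι → ℝ) (X0 d0 : ℝ) (w : ι) : Set (ι → ℝ) :=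
  {c | Good A U g e X0 d0 c w}

/-- the set of environments with `∑_{x∈B} e_x m_x ≤ L` -/
def SL (A : Matrix ι ι ℝ) (U g e : ι → ℝ) (B : Finset ι) (L : ℝ) : Set (ι → ℝ) :=
  {c | Sb A U g e e B c ≤ L}

theorem measurableSet_GS (X0 d0 : ℝ) (w : ι) : MeasurableSet (GS A U g e X0 d0 w) := by
  have h1 : MeasurableSet {c : ι → ℝ | |c w| ≤ X0} :=
    measurableSet_le (measurable_pi_apply w).abs measurable_const
  have h2 : MeasurableSet {c : ι → ℝ | d0 ≤ ‖Gc A U g e c w w‖} :=
    measurableSet_le measurable_const (measurable_Gc w w).norm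
  exact h1.inter h2

theorem measurableSet_SL (B : Finset ι) (L : ℝ) : MeasurableSet (SL A U g e B L) :=
  measurableSet_le (measurable_Sb e B) measurable_const

theorem SL_update (hA : A.IsSymm) (he : ∀ x, 0 < e x) {B : Finset ι} {L : ℝ} {c : ι → ℝ}
    (hc : c ∈ SL A U g e B L) (y : ι) (t : ℝ) :
    Function.update c y t ∈ SL A U g e B (L + 1) := by
  have h := shift_le_one (U := U) (g := g) hA he (fun x => (he x).le) (fun x => le_rfl) B c y t
  have h2 := (abs_le.1 h).2
  have h3 : Sb A U g e e B c ≤ L := hc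
  show Sb A U g e e B (Function.update c y t) ≤ L + 1
  unfold Sb at h3 ⊢
  linarith

/-- one-site form of ST1 -/
theorem ST1_site (hA : A.IsSymm) (he : ∀ x, 0 < e x) {w : ι} (hg : 0 < g w) {X0 d0 : ℝ}
    (hd : 0 < d0) (z : ι) (B : Finset ι) (L : ℝ) :
    ∫ c, (GS A U g e X0 d0 w ∩ SL A U g e B L).indicator
        (fun c => kp A (Wc U g e c) z w * ‖Qm A (Wc U g e c) a z w‖ ^ 2) c ∂(mu ι) ≤
      130 / (4 * cst (g w) X0 d0 * g w) *
        ∫ c, mm A (Wc U g e c) w * (SL A U g e B (L + 1)).indicator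
          (fun c => Ls A a z (Wc U g e c)) c ∂(mu ι) := by
  obtain ⟨M, hM0, hM⟩ := Ls_bounded (U := U) (g := g) hA he a
  set Ψ : (ι → ℝ) → ℝ := (SL A U g e B (L + 1)).indicator
    (fun c => Ls A a z (Wc U g e c)) with hΨ
  have hΨm : Measurable Ψ := (measurable_Ls z).indicator (measurableSet_SL B (L + 1))
  have hΨ0 : ∀ c, 0 ≤ Ψ c := fun c =>
    Set.indicator_nonneg (fun c _ => Ls_nonneg hA (Wc_neg he c) z) c
  have hΨM : ∀ c, Ψ c ≤ M := by
    intro c
    by_cases hc : c ∈ SL A U g e B (L + 1)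
    · rw [hΨ, Set.indicator_of_mem hc]; exact hM c z
    · rw [hΨ, Set.indicator_of_notMem hc]; exact hM0.le
  have hcst : 0 < cst (g w) X0 d0 := cst_pos hg
  have hint := integrable_im_mul (U := U) (g := g) hA he w
    (measurable_Iop (A := A) (U := U) (g := g) (e := e) w hΨm)
    (Iop_nonneg hA he w hΨ0) (Iop_le hA he hg hΨm hΨ0 hΨM)
  have hpt : ∀ c, (GS A U g e X0 d0 w ∩ SL A U g e B L).indicator
      (fun c => kp A (Wc U g e c) z w * ‖Qm A (Wc U g e c) a z w‖ ^ 2) c ≤
      130 / (4 * cst (g w) X0 d0) * ((Gc A U g e c w w).im * Iop A U g e w Ψ c) := by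
    intro c
    by_cases hc : c ∈ GS A U g e X0 d0 w ∩ SL A U g e B L
    · rw [Set.indicator_of_mem hc]
      refine T1 hA he hg hd hc.1 z hΨm hΨ0 hΨM fun t => ?_
      rw [hΨ, Set.indicator_of_mem (SL_update hA he hc.2 w t)]
    · rw [Set.indicator_of_notMem hc]
      exact mul_nonneg (by positivity) (mul_nonneg (im_pos hA he c w).le
        (Iop_nonneg hA he w hΨ0 c))
  calc ∫ c, (GS A U g e X0 d0 w ∩ SL A U g e B L).indicator
        (fun c => kp A (Wc U g e c) z w * ‖Qm A (Wc U g e c) a z w‖ ^ 2) c ∂(mu ι)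
      ≤ ∫ c, 130 / (4 * cst (g w) X0 d0) * ((Gc A U g e c w w).im * Iop A U g e w Ψ c)
          ∂(mu ι) := by
        refine integral_mono_of_nonneg (Filter.Eventually.of_forall fun c => ?_)
          (hint.const_mul _) (Filter.Eventually.of_forall hpt)
        exact Set.indicator_nonneg (fun c _ => mul_nonneg (kp_nonneg hA (Wc_neg he c) z w)
          (sq_nonneg _)) c
    _ = 130 / (4 * cst (g w) X0 d0) *
          ∫ c, (Gc A U g e c w w).im * Iop A U g e w Ψ c ∂(mu ι) := integral_const_mul _ _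
    _ ≤ 130 / (4 * cst (g w) X0 d0) *
          (1 / g w * ∫ c, (Gc A U g e c w w).im * Ψ c ∂(mu ι)) :=
        mul_le_mul_of_nonneg_left (resample hA he hg hΨm hΨ0 hΨM) (by positivity)
    _ = 130 / (4 * cst (g w) X0 d0 * g w) *
          ∫ c, mm A (Wc U g e c) w * Ψ c ∂(mu ι) := by
        have : ∀ c, (Gc A U g e c w w).im = mm A (Wc U g e c) w := fun c => rfl
        simp only [this]
        rw [← mul_assoc]
        congr 1
        field_simp

/-- (ST1): sum over `w ∈ B` with a common noise scale `G` on `B` -/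
theorem ST1 (hA : A.IsSymm) (he : ∀ x, 0 < e x) {G : ℝ} (hG : 0 < G) {X0 d0 : ℝ}
    (hd : 0 < d0) (z : ι) (B : Finset ι) (hg : ∀ w ∈ B, g w = G) {L : ℝ} (hL : 0 ≤ L) :
    ∑ w ∈ B, e w * ∫ c, (GS A U g e X0 d0 w ∩ SL A U g e B L).indicator
        (fun c => kp A (Wc U g e c) z w * ‖Qm A (Wc U g e c) a z w‖ ^ 2) c ∂(mu ι) ≤
      130 / (4 * cst G X0 d0 * G) * (L + 1) *
        ∫ c, Ls A a z (Wc U g e c) ∂(mu ι) := by
  obtain ⟨M, hM0, hM⟩ := Ls_bounded (U := U) (g := g) hA he a
  have hcst : 0 < cst G X0 d0 := cst_pos hG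
  set Ψ : (ι → ℝ) → ℝ := (SL A U g e B (L + 1)).indicator
    (fun c => Ls A a z (Wc U g e c)) with hΨ
  have hΨm : Measurable Ψ := (measurable_Ls z).indicator (measurableSet_SL B (L + 1))
  have hΨ0 : ∀ c, 0 ≤ Ψ c := fun c =>
    Set.indicator_nonneg (fun c _ => Ls_nonneg hA (Wc_neg he c) z) c
  have hΨM : ∀ c, Ψ c ≤ M := by
    intro c
    by_cases hc : c ∈ SL A U g e B (L + 1)
    · rw [hΨ, Set.indicator_of_mem hc]; exact hM c z
    · rw [hΨ, Set.indicator_of_notMem hc]; exact hM0.le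
  have hLsi : Integrable (fun c => Ls A a z (Wc U g e c)) (mu ι) := by
    refine Integrable.of_bound (measurable_Ls z).aestronglyMeasurable M
      (Filter.Eventually.of_forall fun c => ?_)
    rw [Real.norm_eq_abs, abs_of_nonneg (Ls_nonneg hA (Wc_neg he c) z)]
    exact hM c z
  have hint : ∀ w, Integrable (fun c => mm A (Wc U g e c) w * Ψ c) (mu ι) := fun w =>
    integrable_im_mul hA he w hΨm hΨ0 hΨM
  have h1 : ∀ w ∈ B, e w * ∫ c, (GS A U g e X0 d0 w ∩ SL A U g e B L).indicator
        (fun c => kp A (Wc U g e c) z w * ‖Qm A (Wc U g e c) a z w‖ ^ 2) c ∂(mu ι) ≤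
      130 / (4 * cst G X0 d0 * G) * ∫ c, e w * (mm A (Wc U g e c) w * Ψ c) ∂(mu ι) := by
    intro w hw
    have h2 := ST1_site (U := U) (g := g) (a := a) (X0 := X0) hA he
      (w := w) (by rw [hg w hw]; exact hG) hd z B L
    rw [hg w hw] at h2
    calc e w * _ ≤ e w * (130 / (4 * cst G X0 d0 * G) *
          ∫ c, mm A (Wc U g e c) w * Ψ c ∂(mu ι)) := mul_le_mul_of_nonneg_left h2 (he w).le
      _ = _ := by rw [integral_const_mul]; ring
  refine (Finset.sum_le_sum h1).trans ?_
  rw [← Finset.mul_sum, ← integral_finsetSum B fun w _ => (hint w).const_mul _]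
  have hK0 : 0 ≤ 130 / (4 * cst G X0 d0 * G) := by positivity
  have hre : 130 / (4 * cst G X0 d0 * G) * (L + 1) * ∫ c, Ls A a z (Wc U g e c) ∂(mu ι) =
      130 / (4 * cst G X0 d0 * G) * ∫ c, (L + 1) * Ls A a z (Wc U g e c) ∂(mu ι) := by
    rw [integral_const_mul]; ring
  rw [hre]
  refine mul_le_mul_of_nonneg_left ?_ hK0
  refine integral_mono (integrable_finsetSum B fun w _ => (hint w).const_mul _)
    (hLsi.const_mul _) fun c => ?_
  show ∑ w ∈ B, e w * (mm A (Wc U g e c) w * Ψ c) ≤ (L + 1) * Ls A a z (Wc U g e c)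
  have h3 : ∑ w ∈ B, e w * (mm A (Wc U g e c) w * Ψ c) = Sb A U g e e B c * Ψ c := by
    unfold Sb
    rw [Finset.sum_mul]
    refine Finset.sum_congr rfl fun w _ => ?_
    have : mm A (Wc U g e c) w = (Gc A U g e c w w).im := rfl
    rw [this]
    ring
  rw [h3]
  have hL0 := Ls_nonneg (a := a) hA (Wc_neg (U := U) (g := g) he c) z
  by_cases hc : c ∈ SL A U g e B (L + 1)
  · rw [hΨ, Set.indicator_of_mem hc]
    exact mul_le_mul_of_nonneg_right hc hL0
  · rw [hΨ, Set.indicator_of_notMem hc, mul_zero]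
    positivity

end P365L.Stat
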