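import Vale.Agent.P365.Stat.KickPt
import Vale.Agent.P365.L1.Near

/-!
# P365, static theorem, (T2) pointwise: among five separated real kicks at a site `y`, one keeps
`G_zw`, `G_ww` and `T_zw` comparable with their natural sizes.
-/

set_option linter.all false

namespace P365L.Stat

open Matrix Complex
open scoped ComplexConjugate

/-- the five sample points of the window -/
noncomputable def tj (g : ℂ) (j : Fin 5) (u : ℝ) : ℝ :=
  -(g⁻¹).re + bet g * (-1 + 3 / 8 * ((j : ℕ) : ℝ) + u)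

theorem fin5_le (j : Fin 5) : ((j : ℕ) : ℝ) ≤ 4 := by
  have h : (j : ℕ) ≤ 4 := by have := j.2; omega
  exact_mod_cast h

theorem tj_window {g : ℂ} (hg : 0 < g.im) (j : Fin 5) {u : ℝ} (h0 : 0 ≤ u) (h1 : u ≤ 1 / 4) :
    |tj g j u + (g⁻¹).re| ≤ bet g := by
  have hb := bet_pos hg
  have hj := fin5_le j
  have hj0 : (0 : ℝ) ≤ ((j : ℕ) : ℝ) := Nat.cast_nonneg _
  have e : tj g j u + (g⁻¹).re = bet g * (-1 + 3 / 8 * ((j : ℕ) : ℝ) + u) := by
    rw [tj]; ring
  rw [e, abs_mul, abs_of_pos hb]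
  have h : |(-1 + 3 / 8 * ((j : ℕ) : ℝ) + u)| ≤ 1 := by
    rw [abs_le]; constructor <;> nlinarith
  calc bet g * |(-1 + 3 / 8 * ((j : ℕ) : ℝ) + u)| ≤ bet g * 1 :=
        mul_le_mul_of_nonneg_left h hb.le
    _ = bet g := mul_one _

theorem tj_sep {g : ℂ} (hg : 0 < g.im) {j k : Fin 5} (hjk : j ≠ k) (u : ℝ) :
    3 / 8 * bet g ≤ |tj g j u - tj g k u| := by
  have hb := bet_pos hg
  have e : tj g j u - tj g k u = bet g * (3 / 8) * (((j : ℕ) : ℝ) - ((k : ℕ) : ℝ)) := by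
    rw [tj, tj]; ring
  rw [e, abs_mul, abs_of_pos (by positivity)]
  have h : (1 : ℝ) ≤ |(((j : ℕ) : ℝ) - ((k : ℕ) : ℝ))| := by
    have h1 : ((j : ℕ) : ℤ) - ((k : ℕ) : ℤ) ≠ 0 := by
      intro h2
      apply hjk
      apply Fin.ext
      omega
    have h3 : (1 : ℤ) ≤ |((j : ℕ) : ℤ) - ((k : ℕ) : ℤ)| := Int.one_le_abs h1
    have h4 : ((1 : ℤ) : ℝ) ≤ ((|((j : ℕ) : ℤ) - ((k : ℕ) : ℤ)| : ℤ) : ℝ) := by exact_mod_cast h3
    push_cast at h4
    exact h4
  nlinarith [mul_le_mul_of_nonneg_left h (show (0 : ℝ) ≤ bet g * (3 / 8) by positivity)]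

/-- at most one of the five points is bad for the amplitude of an affine function -/
theorem amp_bad {g : ℂ} (hg : 0 < g.im) {X Y : ℂ} {j k : Fin 5} {u : ℝ} (h0 : 0 ≤ u)
    (h1 : u ≤ 1 / 4) (hj : 22 * ‖X - th g (tj g j u) * Y‖ < ‖Y‖ / g.im)
    (hk : 22 * ‖X - th g (tj g k u) * Y‖ < ‖Y‖ / g.im) : j = k := by
  by_contra hjk
  have h := (two_pt hg (X := X) (Y := Y) (M := max ‖X - th g (tj g j u) * Y‖
    ‖X - th g (tj g k u) * Y‖) (tj_window hg j h0 h1) (tj_window hg k h0 h1) (tj_sep hg hjk u)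
    (le_max_left _ _) (le_max_right _ _)).2
  rcases max_choice ‖X - th g (tj g j u) * Y‖ ‖X - th g (tj g k u) * Y‖ with h2 | h2 <;>
    rw [h2] at h <;> linarith

/-- at most one of the five points is bad for the value of an affine function -/
theorem val_bad {g : ℂ} (hg : 0 < g.im) {X Y : ℂ} {j k : Fin 5} {u : ℝ} (h0 : 0 ≤ u)
    (h1 : u ≤ 1 / 4) (hj : 22 * ‖X - th g (tj g j u) * Y‖ < ‖X‖)
    (hk : 22 * ‖X - th g (tj g k u) * Y‖ < ‖X‖) : j = k := by
  by_contra hjk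
  have h := (two_pt hg (X := X) (Y := Y) (M := max ‖X - th g (tj g j u) * Y‖
    ‖X - th g (tj g k u) * Y‖) (tj_window hg j h0 h1) (tj_window hg k h0 h1) (tj_sep hg hjk u)
    (le_max_left _ _) (le_max_right _ _)).1
  rcases max_choice ‖X - th g (tj g j u) * Y‖ ‖X - th g (tj g k u) * Y‖ with h2 | h2 <;>
    rw [h2] at h <;> linarith

/-- no three of the five points are bad for the value of `T - θ X - conj θ Y` -/
theorem quad_bad {g : ℂ} (hg : 0 < g.im) {T X Y : ℂ} {i j k : Fin 5} {u : ℝ} (h0 : 0 ≤ u)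
    (h1 : u ≤ 1 / 4) (hij : i ≠ j) (hik : i ≠ k) (hjk : j ≠ k)
    (hi : 86 * ‖T - th g (tj g i u) * X - conj (th g (tj g i u)) * Y‖ < ‖T‖)
    (hj : 86 * ‖T - th g (tj g j u) * X - conj (th g (tj g j u)) * Y‖ < ‖T‖)
    (hk : 86 * ‖T - th g (tj g k u) * X - conj (th g (tj g k u)) * Y‖ < ‖T‖) : False := by
  set a := ‖T - th g (tj g i u) * X - conj (th g (tj g i u)) * Y‖ with ha
  set b := ‖T - th g (tj g j u) * X - conj (th g (tj g j u)) * Y‖ with hb
  set c := ‖T - th g (tj g k u) * X - conj (th g (tj g k u)) * Y‖ with hc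
  have h := three_pt_val hg (T := T) (X := X) (Y := Y) (M := max a (max b c))
    (tj_window hg i h0 h1) (tj_window hg j h0 h1) (tj_window hg k h0 h1) (tj_sep hg hij u)
    (tj_sep hg hik u) (tj_sep hg hjk u) (le_max_left _ _)
    ((le_max_left _ _).trans (le_max_right _ _)) ((le_max_right _ _).trans (le_max_right _ _))
  rcases max_choice a (max b c) with h2 | h2
  · rw [h2] at h; linarith
  · rw [h2] at h
    rcases max_choice b c with h3 | h3 <;> rw [h3] at h <;> linarith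

theorem five_comb (P Q R : Fin 5 → Prop) (hP : ∀ a b, P a → P b → a = b)
    (hQ : ∀ a b, Q a → Q b → a = b)
    (hR : ∀ a b c, a ≠ b → a ≠ c → b ≠ c → R a → R b → R c → False) :
    ∃ j, ¬P j ∧ ¬Q j ∧ ¬R j := by
  classical
  have c1 : (Finset.univ.filter P).card ≤ 1 := Finset.card_le_one.2 fun a ha b hb =>
    hP a b (Finset.mem_filter.1 ha).2 (Finset.mem_filter.1 hb).2
  have c2 : (Finset.univ.filter Q).card ≤ 1 := Finset.card_le_one.2 fun a ha b hb =>
    hQ a b (Finset.mem_filter.1 ha).2 (Finset.mem_filter.1 hb).2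
  have c3 : (Finset.univ.filter R).card ≤ 2 := by
    by_contra hc
    push Not at hc
    obtain ⟨a, ha, b, hb, c, hcc, hab, hac, hbc⟩ := Finset.two_lt_card.1 hc
    exact hR a b c hab hac hbc (Finset.mem_filter.1 ha).2 (Finset.mem_filter.1 hb).2
      (Finset.mem_filter.1 hcc).2
  by_contra hc
  push Not at hc
  have h1 : (Finset.univ : Finset (Fin 5)) ⊆
      Finset.univ.filter P ∪ (Finset.univ.filter Q ∪ Finset.univ.filter R) := by
    intro j _
    by_cases h1 : P j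
    · exact Finset.mem_union_left _ (Finset.mem_filter.2 ⟨Finset.mem_univ _, h1⟩)
    · by_cases h2 : Q j
      · exact Finset.mem_union_right _ (Finset.mem_union_left _
          (Finset.mem_filter.2 ⟨Finset.mem_univ _, h2⟩))
      · exact Finset.mem_union_right _ (Finset.mem_union_right _
          (Finset.mem_filter.2 ⟨Finset.mem_univ _, hc j h1 h2⟩))
  have h2 := Finset.card_le_card h1
  have h3 := Finset.card_union_le (Finset.univ.filter P)
    (Finset.univ.filter Q ∪ Finset.univ.filter R)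
  have h4 := Finset.card_union_le (Finset.univ.filter Q) (Finset.univ.filter R)
  rw [Finset.card_univ, Fintype.card_fin] at h2
  omega

/-- one of the five points is good for everything -/
theorem five_good {g : ℂ} (hg : 0 < g.im) (X1 Y1 X2 Y2 T X Y : ℂ) {u : ℝ} (h0 : 0 ≤ u)
    (h1 : u ≤ 1 / 4) : ∃ j : Fin 5,
      ‖Y1‖ / g.im ≤ 22 * ‖X1 - th g (tj g j u) * Y1‖ ∧
      ‖X2‖ ≤ 22 * ‖X2 - th g (tj g j u) * Y2‖ ∧
      ‖T‖ ≤ 86 * ‖T - th g (tj g j u) * X - conj (th g (tj g j u)) * Y‖ := by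
  obtain ⟨j, a1, a2, a3⟩ := five_comb
    (fun j => 22 * ‖X1 - th g (tj g j u) * Y1‖ < ‖Y1‖ / g.im)
    (fun j => 22 * ‖X2 - th g (tj g j u) * Y2‖ < ‖X2‖)
    (fun j => 86 * ‖T - th g (tj g j u) * X - conj (th g (tj g j u)) * Y‖ < ‖T‖)
    (fun a b ha hb => amp_bad hg h0 h1 ha hb) (fun a b ha hb => val_bad hg h0 h1 ha hb)
    (fun a b c hab hac hbc ha hb hc => quad_bad hg h0 h1 hab hac hbc ha hb hc)
  exact ⟨j, not_lt.1 a1, not_lt.1 a2, not_lt.1 a3⟩

variable {ι : Type*} [Fintype ι] [DecidableEq ι]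
variable {A : Matrix ι ι ℝ} {W : ι → ℂ} {a : ι → ℝ}

theorem Gr_self_im_pos (hA : A.IsSymm) (hW : ∀ x, (W x).im < 0) (y : ι) :
    0 < (Gr A W y y).im := mm_pos hA hW y

/-- a real kick at `y` changes `m_z` by at most `K_zy/m_y` -/
theorem mm_upd_le (hA : A.IsSymm) (hW : ∀ x, (W x).im < 0) (y : ι) (t : ℝ) (z : ι) :
    mm A (Function.update W y (W y + t)) z ≤ mm A W z + KK A W z y / mm A W y := by
  have hm := mm_pos hA hW y
  rw [mm_upd_real hA hW y t z]
  have h1 : -(th (Gr A W y y) t * Gr A W z y ^ 2).im ≤ KK A W z y / mm A W y := by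
    refine ((neg_le_abs _).trans (Complex.abs_im_le_norm _)).trans ?_
    rw [norm_mul, norm_pow, le_div_iff₀ hm, KK]
    have h2 := th_norm_le (Gr_self_im_pos hA hW y) t
    calc ‖th (Gr A W y y) (t : ℂ)‖ * ‖Gr A W z y‖ ^ 2 * mm A W y
        = (‖th (Gr A W y y) (t : ℂ)‖ * (Gr A W y y).im) * ‖Gr A W z y‖ ^ 2 := by
          rw [mm]; ring
      _ ≤ 1 * ‖Gr A W z y‖ ^ 2 := mul_le_mul_of_nonneg_right h2 (by positivity)
      _ = ‖Gr A W z y‖ ^ 2 := one_mul _
  linarith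

theorem upd_neg_real (hW : ∀ x, (W x).im < 0) (y : ι) (t : ℝ) (x : ι) :
    (Function.update W y (W y + (t : ℂ)) x).im < 0 := by
  refine upd_neg hW y (t : ℂ) ?_ x
  rw [Complex.add_im, Complex.ofReal_im, add_zero]
  exact hW y

/-- **(T2), pointwise.** -/
theorem T2_pt (hA : A.IsSymm) (hW : ∀ x, (W x).im < 0) (y z w : ι) {u : ℝ} (h0 : 0 ≤ u)
    (h1 : u ≤ 1 / 4) : ∃ j : Fin 5,
      kap A W z y * kap A W y w * ‖Tm A W a z w‖ ^ 2 ≤
        7159328 * (kap A (Function.update W y (W y + (tj (Gr A W y y) j u : ℝ))) z w *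
          ‖Tm A (Function.update W y (W y + (tj (Gr A W y y) j u : ℝ))) a z w‖ ^ 2) ∧
      ‖Gr A W w w‖ ≤
        22 * ‖Gr A (Function.update W y (W y + (tj (Gr A W y y) j u : ℝ))) w w‖ := by
  have hg := Gr_self_im_pos hA hW y
  obtain ⟨j, e1, e2, e3⟩ := five_good hg (Gr A W z w) (Gr A W z y * Gr A W y w) (Gr A W w w)
    (Gr A W w y * Gr A W y w) (Tm A W a z w) (Qm A W a z y * Gr A W y w)
    (conj (Gr A W z y) * conj (Qm A W a w y)) h0 h1
  refine ⟨j, ?_, ?_⟩
  swap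
  · have ht : (W y + ((tj (Gr A W y y) j u : ℝ) : ℂ)).im < 0 := by
      rw [Complex.add_im, Complex.ofReal_im, add_zero]
      exact hW y
    rw [Gr_upd hA hW y _ ht w w]
    have : Gr A W w w - th (Gr A W y y) ((tj (Gr A W y y) j u : ℝ) : ℂ) * Gr A W w y * Gr A W y w =
        Gr A W w w - th (Gr A W y y) ((tj (Gr A W y y) j u : ℝ) : ℂ) *
          (Gr A W w y * Gr A W y w) := by ring
    rw [this]
    exact e2
  set τ : ℝ := tj (Gr A W y y) j u with hτ
  set W' := Function.update W y (W y + (τ : ℂ)) with hW'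
  have hWn : ∀ x, (W' x).im < 0 := upd_neg_real hW y τ
  have ht : (W y + (τ : ℂ)).im < 0 := by
    rw [Complex.add_im, Complex.ofReal_im, add_zero]
    exact hW y
  have f1 : Gr A W' z w = Gr A W z w - th (Gr A W y y) (τ : ℂ) *
      (Gr A W z y * Gr A W y w) := by
    rw [hW', Gr_upd hA hW y _ ht z w]; ring
  have f3 : Tm A W' a z w = Tm A W a z w - th (Gr A W y y) (τ : ℂ) *
      (Qm A W a z y * Gr A W y w) - conj (th (Gr A W y y) (τ : ℂ)) *
      (conj (Gr A W z y) * conj (Qm A W a w y)) := by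
    rw [hW', Tm_upd_real hA hW y τ z w]; ring
  rw [← f1] at e1
  rw [← f3] at e3
  have my := mm_pos hA hW y
  have mz := mm_pos hA hW z
  have mw := mm_pos hA hW w
  have mz' := mm_pos hA hWn z
  have mw' := mm_pos hA hWn w
  have gz := mm_upd_le hA hW y τ z
  have gw := mm_upd_le hA hW y τ w
  rw [← hW'] at gz gw
  set kz := KK A W z y with hkz
  set kw := KK A W w y with hkw
  have kz0 : 0 ≤ kz := KK_nonneg z y
  have kw0 : 0 ≤ kw := KK_nonneg w y
  set m := mm A W y with hm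
  set K' := KK A W' z w with hK'
  have K'0 : 0 ≤ K' := KK_nonneg z w
  set D := (mm A W z + kz / m) * (mm A W w + kw / m) with hD
  have hDpos : 0 < D := by positivity
  have h_mm : mm A W' z * mm A W' w ≤ D := mul_le_mul gz gw mw'.le (by positivity)
  set Y := kz * kw / m ^ 2 with hY
  have hY0 : 0 ≤ Y := by positivity
  have hYD : Y ≤ D := by
    have : Y = (kz / m) * (kw / m) := by rw [hY]; field_simp
    rw [this, hD]
    have a1 : 0 ≤ kz / m := by positivity
    have a2 : 0 ≤ kw / m := by positivity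
    nlinarith
  have hK'Y : Y ≤ 484 * K' := by
    have e4 : (‖Gr A W z y * Gr A W y w‖ / (Gr A W y y).im) ^ 2 ≤ (22 * ‖Gr A W' z w‖) ^ 2 :=
      pow_le_pow_left₀ (by positivity) e1 2
    have e5 : (‖Gr A W z y * Gr A W y w‖ / (Gr A W y y).im) ^ 2 = Y := by
      rw [hY, hkz, hkw, hm, KK, KK, mm, norm_mul, Gr_symm hA y w, div_pow, mul_pow]
    rw [e5, mul_pow] at e4
    rw [hK', KK]
    linarith
  -- the product of the kappas
  have hkk : kap A W z y * kap A W y w = Y / D := by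
    rw [kap, kap, ← hkz, KK_symm hA y w, ← hkw, ← hm, hY, hD]
    have b1 : mm A W z * m + kz ≠ 0 := by positivity
    have b2 : m * mm A W w + kw ≠ 0 := by positivity
    have b3 : mm A W z + kz / m = (mm A W z * m + kz) / m := by field_simp
    have b4 : mm A W w + kw / m = (m * mm A W w + kw) / m := by field_simp
    rw [b3, b4]
    field_simp
  have hk' : Y / D ≤ 968 * kap A W' z w := by
    rw [kap, ← hK']
    have hden : 0 < mm A W' z * mm A W' w + K' := by positivity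
    rw [mul_div_assoc', div_le_div_iff₀ hDpos hden]
    -- Y * (m'm' + K') ≤ 968 K' D
    have c1 : Y * (mm A W' z * mm A W' w) ≤ 484 * K' * D :=
      mul_le_mul hK'Y h_mm (by positivity) (by positivity)
    have c2 : Y * K' ≤ D * K' := mul_le_mul_of_nonneg_right hYD K'0
    nlinarith [mul_nonneg hDpos.le K'0]
  have hT : ‖Tm A W a z w‖ ^ 2 ≤ 7396 * ‖Tm A W' a z w‖ ^ 2 := by
    have := pow_le_pow_left₀ (norm_nonneg _) e3 2
    rw [mul_pow] at this
    linarith
  have hkap0 := kap_nonneg hA hWn z w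
  rw [hkk]
  calc Y / D * ‖Tm A W a z w‖ ^ 2
      ≤ (968 * kap A W' z w) * (7396 * ‖Tm A W' a z w‖ ^ 2) :=
        mul_le_mul hk' hT (by positivity) (by positivity)
    _ ≤ 7159328 * (kap A W' z w * ‖Tm A W' a z w‖ ^ 2) := by
        nlinarith [mul_nonneg hkap0 (sq_nonneg ‖Tm A W' a z w‖)]

end P365L.Stat
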