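import Vale.Agent.P365.Stat.T2a
import Vale.Agent.P365.Stat.One

/-!
# P365, static theorem, (T2): integrated form.
-/

set_option linter.all false

namespace P365L.Stat

open MeasureTheory ProbabilityTheory Complex Set P365L P365L.Poi
open scoped ComplexConjugate Real

theorem ii_of_bdd {f : ℝ → ℝ} (hm : Measurable f) (h0 : ∀ x, 0 ≤ f x) {M : ℝ}
    (hM : ∀ x, f x ≤ M) (a b : ℝ) : IntervalIntegrable f volume a b := by
  have key : ∀ a b : ℝ, a ≤ b → IntervalIntegrable f volume a b := by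
    intro a b hab
    rw [intervalIntegrable_iff_integrableOn_Ioc_of_le hab]
    refine Integrable.of_bound hm.aestronglyMeasurable M (Filter.Eventually.of_forall fun x => ?_)
    rw [Real.norm_eq_abs, abs_of_nonneg (h0 x)]
    exact hM x
  rcases le_total a b with hab | hab
  · exact key a b hab
  · exact (key b a hab).symm

theorem five_int {f : ℝ → ℝ} (hm : Measurable f) (h0 : ∀ x, 0 ≤ f x) {M : ℝ}
    (hM : ∀ x, f x ≤ M) {m : ℝ}
    (h : ∀ u, 0 ≤ u → u ≤ 1 / 4 → ∃ j : Fin 5, m ≤ f (-1 + 3 / 8 * ((j : ℕ) : ℝ) + u)) :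
    m / 4 ≤ ∫ x in (-1 : ℝ)..1, f x := by
  have ii := ii_of_bdd hm h0 hM
  have hshift : ∀ j : Fin 5, IntervalIntegrable
      (fun u => f (-1 + 3 / 8 * ((j : ℕ) : ℝ) + u)) volume 0 (1 / 4) := fun j =>
    ii_of_bdd (hm.comp (measurable_const.add measurable_id)) (fun _ => h0 _) (fun _ => hM _) _ _
  have h1 : m / 4 ≤ ∫ u in (0 : ℝ)..(1 / 4), ∑ j : Fin 5, f (-1 + 3 / 8 * ((j : ℕ) : ℝ) + u) := by
    have h2 : ∫ u in (0 : ℝ)..(1 / 4), m = m / 4 := by
      rw [intervalIntegral.integral_const, smul_eq_mul]; ring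
    rw [← h2]
    refine intervalIntegral.integral_mono_on (by norm_num) (by simp)
      (by
        have := IntervalIntegrable.sum Finset.univ fun j (_ : j ∈ Finset.univ) => hshift j
        rw [Finset.sum_fn] at this
        exact this) fun u hu => ?_
    obtain ⟨j, hj⟩ := h u hu.1 hu.2
    exact hj.trans (Finset.single_le_sum (f := fun j : Fin 5 =>
      f (-1 + 3 / 8 * ((j : ℕ) : ℝ) + u)) (fun k _ => h0 _) (Finset.mem_univ j))
  refine h1.trans ?_
  rw [intervalIntegral.integral_finset_sum fun j _ => hshift j]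
  have h3 : ∀ j : Fin 5, ∫ u in (0 : ℝ)..(1 / 4), f (-1 + 3 / 8 * ((j : ℕ) : ℝ) + u) =
      ∫ x in (-1 + 3 / 8 * ((j : ℕ) : ℝ))..(-1 + 3 / 8 * ((j : ℕ) : ℝ) + 1 / 4), f x := by
    intro j
    rw [intervalIntegral.integral_comp_add_left (fun x => f x)]
    rw [add_zero]
  simp only [h3, Fin.sum_univ_five]
  have nn : ∀ a b : ℝ, a ≤ b → 0 ≤ ∫ x in a..b, f x := fun a b hab =>
    intervalIntegral.integral_nonneg hab fun x _ => h0 x
  have add : ∀ a b c : ℝ, ∫ x in a..c, f x = (∫ x in a..b, f x) + ∫ x in b..c, f x :=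
    fun a b c => (intervalIntegral.integral_add_adjacent_intervals (ii a b) (ii b c)).symm
  have e0 : (-1 + 3 / 8 * (((0 : Fin 5) : ℕ) : ℝ)) = (-1 : ℝ) := by simp
  have e1 : (-1 + 3 / 8 * (((1 : Fin 5) : ℕ) : ℝ)) = (-5 / 8 : ℝ) := by
    norm_num
  have e2 : (-1 + 3 / 8 * (((2 : Fin 5) : ℕ) : ℝ)) = (-1 / 4 : ℝ) := by
    norm_num
  have e3 : (-1 + 3 / 8 * (((3 : Fin 5) : ℕ) : ℝ)) = (1 / 8 : ℝ) := by
    norm_num
  have e4 : (-1 + 3 / 8 * (((4 : Fin 5) : ℕ) : ℝ)) = (1 / 2 : ℝ) := by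
    norm_num
  rw [e0, e1, e2, e3, e4]
  rw [add (-1) (-1 + 1 / 4) 1, add (-1 + 1 / 4) (-5 / 8) 1, add (-5 / 8) (-5 / 8 + 1 / 4) 1,
    add (-5 / 8 + 1 / 4) (-1 / 4) 1, add (-1 / 4) (-1 / 4 + 1 / 4) 1,
    add (-1 / 4 + 1 / 4) (1 / 8) 1, add (1 / 8) (1 / 8 + 1 / 4) 1,
    add (1 / 8 + 1 / 4) (1 / 2) 1, add (1 / 2) (1 / 2 + 1 / 4) 1]
  have n1 := nn (-1 + 1 / 4) (-5 / 8) (by norm_num)
  have n2 := nn (-5 / 8 + 1 / 4) (-1 / 4) (by norm_num)
  have n3 := nn (-1 / 4 + 1 / 4) (1 / 8) (by norm_num)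
  have n4 := nn (1 / 8 + 1 / 4) (1 / 2) (by norm_num)
  have n5 := nn (1 / 2 + 1 / 4) 1 (by norm_num)
  linarith

variable {ι : Type*} [Fintype ι] [DecidableEq ι]
variable {A : Matrix ι ι ℝ} {U g e : ι → ℝ} {a : ι → ℝ}

/-! ### measurability and bounds of the observables -/

theorem measurable_KKc (z w : ι) : Measurable fun c => KK A (Wc U g e c) z w :=
  (measurable_Gc z w).norm.pow_const 2

theorem measurable_mmc (z : ι) : Measurable fun c => mm A (Wc U g e c) z := measurable_im_Gc z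

theorem measurable_kapc (z w : ι) : Measurable fun c => kap A (Wc U g e c) z w :=
  (measurable_KKc z w).div (((measurable_mmc z).mul (measurable_mmc w)).add (measurable_KKc z w))

theorem measurable_Tmc (hA : A.IsSymm) (he : ∀ x, 0 < e x) (z w : ι) :
    Measurable fun c => Tm A (Wc U g e c) a z w := by
  have h : ∀ c, Tm A (Wc U g e c) a z w =
      (I / 2) * (a z * Gc A U g e c z w - conj (Gc A U g e c z w) * a w) +
      ∑ y, ((e y : ℝ) : ℂ) * (conj (Gc A U g e c z y) * a y * Gc A U g e c y w) := by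
    intro c
    rw [Tm_apply hA (Wc_neg he c)]
    have : ∀ y, (-(Wc U g e c y).im) = e y := fun y => by rw [Wc_im, neg_neg]
    simp only [this]
    rfl
  simp only [h]
  have hc : ∀ p q : ι, Measurable fun c => conj (Gc A U g e c p q) := fun p q =>
    Complex.continuous_conj.measurable.comp (measurable_Gc p q)
  refine Measurable.add ?_ ?_
  · exact ((((measurable_Gc z w).const_mul _).sub ((hc z w).mul_const _))).const_mul _
  · refine Finset.measurable_sum _ fun y _ => ?_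
    exact ((((hc z y).mul_const _).mul (measurable_Gc y w))).const_mul _

theorem bdd_Tmc (hA : A.IsSymm) (he : ∀ x, 0 < e x) (z w : ι) :
    ∃ M : ℝ, 0 ≤ M ∧ ∀ c, ‖Tm A (Wc U g e c) a z w‖ ≤ M := by
  obtain ⟨η, hη, hle⟩ := exists_lower he
  have hG : ∀ c (p q : ι), ‖Gc A U g e c p q‖ ≤ 1 / η := fun c p q => norm_Gc_le hA hη hle c p q
  have hη0 : (0 : ℝ) ≤ 1 / η := by positivity
  refine ⟨1 / 2 * (|a z| * (1 / η) + (1 / η) * |a w|) +
    ∑ y, e y * ((1 / η) * |a y| * (1 / η)), ?_, fun c => ?_⟩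
  · have : ∀ y, 0 ≤ e y * ((1 / η) * |a y| * (1 / η)) := fun y => by
      have := (he y).le; positivity
    have := Finset.sum_nonneg fun y (_ : y ∈ Finset.univ) => this y
    positivity
  rw [Tm_apply hA (Wc_neg he c)]
  refine (norm_add_le _ _).trans (add_le_add ?_ ?_)
  · rw [norm_mul]
    have h1 : ‖(I / 2 : ℂ)‖ = 1 / 2 := by simp
    rw [h1]
    refine mul_le_mul_of_nonneg_left ?_ (by norm_num)
    refine (norm_sub_le _ _).trans (add_le_add ?_ ?_)
    · rw [norm_mul, Complex.norm_real, Real.norm_eq_abs]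
      exact mul_le_mul_of_nonneg_left (hG c z w) (abs_nonneg _)
    · rw [norm_mul, Complex.norm_real, Real.norm_eq_abs, RCLike.norm_conj]
      exact mul_le_mul_of_nonneg_right (hG c z w) (abs_nonneg _)
  · refine (norm_sum_le _ _).trans (Finset.sum_le_sum fun y _ => ?_)
    rw [Wc_im, neg_neg, norm_mul, norm_mul, norm_mul, Complex.norm_real, Complex.norm_real,
      Real.norm_eq_abs, Real.norm_eq_abs, abs_of_pos (he y), RCLike.norm_conj]
    refine mul_le_mul_of_nonneg_left ?_ (he y).le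
    exact mul_le_mul (mul_le_mul_of_nonneg_right (hG c z y) (abs_nonneg _)) (hG c y w)
      (norm_nonneg _) (by positivity)

theorem measurableSet_Good (X0 d0 : ℝ) (w : ι) :
    MeasurableSet {c | Good A U g e X0 d0 c w} := by
  have h1 : MeasurableSet {c : ι → ℝ | |c w| ≤ X0} :=
    measurableSet_le (measurable_pi_apply w).abs measurable_const
  have h2 : MeasurableSet {c : ι → ℝ | d0 ≤ ‖Gc A U g e c w w‖} :=
    measurableSet_le measurable_const (measurable_Gc w w).norm
  exact h1.inter h2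

/-- the observable `κ_zw |T_zw|²` -/
noncomputable def kT (A : Matrix ι ι ℝ) (U g e : ι → ℝ) (a : ι → ℝ) (z w : ι) (c : ι → ℝ) : ℝ :=
  kap A (Wc U g e c) z w * ‖Tm A (Wc U g e c) a z w‖ ^ 2

theorem kT_nonneg (hA : A.IsSymm) (he : ∀ x, 0 < e x) (z w : ι) (c : ι → ℝ) :
    0 ≤ kT A U g e a z w c :=
  mul_nonneg (kap_nonneg hA (Wc_neg he c) z w) (sq_nonneg _)

theorem measurable_kT (hA : A.IsSymm) (he : ∀ x, 0 < e x) (z w : ι) :
    Measurable fun c => kT A U g e a z w c :=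
  (measurable_kapc z w).mul ((measurable_Tmc hA he z w).norm.pow_const 2)

theorem bdd_kT (hA : A.IsSymm) (he : ∀ x, 0 < e x) (z w : ι) :
    ∃ M : ℝ, 0 ≤ M ∧ ∀ c, kT A U g e a z w c ≤ M := by
  obtain ⟨M, hM0, hM⟩ := bdd_Tmc (U := U) (g := g) (a := a) hA he z w
  refine ⟨M ^ 2, by positivity, fun c => ?_⟩
  have h1 := (kap_lt_one hA (Wc_neg (U := U) (g := g) he c) z w).le
  have h2 := pow_le_pow_left₀ (norm_nonneg _) (hM c) 2
  calc kT A U g e a z w c ≤ 1 * M ^ 2 := mul_le_mul h1 h2 (sq_nonneg _) zero_le_one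
    _ = M ^ 2 := one_mul _

/-- constant of (T2) -/
noncomputable def C2 (G X0 d0 : ℝ) : ℝ := 57274624 / cst G X0 d0

theorem C2_pos {G X0 d0 : ℝ} (hG : 0 < G) : 0 < C2 G X0 d0 :=
  div_pos (by norm_num) (cst_pos hG)

/-- **(T2).** One good kick at `y` creates `κ_zw` out of `κ_zy κ_yw`. -/
theorem T2 (hA : A.IsSymm) (he : ∀ x, 0 < e x) {y : ι} (hg : 0 < g y) {X0 d0 : ℝ} (hd : 0 < d0)
    {c : ι → ℝ} (hgy : Good A U g e X0 d0 c y) (z : ι) {w : ι} (hwy : w ≠ y)
    (hgw : Good A U g e X0 d0 c w) :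
    kap A (Wc U g e c) z y * kap A (Wc U g e c) y w * ‖Tm A (Wc U g e c) a z w‖ ^ 2 ≤
      C2 (g y) X0 d0 * Iop A U g e y
        ({c | Good A U g e X0 (d0 / 22) c w}.indicator (kT A U g e a z w)) c := by
  set Ψ : (ι → ℝ) → ℝ :=
    {c | Good A U g e X0 (d0 / 22) c w}.indicator (kT A U g e a z w) with hΨ
  have hΨm : Measurable Ψ := (measurable_kT hA he z w).indicator (measurableSet_Good _ _ w)
  have hΨ0 : ∀ c, 0 ≤ Ψ c := fun c => Set.indicator_nonneg (fun c _ => kT_nonneg hA he z w c) c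
  obtain ⟨M, hM0, hM⟩ := bdd_kT (U := U) (g := g) (a := a) hA he z w
  have hΨM : ∀ c, Ψ c ≤ M := fun c => by
    rw [hΨ]
    by_cases h : c ∈ {c | Good A U g e X0 (d0 / 22) c w}
    · rw [Set.indicator_of_mem h]; exact hM c
    · rw [Set.indicator_of_notMem h]; exact hM0
  have hI := Iop_ge (U := U) hA he hg hd hgy hΨm hΨ0 hΨM
  set L : ℝ := kap A (Wc U g e c) z y * kap A (Wc U g e c) y w *
    ‖Tm A (Wc U g e c) a z w‖ ^ 2 with hL
  have hline : Measurable fun x : ℝ => Function.update c y (tx A U g e c y x) := by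
    have h4 : Measurable fun x : ℝ => tx A U g e c y x := by
      unfold tx
      fun_prop
    exact (measurable_upd_line c y).comp h4
  have hf : (L / 7159328 / 2) / 4 ≤ ∫ x in (-1 : ℝ)..1,
      Ψ (Function.update c y (tx A U g e c y x)) / (1 + x ^ 2) := by
    refine five_int (M := M) ?_ ?_ ?_ ?_
    · exact (hΨm.comp hline).div (by fun_prop)
    · intro x
      exact div_nonneg (hΨ0 _) (one_add_sq_pos x).le
    · intro x
      rw [div_le_iff₀ (one_add_sq_pos x)]
      have := hΨM (Function.update c y (tx A U g e c y x))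
      nlinarith [sq_nonneg x]
    · intro u h0 h1
      obtain ⟨j, e1, e2⟩ := T2_pt (a := a) hA (Wc_neg (U := U) (g := g) he c) y z w h0 h1
      refine ⟨j, ?_⟩
      set x : ℝ := -1 + 3 / 8 * ((j : ℕ) : ℝ) + u with hx
      have hτ : tj (Gr A (Wc U g e c) y y) j u = g y * (tx A U g e c y x - c y) := by
        rw [g_mul_tx hg.ne', tj, pc]
        have e3 : (-1 / Gc A U g e c y y) = -(Gr A (Wc U g e c) y y)⁻¹ := by
          rw [neg_div, one_div]; rfl
        rw [e3, Complex.neg_re, Complex.neg_im, bet, hx]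
        ring
      rw [hτ, ← Wc_tx] at e1 e2
      have hmem : Function.update c y (tx A U g e c y x) ∈
          {c | Good A U g e X0 (d0 / 22) c w} := by
        refine ⟨?_, ?_⟩
        · rw [Function.update_of_ne hwy]; exact hgw.1
        · have h2 : ‖Gc A U g e c w w‖ ≤
              22 * ‖Gc A U g e (Function.update c y (tx A U g e c y x)) w w‖ := e2
          have h3 := hgw.2
          rw [div_le_iff₀ (by norm_num : (0 : ℝ) < 22)]
          linarith
      have hΨv : Ψ (Function.update c y (tx A U g e c y x)) =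
          kT A U g e a z w (Function.update c y (tx A U g e c y x)) := by
        rw [hΨ, Set.indicator_of_mem hmem]
      rw [hΨv, le_div_iff₀ (one_add_sq_pos x)]
      have hj := fin5_le j
      have hj0 : (0 : ℝ) ≤ ((j : ℕ) : ℝ) := Nat.cast_nonneg _
      have hx1 : 1 + x ^ 2 ≤ 2 := by
        have : |x| ≤ 1 := by rw [abs_le]; constructor <;> rw [hx] <;> linarith
        nlinarith [abs_le.1 this]
      have hL0 : 0 ≤ L := mul_nonneg (mul_nonneg (kap_nonneg hA (Wc_neg he c) z y)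
        (kap_nonneg hA (Wc_neg he c) y w)) (sq_nonneg _)
      have e4 : L ≤ 7159328 * kT A U g e a z w (Function.update c y (tx A U g e c y x)) := e1
      calc L / 7159328 / 2 * (1 + x ^ 2) ≤ L / 7159328 / 2 * 2 :=
            mul_le_mul_of_nonneg_left hx1 (by positivity)
        _ = L / 7159328 := by ring
        _ ≤ kT A U g e a z w (Function.update c y (tx A U g e c y x)) := by
            rw [div_le_iff₀ (by norm_num)]; linarith
  have hc := cst_pos (X0 := X0) (d0 := d0) hg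
  have h5 : cst (g y) X0 d0 * (L / 57274624) ≤ Iop A U g e y Ψ c := by
    refine le_trans ?_ hI
    refine mul_le_mul_of_nonneg_left ?_ hc.le
    calc L / 57274624 = (L / 7159328 / 2) / 4 := by ring
      _ ≤ _ := hf
  rw [C2, div_mul_eq_mul_div, le_div_iff₀ hc]
  have h6 : cst (g y) X0 d0 * (L / 57274624) * 57274624 ≤ Iop A U g e y Ψ c * 57274624 :=
    mul_le_mul_of_nonneg_right h5 (by norm_num)
  calc L * cst (g y) X0 d0 = cst (g y) X0 d0 * (L / 57274624) * 57274624 := by ring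
    _ ≤ Iop A U g e y Ψ c * 57274624 := h6
    _ = 57274624 * Iop A U g e y Ψ c := by ring

end P365L.Stat
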